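import Crest.Agent.R30.Defs

/-! # Row 30, task ANN: the polynomial `Uop J` in `K` nearly annihilates bounded functions -/

set_option autoImplicit false

namespace Crest.Agent.R30

open Crest.CombinatoricsR.TriangleRemoval Finset

namespace AnnA

variable {n : ℕ}

theorem A_symm (G : Gr n) (u v : Fin n) : A G u v = A G v u := by
  unfold A; rw [Sym2.eq_swap]

theorem A_nn (G : Gr n) (u v : Fin n) : 0 ≤ A G u v := by
  unfold A; split_ifs <;> norm_num

theorem A_diag {G : Gr n} (hG : G ⊆ allEdges n) (u : Fin n) : A G u u = 0 := by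
  unfold A
  rw [if_neg]
  intro h
  have := hG h
  simp [allEdges] at this

theorem A_mul_abs_le {G : Gr n} (hG : G ⊆ allEdges n) {δ : Fn n} {b : ℝ} (hδ : Bd δ b)
    (u w : Fin n) : A G u w * |δ u w| ≤ A G u w * b := by
  by_cases h : u = w
  · subst h; simp [A_diag hG]
  · exact mul_le_mul_of_nonneg_left (hδ u w h) (A_nn G u w)

/-- `opL` as a linear map. -/
noncomputable def LL (D : ℝ) (G : Gr n) : Module.End ℝ (Fn n) where
  toFun := opL D G
  map_add' δ δ' := by
    funext u v
    simp only [opL, Pi.add_apply, mul_add, Finset.sum_add_distrib, add_div]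
  map_smul' c δ := by
    funext u v
    simp only [opL, Pi.smul_apply, smul_eq_mul, RingHom.id_apply]
    rw [← mul_div_assoc, Finset.mul_sum]
    congr 1
    exact Finset.sum_congr rfl fun w _ => by ring

/-- `opR` as a linear map. -/
noncomputable def RR (D : ℝ) (G : Gr n) : Module.End ℝ (Fn n) where
  toFun := opR D G
  map_add' δ δ' := by
    funext u v
    simp only [opR, Pi.add_apply, mul_add, Finset.sum_add_distrib, add_div]
  map_smul' c δ := by
    funext u v
    simp only [opR, Pi.smul_apply, smul_eq_mul, RingHom.id_apply]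
    rw [← mul_div_assoc, Finset.mul_sum]
    congr 1
    exact Finset.sum_congr rfl fun w _ => by ring

/-- One letter. -/
noncomputable def XX (D : ℝ) (G : Gr n) (x : Bool) : Module.End ℝ (Fn n) :=
  if x then LL D G else RR D G

noncomputable def KK (D : ℝ) (G : Gr n) : Module.End ℝ (Fn n) := LL D G + RR D G

/-- A word. -/
noncomputable def WW (D : ℝ) (G : Gr n) (l : List Bool) : Module.End ℝ (Fn n) :=
  (l.map (XX D G)).prod

theorem WW_nil (D : ℝ) (G : Gr n) : WW D G [] = 1 := by simp [WW]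

theorem WW_append (D : ℝ) (G : Gr n) (l l' : List Bool) :
    WW D G (l ++ l') = WW D G l * WW D G l' := by simp [WW]

theorem WW_single (D : ℝ) (G : Gr n) (x : Bool) : WW D G [x] = XX D G x := by simp [WW]

theorem KK_eq (D : ℝ) (G : Gr n) (x : Bool) : KK D G = XX D G x + XX D G (!x) := by
  cases x <;> simp [KK, XX, add_comm]

theorem opW_congr (D : ℝ) (G : Gr n) (w w' : ℕ → Bool) (j : ℕ) (h : ∀ i < j, w i = w' i)
    (δ : Fn n) : opW D G w j δ = opW D G w' j δ := by
  induction j generalizing δ with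
  | zero => rfl
  | succ j ih =>
    simp only [opW]
    rw [h j (Nat.lt_succ_self j)]
    exact ih (fun i hi => h i (Nat.lt_succ_of_lt hi)) _

/-- The infinite word of a list. -/
def wd (l : List Bool) : ℕ → Bool := fun i => l.getD i false

theorem WW_eq (D : ℝ) (G : Gr n) (l : List Bool) (δ : Fn n) :
    WW D G l δ = opW D G (wd l) l.length δ := by
  induction l using List.reverseRecOn generalizing δ with
  | nil => simp [WW, opW]
  | append_singleton l x ih =>
    rw [WW_append, WW_single, Module.End.mul_apply, ih]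
    simp only [List.length_append, List.length_singleton, opW]
    have h1 : wd (l ++ [x]) l.length = x := by simp [wd]
    rw [h1, opW_congr D G (wd (l ++ [x])) (wd l) l.length]
    · congr 1
      cases x <;> simp [XX, LL, RR]
    · intro i hi
      simp [wd, List.getD_eq_getElem?_getD, List.getElem?_append_left hi]

theorem WW_rep (D : ℝ) (G : Gr n) (j : ℕ) (δ : Fn n) :
    WW D G (List.replicate j true) δ = opW D G (fun _ => true) j δ := by
  rw [WW_eq, List.length_replicate]
  apply opW_congr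
  intro i hi
  simp [wd, List.getD_eq_getElem?_getD, hi]

theorem WW_rep_false (D : ℝ) (G : Gr n) (j : ℕ) (δ : Fn n) (u v : Fin n) :
    WW D G (List.replicate j false) δ u v =
      WW D G (List.replicate j true) (fun a b => δ b a) v u := by
  induction j generalizing u v with
  | zero => simp [WW]
  | succ j ih =>
    have h1 : ∀ x : Bool, WW D G (List.replicate (j + 1) x) =
        XX D G x * WW D G (List.replicate j x) := by
      intro x; simp [WW, List.replicate_succ]
    rw [h1, h1, Module.End.mul_apply, Module.End.mul_apply]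
    show opR D G _ u v = opL D G _ v u
    simp only [opR, opL]
    congr 1
    refine Finset.sum_congr rfl fun w _ => ?_
    rw [ih]; ring

/-- Lists made of `m` blocks, each with both letters. -/
inductive BL : ℕ → List Bool → Prop
  | nil : BL 0 []
  | snoc {m : ℕ} {l l' : List Bool} : BL m l → true ∈ l' → false ∈ l' → BL (m + 1) (l ++ l')

theorem BL.blk {m : ℕ} {l : List Bool} (h : BL m l) : Blk (wd l) l.length m := by
  have key : ∃ τ : ℕ → ℕ, τ 0 = 0 ∧ τ m = l.length ∧ (∀ b ≤ m, τ b ≤ l.length) ∧ ∀ b < m,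
      (∃ i, τ b ≤ i ∧ i < τ (b + 1) ∧ wd l i = true) ∧
        (∃ i, τ b ≤ i ∧ i < τ (b + 1) ∧ wd l i = false) := by
    induction h with
    | nil => exact ⟨fun _ => 0, rfl, rfl, by simp, by simp⟩
    | @snoc m l l' _ ht hf ih =>
      obtain ⟨τ, h0, hm, hle, hb⟩ := ih
      have hw : ∀ i < l.length, wd (l ++ l') i = wd l i := by
        intro i hi
        simp [wd, List.getD_eq_getElem?_getD, List.getElem?_append_left hi]
      have hw' : ∀ x ∈ l', ∃ i, l.length ≤ i ∧ i < (l ++ l').length ∧ wd (l ++ l') i = x := by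
        intro x hx
        obtain ⟨i, hi, rfl⟩ := List.getElem_of_mem hx
        refine ⟨l.length + i, by omega, by simp; omega, ?_⟩
        simp [wd, List.getD_eq_getElem?_getD, hi]
      refine ⟨fun b => if b ≤ m then τ b else (l ++ l').length, by simp [h0], by simp, ?_, ?_⟩
      · intro b _
        dsimp only
        split_ifs with h
        · have := hle b h
          simp; omega
        · exact le_rfl
      · intro b hb'
        dsimp only
        by_cases hbm : b < m
        · rw [if_pos hbm.le, if_pos (by omega : b + 1 ≤ m)]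
          have hl := hle (b + 1) (by omega)
          obtain ⟨⟨i, h1, h2, h3⟩, ⟨i', h1', h2', h3'⟩⟩ := hb b hbm
          exact ⟨⟨i, h1, h2, by rw [hw i (by omega), h3]⟩, ⟨i', h1', h2', by
            rw [hw i' (by omega), h3']⟩⟩
        · have hbe : b = m := by omega
          subst hbe
          rw [if_pos le_rfl, if_neg (by omega), hm]
          exact ⟨hw' _ ht, hw' _ hf⟩
  obtain ⟨τ, h0, hm, -, hb⟩ := key
  exact ⟨τ, h0, hm, hb⟩

theorem Bd.mono {δ : Fn n} {b b' : ℝ} (h : Bd δ b) (hb : b ≤ b') : Bd δ b' :=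
  fun u v huv => (h u v huv).trans hb

theorem Bd.sub {δ δ' : Fn n} {b b' : ℝ} (h : Bd δ b) (h' : Bd δ' b') : Bd (δ - δ') (b + b') :=
  fun u v huv => by
    have := abs_sub (δ u v) (δ' u v)
    have h1 := h u v huv
    have h2 := h' u v huv
    simp only [Pi.sub_apply]
    linarith

theorem Bd.add {δ δ' : Fn n} {b b' : ℝ} (h : Bd δ b) (h' : Bd δ' b') : Bd (δ + δ') (b + b') :=
  fun u v huv => by
    have := abs_add_le (δ u v) (δ' u v)
    have h1 := h u v huv
    have h2 := h' u v huv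
    simp only [Pi.add_apply]
    linarith

section Reg

variable {G : Gr n} {D : ℝ}

theorem Y_le (hD : 0 < D) (hG : Reg G D 1) {u v : Fin n} (huv : u ≠ v) : Y G u v ≤ 2 * D := by
  have h := hG.2 u v huv
  have h2 : Y G u v / D - 1 ≤ 1 := (abs_le.1 h).2
  have h3 : Y G u v / D ≤ 2 := by linarith
  rwa [div_le_iff₀ hD] at h3

theorem bd_X (hD : 0 < D) (hG : Reg G D 1) (x : Bool) {δ : Fn n} {b : ℝ} (hb : 0 ≤ b)
    (h : Bd δ b) : Bd (XX D G x δ) (2 * b) := by
  intro u v huv
  have hY := Y_le hD hG huv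
  have key : ∀ f : Fin n → ℝ, (∀ w, |f w| ≤ A G u w * A G v w * b) →
      |(∑ w, f w) / D| ≤ 2 * b := by
    intro f hf
    rw [abs_div, abs_of_pos hD, div_le_iff₀ hD]
    calc |∑ w, f w| ≤ ∑ w, |f w| := Finset.abs_sum_le_sum_abs _ _
      _ ≤ ∑ w, A G u w * A G v w * b := Finset.sum_le_sum fun w _ => hf w
      _ = Y G u v * b := by rw [Y, Finset.sum_mul]
      _ ≤ 2 * D * b := mul_le_mul_of_nonneg_right hY hb
      _ = 2 * b * D := by ring
  cases x
  · refine key _ fun w => ?_
    rw [abs_mul, abs_of_nonneg (mul_nonneg (A_nn G u w) (A_nn G v w))]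
    have h1 := A_mul_abs_le hG.1 h w v
    rw [A_symm G w v] at h1
    have := mul_le_mul_of_nonneg_left h1 (A_nn G u w)
    linarith
  · refine key _ fun w => ?_
    rw [abs_mul, abs_of_nonneg (mul_nonneg (A_nn G u w) (A_nn G v w))]
    have h1 := A_mul_abs_le hG.1 h u w
    have := mul_le_mul_of_nonneg_left h1 (A_nn G v w)
    linarith

theorem bd_W (hD : 0 < D) (hG : Reg G D 1) (l : List Bool) {δ : Fn n} {b : ℝ} (hb : 0 ≤ b)
    (h : Bd δ b) : Bd (WW D G l δ) (2 ^ l.length * b) := by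
  induction l with
  | nil => simpa [WW] using h
  | cons x l ih =>
    have h1 : WW D G (x :: l) = XX D G x * WW D G l := by simp [WW]
    rw [h1, Module.End.mul_apply]
    have := bd_X hD hG x (by positivity) ih
    refine Bd.mono this (le_of_eq ?_)
    simp only [List.length_cons]; ring

theorem bd_K (hD : 0 < D) (hG : Reg G D 1) {δ : Fn n} {b : ℝ} (hb : 0 ≤ b)
    (h : Bd δ b) : Bd (KK D G δ) (4 * b) := by
  rw [KK_eq D G true, LinearMap.add_apply]
  exact Bd.mono (Bd.add (bd_X hD hG _ hb h) (bd_X hD hG _ hb h)) (le_of_eq (by ring))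

theorem bd_Kpow (hD : 0 < D) (hG : Reg G D 1) (i : ℕ) {δ : Fn n} {b : ℝ} (hb : 0 ≤ b)
    (h : Bd δ b) : Bd ((KK D G ^ i) δ) (4 ^ i * b) := by
  induction i with
  | zero => simpa using h
  | succ i ih =>
    rw [pow_succ', Module.End.mul_apply]
    exact Bd.mono (bd_K hD hG (by positivity) ih) (le_of_eq (by ring))

end Reg

section Expand

variable (D : ℝ) (G : Gr n) (φ : Fn n →ₗ[ℝ] ℝ) (γ : Fn n) (N : ℕ) (E : ℝ)

theorem exp_mixed (hE : ∀ l : List Bool, true ∈ l → false ∈ l → l.length ≤ N →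
      |φ (WW D G l γ)| ≤ E) (i : ℕ) (l : List Bool) (ht : true ∈ l) (hf : false ∈ l)
    (hl : l.length + i ≤ N) : |φ (WW D G l ((KK D G ^ i) γ))| ≤ 2 ^ i * E := by
  induction i generalizing l with
  | zero => simpa using hE l ht hf (by omega)
  | succ i ih =>
    have h1 : WW D G l ((KK D G ^ (i + 1)) γ) =
        WW D G (l ++ [true]) ((KK D G ^ i) γ) + WW D G (l ++ [false]) ((KK D G ^ i) γ) := by
      rw [pow_succ', WW_append, WW_append, WW_single, WW_single]
      nth_rewrite 1 [KK_eq D G true]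
      simp [Module.End.mul_apply]
    rw [h1, map_add]
    have a1 := ih (l ++ [true]) (by simp [ht]) (by simp [hf]) (by simp; omega)
    have a2 := ih (l ++ [false]) (by simp [ht]) (by simp [hf]) (by simp; omega)
    have := abs_add_le (φ (WW D G (l ++ [true]) ((KK D G ^ i) γ)))
      (φ (WW D G (l ++ [false]) ((KK D G ^ i) γ)))
    rw [pow_succ]; linarith

theorem exp_pure (hE0 : 0 ≤ E) (hE : ∀ l : List Bool, true ∈ l → false ∈ l → l.length ≤ N →
      |φ (WW D G l γ)| ≤ E) (x : Bool) (i : ℕ) (l : List Bool) (hx : x ∈ l)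
    (hl : l.length + i ≤ N) :
    |φ (WW D G l ((KK D G ^ i) γ)) - φ (WW D G (l ++ List.replicate i x) γ)| ≤ 2 ^ i * E := by
  induction i generalizing l with
  | zero => simpa using hE0
  | succ i ih =>
    have h1 : WW D G l ((KK D G ^ (i + 1)) γ) =
        WW D G (l ++ [x]) ((KK D G ^ i) γ) + WW D G (l ++ [!x]) ((KK D G ^ i) γ) := by
      rw [pow_succ', WW_append, WW_append, WW_single, WW_single]
      nth_rewrite 1 [KK_eq D G x]
      simp [Module.End.mul_apply]
    have h2 : l ++ List.replicate (i + 1) x = l ++ [x] ++ List.replicate i x := by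
      simp [List.replicate_succ]
    rw [h1, map_add, h2]
    have a1 := ih (l ++ [x]) (by simp [hx]) (by simp; omega)
    have a2 := exp_mixed D G φ γ N E hE i (l ++ [!x]) (by cases x <;> simp_all)
      (by cases x <;> simp_all) (by simp; omega)
    have := abs_add_le (φ (WW D G (l ++ [x]) ((KK D G ^ i) γ)) -
      φ (WW D G (l ++ [x] ++ List.replicate i x) γ)) (φ (WW D G (l ++ [!x]) ((KK D G ^ i) γ)))
    have h3 : φ (WW D G (l ++ [x]) ((KK D G ^ i) γ)) + φ (WW D G (l ++ [!x]) ((KK D G ^ i) γ)) -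
        φ (WW D G (l ++ [x] ++ List.replicate i x) γ) = φ (WW D G (l ++ [x]) ((KK D G ^ i) γ)) -
      φ (WW D G (l ++ [x] ++ List.replicate i x) γ) + φ (WW D G (l ++ [!x]) ((KK D G ^ i) γ)) := by
      ring
    rw [h3, pow_succ]; linarith

theorem exp_K (hE0 : 0 ≤ E) (hE : ∀ l : List Bool, true ∈ l → false ∈ l → l.length ≤ N →
      |φ (WW D G l γ)| ≤ E) (i : ℕ) (hi : i + 1 ≤ N) :
    |φ ((KK D G ^ (i + 1)) γ) - φ (WW D G (List.replicate (i + 1) true) γ) -
      φ (WW D G (List.replicate (i + 1) false) γ)| ≤ 2 ^ (i + 1) * E := by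
  have h1 : (KK D G ^ (i + 1)) γ =
      WW D G [true] ((KK D G ^ i) γ) + WW D G [false] ((KK D G ^ i) γ) := by
    rw [pow_succ', WW_single, WW_single]
    nth_rewrite 1 [KK_eq D G true]
    simp [Module.End.mul_apply]
  have a1 := exp_pure D G φ γ N E hE0 hE true i [true] (by simp) (by simp; omega)
  have a2 := exp_pure D G φ γ N E hE0 hE false i [false] (by simp) (by simp; omega)
  rw [h1, map_add]
  simp only [List.replicate_succ]
  simp only [List.singleton_append] at a1 a2
  rw [abs_le] at a1 a2 ⊢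
  rw [pow_succ]
  constructor <;> linarith [a1.1, a1.2, a2.1, a2.2]

end Expand

/-- The block operator. -/
noncomputable def BB (D : ℝ) (G : Gr n) (j : ℕ) : Module.End ℝ (Fn n) :=
  KK D G ^ (j + 2) - KK D G ^ (j + 1)

theorem bd_Bpow {G : Gr n} {D : ℝ} (hD : 0 < D) (hG : Reg G D 1) (j t : ℕ) {δ : Fn n} {b : ℝ}
    (hb : 0 ≤ b) (h : Bd δ b) : Bd ((BB D G j ^ t) δ) ((4 ^ (j + 2) + 4 ^ (j + 1)) ^ t * b) := by
  induction t with
  | zero => simpa using h
  | succ t ih =>
    rw [pow_succ', Module.End.mul_apply, BB, LinearMap.sub_apply]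
    have h0 : 0 ≤ ((4 : ℝ) ^ (j + 2) + 4 ^ (j + 1)) ^ t * b := by positivity
    exact Bd.mono (Bd.sub (bd_Kpow hD hG _ h0 ih) (bd_Kpow hD hG _ h0 ih)) (le_of_eq (by ring))

/-- Evaluation as a linear functional. -/
noncomputable def ev (u v : Fin n) : Fn n →ₗ[ℝ] ℝ where
  toFun δ := δ u v
  map_add' _ _ := rfl
  map_smul' _ _ := rfl

theorem main_ind (j m : ℕ) (C : ℝ) (hC : 0 ≤ C) (t : ℕ) : ∃ Ct : ℝ, 0 ≤ Ct ∧
    ∀ (n : ℕ) (G : Gr n) (D ε : ℝ) (P0 : Fn n → ℝ), 0 < D → Reg G D 1 → 0 ≤ ε →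
      (∀ l, BL m l → l.length ≤ m * (j + 2) → ∀ (δ : Fn n) (b : ℝ), 0 ≤ b → Bd δ b →
        ∀ u v, u ≠ v → |WW D G l δ u v - P0 δ| ≤ C * ε * b) →
      (∀ (x : Bool) (δ : Fn n) (b : ℝ), 0 ≤ b → Bd δ b →
        Bd (WW D G (List.replicate (j + 2) x) δ - WW D G (List.replicate (j + 1) x) δ)
          (C * ε * b)) →
      ∀ (s : ℕ) (l : List Bool), s + t = m → BL s l → l.length ≤ s * (j + 2) →
        ∀ (δ : Fn n) (b : ℝ), 0 ≤ b → Bd δ b → |P0 δ| ≤ ε * b →
          Bd (WW D G l ((BB D G j ^ t) δ)) (Ct * ε * b) := by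
  induction t with
  | zero =>
    refine ⟨C + 1, by positivity, ?_⟩
    intro n G D ε P0 _ _ _ h0 _ s l hs hl hlen δ b hb hδ hP u v huv
    have hs' : s = m := by omega
    subst hs'
    have h1 := h0 l hl hlen δ b hb hδ u v huv
    simp only [pow_zero, Module.End.one_apply]
    have h2 := abs_add_le (WW D G l δ u v - P0 δ) (P0 δ)
    rw [sub_add_cancel] at h2
    linarith
  | succ t ih =>
    obtain ⟨Ct, hCt, ih⟩ := ih
    refine ⟨(2 ^ (j + 2) + 2 ^ (j + 1)) * Ct +
      2 * (2 ^ (m * (j + 2)) * (C * (4 ^ (j + 2) + 4 ^ (j + 1)) ^ t)), by positivity, ?_⟩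
    intro n G D ε P0 hD hG hε h0 h1 s l hs hl hlen δ b hb hδ hP u v huv
    set γ := (BB D G j ^ t) δ with hγ
    have hγb := bd_Bpow hD hG j t hb hδ
    rw [← hγ] at hγb
    set φ : Fn n →ₗ[ℝ] ℝ := (ev u v).comp (WW D G l) with hφ
    have hφa : ∀ f, φ f = WW D G l f u v := fun f => rfl
    have hE0 : 0 ≤ Ct * ε * b := by positivity
    have hE : ∀ l' : List Bool, true ∈ l' → false ∈ l' → l'.length ≤ j + 2 →
        |φ (WW D G l' γ)| ≤ Ct * ε * b := by
      intro l' ht hf hl'
      have := ih n G D ε P0 hD hG hε h0 h1 (s + 1) (l ++ l') (by omega) (BL.snoc hl ht hf)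
        (by rw [List.length_append, Nat.succ_mul]; omega) δ b hb hδ hP u v huv
      rwa [WW_append, Module.End.mul_apply] at this
    have a1 := exp_K D G φ γ (j + 2) _ hE0 hE (j + 1) le_rfl
    have a2 := exp_K D G φ γ (j + 2) _ hE0 hE j (by omega)
    have a3 : ∀ x : Bool, |φ (WW D G (List.replicate (j + 2) x) γ) -
        φ (WW D G (List.replicate (j + 1) x) γ)| ≤
        2 ^ (m * (j + 2)) * (C * (4 ^ (j + 2) + 4 ^ (j + 1)) ^ t) * ε * b := by
      intro x
      rw [← map_sub, hφa]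
      have h2 := h1 x γ _ (by positivity) hγb
      have h3 := bd_W hD hG l (by positivity) h2 u v huv
      refine h3.trans ?_
      have h4 : (2 : ℝ) ^ l.length ≤ 2 ^ (m * (j + 2)) :=
        pow_le_pow_right₀ (by norm_num) (hlen.trans (Nat.mul_le_mul_right _ (by omega)))
      calc (2 : ℝ) ^ l.length * (C * ε * ((4 ^ (j + 2) + 4 ^ (j + 1)) ^ t * b))
          ≤ 2 ^ (m * (j + 2)) * (C * ε * ((4 ^ (j + 2) + 4 ^ (j + 1)) ^ t * b)) :=
            mul_le_mul_of_nonneg_right h4 (by positivity)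
        _ = _ := by ring
    have h5 : WW D G l ((BB D G j ^ (t + 1)) δ) u v =
        φ ((KK D G ^ (j + 1 + 1)) γ) - φ ((KK D G ^ (j + 1)) γ) := by
      rw [pow_succ', Module.End.mul_apply, ← hγ, ← map_sub, hφa]
      rfl
    rw [h5]
    have a4 := a3 true
    have a5 := a3 false
    rw [abs_le] at a1 a2 a4 a5 ⊢
    have e1 : j + 1 + 1 = j + 2 := rfl
    rw [e1] at a1 ⊢
    constructor <;> nlinarith [a1.1, a1.2, a2.1, a2.2, a4.1, a4.2, a5.1, a5.2]

theorem deg_le {m0 v0 : ℕ} {p ε : ℝ} {G : Gr n} (hG : G ⊆ allEdges n) (hv : 2 ≤ v0)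
    (hE : Ext m0 v0 p ε G) (u : Fin n) : ∑ w, A G u w ≤ (1 + ε) * n * p := by
  classical
  have hs : Safe m0 ({0} : Finset (Fin 2)) {((0 : Fin 2), (1 : Fin 2))} := by
    refine ⟨by simp, fun S hS => Or.inl ?_⟩
    by_cases h1 : (1 : Fin 2) ∈ S
    · have h2 : 1 ≤ (S \ {0}).card := Finset.card_pos.2 ⟨1, by simp [h1]⟩
      have h3 : eIn {((0 : Fin 2), (1 : Fin 2))} S ≤ 1 :=
        (Finset.card_filter_le _ _).trans (by simp)
      omega
    · have : eIn {((0 : Fin 2), (1 : Fin 2))} S = 0 := by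
        simp [eIn, h1]
      omega
  have h := hE 2 hv _ _ hs (fun _ => u)
  simp only [Finset.card_singleton, pow_one, Nat.add_one_sub_one] at h
  refine le_trans ?_ h
  have h1 : ∑ w, A G u w = ((Finset.univ.filter fun w => s(u, w) ∈ G).card : ℝ) := by
    simp [A]
  rw [h1, Nat.cast_le, Cnt]
  refine Finset.card_le_card_of_injOn (fun w => ![u, w]) ?_ ?_
  · intro w hw
    have hw' : s(u, w) ∈ G := by simpa using hw
    have hne : u ≠ w := by
      have := hG hw'
      simpa [allEdges] using this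
    simp only [Finset.coe_filter, Finset.mem_univ, true_and, Set.mem_ofPred_eq]
    refine ⟨?_, by simp, by simpa using hw'⟩
    intro a b hab
    fin_cases a <;> fin_cases b <;> simp_all [eq_comm]
  · intro w _ w' _ h
    have := congrFun h 1
    simpa using this

theorem pi0_bound {G : Gr n} {p D ε : ℝ} (hp : 0 < p) (_hD : 0 < D) (hε : 0 ≤ ε) (hε1 : ε ≤ 1)
    (hG : Reg G D ε) (hdeg : ∀ u, ∑ w, A G u w ≤ (1 + ε) * n * p) (hn : 0 < n) {δ : Fn n} {b : ℝ}
    (hb : 0 ≤ b) (hδ : Bd δ b) : |Pi0 p G ((KK D G - 2) δ)| ≤ ε * (6 * b) := by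
  have hn' : (0 : ℝ) < n := Nat.cast_pos.2 hn
  have e1 : ∑ a, ∑ c, A G a c * opL D G δ a c = ∑ a, ∑ w, A G a w * δ a w * (Y G a w / D) := by
    refine Finset.sum_congr rfl fun a _ => ?_
    simp only [opL, Y, Finset.sum_div, Finset.mul_sum]
    rw [Finset.sum_comm]
    refine Finset.sum_congr rfl fun w _ => Finset.sum_congr rfl fun c _ => ?_
    rw [A_symm G c w]; ring
  have e2 : ∑ a, ∑ c, A G a c * opR D G δ a c = ∑ a, ∑ w, A G a w * δ a w * (Y G a w / D) := by
    rw [Finset.sum_comm, Finset.sum_comm (f := fun a w => A G a w * δ a w * (Y G a w / D))]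
    refine Finset.sum_congr rfl fun c _ => ?_
    simp only [opR, Y, Finset.sum_div, Finset.mul_sum]
    rw [Finset.sum_comm]
    refine Finset.sum_congr rfl fun w _ => Finset.sum_congr rfl fun a _ => ?_
    rw [A_symm G c w, A_symm G a c, A_symm G a w]; ring
  have e3 : ∑ a, ∑ c, A G a c * ((KK D G - 2) δ) a c =
      2 * ∑ a, ∑ w, A G a w * δ a w * yy D G a w := by
    have : ∀ a c, A G a c * ((KK D G - 2) δ) a c =
        A G a c * opL D G δ a c + A G a c * opR D G δ a c - 2 * (A G a c * δ a c) := by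
      intro a c
      have h2 : ((2 : Module.End ℝ (Fn n)) δ) = δ + δ := by
        rw [← one_add_one_eq_two, LinearMap.add_apply, Module.End.one_apply]
      rw [LinearMap.sub_apply, h2]
      show A G a c * (opL D G δ a c + opR D G δ a c - (δ a c + δ a c)) = _
      ring
    simp only [this, Finset.sum_sub_distrib, Finset.sum_add_distrib]
    rw [e1, e2]
    simp only [yy, mul_sub, Finset.sum_sub_distrib, ← Finset.mul_sum, mul_one]
    ring
  have e4 : |∑ a, ∑ w, A G a w * δ a w * yy D G a w| ≤ (n : ℝ) * ((1 + ε) * n * p) * (b * ε) := by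
    calc |∑ a, ∑ w, A G a w * δ a w * yy D G a w|
        ≤ ∑ a, ∑ w, |A G a w * δ a w * yy D G a w| :=
          (Finset.abs_sum_le_sum_abs _ _).trans
            (Finset.sum_le_sum fun a _ => Finset.abs_sum_le_sum_abs _ _)
      _ ≤ ∑ a, ∑ w, A G a w * (b * ε) := by
          refine Finset.sum_le_sum fun a _ => Finset.sum_le_sum fun w _ => ?_
          by_cases h : a = w
          · subst h; simp [A_diag hG.1]
          · rw [mul_assoc, abs_mul, abs_of_nonneg (A_nn G a w), abs_mul]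
            exact mul_le_mul_of_nonneg_left
              (mul_le_mul (hδ a w h) (hG.2 a w h) (abs_nonneg _) hb) (A_nn G a w)
      _ ≤ ∑ _a : Fin n, (1 + ε) * n * p * (b * ε) := by
          refine Finset.sum_le_sum fun a _ => ?_
          rw [← Finset.sum_mul]
          exact mul_le_mul_of_nonneg_right (hdeg a) (by positivity)
      _ = _ := by simp; ring
  rw [Pi0, e3, abs_div, abs_of_pos (by positivity : (0 : ℝ) < (n : ℝ) ^ 2 * p),
    div_le_iff₀ (by positivity), abs_mul, abs_two]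
  have h0 : 0 ≤ (n : ℝ) ^ 2 * p * (b * ε) := by positivity
  nlinarith [mul_le_mul_of_nonneg_left hε1 h0]

/-- The sequence of shifts. -/
noncomputable def lamS (m : ℕ) (i : ℕ) : ℝ := if i = 0 then 2 else if i ≤ m then 1 else 0

theorem Uop_succ (D : ℝ) (G : Gr n) (lam : ℕ → ℝ) (i : ℕ) (δ : Fn n) :
    Uop D G lam (i + 1) δ = KK D G (Uop D G lam i δ) - lam i • Uop D G lam i δ := rfl

theorem Uop_a (D : ℝ) (G : Gr n) (m t : ℕ) (ht : t ≤ m) (δ : Fn n) :
    Uop D G (lamS m) (t + 1) δ = ((KK D G - 1) ^ t) ((KK D G - 2) δ) := by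
  induction t with
  | zero =>
    have h2 : ((2 : Module.End ℝ (Fn n)) δ) = (2 : ℝ) • δ := by
      rw [← one_add_one_eq_two, LinearMap.add_apply, Module.End.one_apply, two_smul]
    rw [Uop_succ]
    simp [lamS, Uop, h2]
  | succ t ih =>
    rw [Uop_succ, ih (by omega), pow_succ', Module.End.mul_apply]
    have : lamS m (t + 1) = 1 := by simp [lamS, ht]
    rw [this, one_smul, LinearMap.sub_apply (KK D G) 1, Module.End.one_apply]

theorem Uop_b (D : ℝ) (G : Gr n) (m s : ℕ) (δ : Fn n) :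
    Uop D G (lamS m) (m + s + 1) δ = (KK D G ^ s) (((KK D G - 1) ^ m) ((KK D G - 2) δ)) := by
  induction s with
  | zero => simpa using Uop_a D G m m le_rfl δ
  | succ s ih =>
    have e : m + (s + 1) + 1 = (m + s + 1) + 1 := by ring
    rw [e, Uop_succ, ih, pow_succ', Module.End.mul_apply]
    have : lamS m (m + s + 1) = 0 := by
      unfold lamS
      rw [if_neg (by omega), if_neg (by omega)]
    rw [this, zero_smul, sub_zero]

theorem Uop_c (D : ℝ) (G : Gr n) (m j : ℕ) (δ : Fn n) :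
    Uop D G (lamS m) (m + (j + 1) * m + 1) δ = (BB D G j ^ m) ((KK D G - 2) δ) := by
  rw [Uop_b, ← Module.End.mul_apply, pow_mul]
  have hc : Commute (KK D G ^ (j + 1)) (KK D G - 1) :=
    Commute.pow_left ((Commute.refl _).sub_right (Commute.one_right _)) _
  rw [← hc.mul_pow]
  have : KK D G ^ (j + 1) * (KK D G - 1) = BB D G j := by
    rw [BB, mul_sub, mul_one, ← pow_succ]
  rw [this]

end AnnA

open AnnA in
theorem ann_proof (hS : SafeStmt) (hM : MixStmt) : AnnStmt := by
  intro m0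
  obtain ⟨C, hC, hM⟩ := hM ((m0 + 2) * (m0 + 2))
  obtain ⟨Ct, hCt, hI⟩ := main_ind m0 (m0 + 2) (2 * C) (by positivity) (m0 + 2)
  refine ⟨(m0 + 2) + (m0 + 1) * (m0 + 2) + 1, (m0 + 2) * (m0 + 2) + 2, lamS (m0 + 2), Ct * 6,
    by omega, by omega, ?_, by positivity, ?_⟩
  · intro i
    unfold lamS
    split_ifs <;> norm_num
  intro n G p D η ε hp hD h1D hη hDε hε1 hG hE δ b hb hδ u v huv
  have hD0 : 0 < D := by linarith
  have hε0 : 0 ≤ ε := le_trans (by positivity) hDε
  have hGε : Reg G D ε := ⟨hG.1, Bd.mono hG.2 hη⟩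
  have hG1 : Reg G D 1 := ⟨hG.1, Bd.mono hGε.2 hε1⟩
  have hn : 0 < n := Fin.pos u
  have hL : ∀ j, m0 + 1 ≤ j → j ≤ m0 + 2 → ∀ (δ : Fn n) (b : ℝ), 0 ≤ b → Bd δ b → ∀ u v, u ≠ v →
      |WW D G (List.replicate j true) δ u v - Pi1 p G δ u| ≤ C * ε * b := by
    intro j h1 h2 δ b hb hδ u v huv
    rw [WW_rep]
    exact (hM m0 n G p D η ε (fun _ => true) j hp hD h1D hη hDε hε1 hG hE (by omega)
      (by nlinarith) (hS.1 m0 j h1).1 δ b hb hδ u v huv).2 (hS.1 m0 j h1).2
  have hL2 : ∀ (δ : Fn n) (b : ℝ), 0 ≤ b → Bd δ b → ∀ u v, u ≠ v →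
      |WW D G (List.replicate (m0 + 2) true) δ u v -
        WW D G (List.replicate (m0 + 1) true) δ u v| ≤ 2 * C * ε * b := by
    intro δ b hb hδ u v huv
    have a1 := hL (m0 + 2) (by omega) le_rfl δ b hb hδ u v huv
    have a2 := hL (m0 + 1) le_rfl (by omega) δ b hb hδ u v huv
    rw [abs_le] at a1 a2 ⊢
    constructor <;> linarith [a1.1, a1.2, a2.1, a2.2]
  have hδ' : Bd ((KK D G - 2) δ) (6 * b) := by
    have h2 : ((2 : Module.End ℝ (Fn n)) δ) = δ + δ := by
      rw [← one_add_one_eq_two, LinearMap.add_apply, Module.End.one_apply]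
    rw [LinearMap.sub_apply, h2]
    exact Bd.mono (Bd.sub (bd_K hD0 hG1 hb hδ) (Bd.add hδ hδ)) (le_of_eq (by ring))
  have hP := pi0_bound hp hD0 hε0 hε1 hGε (deg_le hG.1 (by omega) hE) hn hb hδ
  have key := hI n G D ε (Pi0 p G) hD0 hG1 hε0 ?_ ?_ 0 [] (by omega) BL.nil (by simp) _ _
    (by positivity) hδ' hP u v huv
  · rw [Uop_c]
    rw [WW_nil, Module.End.one_apply] at key
    refine key.trans (le_of_eq (by ring))
  · intro l hl hlen δ b hb hδ u v huv
    have hB := hS.2 m0 l.length (wd l) hl.blk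
    have h1 : 1 ≤ l.length := by
      rcases Nat.eq_zero_or_pos l.length with h | h
      · have := hB.2.1
        rw [h] at this
        simp [cur] at this
      · exact h
    rw [WW_eq]
    have := (hM m0 n G p D η ε (wd l) l.length hp hD h1D hη hDε hε1 hG hE h1 hlen hB.1 δ b hb hδ
      u v huv).1 hB.2.1 hB.2.2
    refine this.trans ?_
    have : 0 ≤ C * ε * b := by positivity
    linarith
  · intro x δ b hb hδ u v huv
    cases x
    · simp only [Pi.sub_apply]
      rw [WW_rep_false, WW_rep_false]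
      exact hL2 _ b hb (fun a c hac => hδ c a (Ne.symm hac)) v u (Ne.symm huv)
    · exact hL2 δ b hb hδ u v huv

end Crest.Agent.R30
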