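import Crest.Agent.R30.Defs

/-! # Row 30: elementary lemmas shared by the tasks -/

set_option autoImplicit false

namespace Crest.Agent.R30

open Crest.CombinatoricsR.TriangleRemoval Finset

section Graph

variable {n : ℕ}

theorem A_symm (G : Gr n) (u v : Fin n) : A G u v = A G v u := by
  unfold A; rw [Sym2.eq_swap]

theorem A_nonneg (G : Gr n) (u v : Fin n) : 0 ≤ A G u v := by
  unfold A; split_ifs <;> norm_num

theorem A_le_one (G : Gr n) (u v : Fin n) : A G u v ≤ 1 := by
  unfold A; split_ifs <;> norm_num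

theorem A_of_mem {G : Gr n} {u v : Fin n} (h : s(u, v) ∈ G) : A G u v = 1 := by
  unfold A; rw [if_pos h]

theorem A_of_not_mem {G : Gr n} {u v : Fin n} (h : s(u, v) ∉ G) : A G u v = 0 := by
  unfold A; rw [if_neg h]

theorem mem_allEdges {u v : Fin n} : s(u, v) ∈ allEdges n ↔ u ≠ v := by
  simp [allEdges]

theorem ne_of_mem {G : Gr n} (hG : G ⊆ allEdges n) {u v : Fin n} (h : s(u, v) ∈ G) : u ≠ v :=
  mem_allEdges.1 (hG h)

theorem ne_of_A {G : Gr n} (hG : G ⊆ allEdges n) {u v : Fin n} (h : A G u v ≠ 0) : u ≠ v := by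
  by_cases hm : s(u, v) ∈ G
  · exact ne_of_mem hG hm
  · exact absurd (A_of_not_mem hm) h

theorem Y_symm (G : Gr n) (u v : Fin n) : Y G u v = Y G v u := by
  unfold Y; exact Finset.sum_congr rfl fun w _ => mul_comm _ _

theorem Y_nonneg (G : Gr n) (u v : Fin n) : 0 ≤ Y G u v :=
  Finset.sum_nonneg fun w _ => mul_nonneg (A_nonneg G u w) (A_nonneg G v w)

theorem Y_eq_card (G : Gr n) (u v : Fin n) :
    Y G u v = ((Finset.univ.filter fun w => s(u, w) ∈ G ∧ s(v, w) ∈ G).card : ℝ) := by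
  unfold Y
  rw [Finset.card_filter]
  push_cast
  refine Finset.sum_congr rfl fun w _ => ?_
  unfold A
  by_cases h1 : s(u, w) ∈ G <;> by_cases h2 : s(v, w) ∈ G <;> simp [h1, h2]

theorem yy_symm (D : ℝ) (G : Gr n) (u v : Fin n) : yy D G u v = yy D G v u := by
  unfold yy; rw [Y_symm]

theorem Y_eq_yy {D : ℝ} (hD : 0 < D) (G : Gr n) (u v : Fin n) :
    Y G u v = D * (1 + yy D G u v) := by
  unfold yy; field_simp; ring

theorem Y_le {G : Gr n} {D η : ℝ} (hD : 0 < D) (h : Reg G D η) {u v : Fin n} (huv : u ≠ v) :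
    Y G u v ≤ (1 + η) * D := by
  have := (abs_le.1 (h.2 u v huv)).2
  rw [Y_eq_yy hD]; nlinarith

theorem Y_ge {G : Gr n} {D η : ℝ} (hD : 0 < D) (h : Reg G D η) {u v : Fin n} (huv : u ≠ v) :
    (1 - η) * D ≤ Y G u v := by
  have := (abs_le.1 (h.2 u v huv)).1
  rw [Y_eq_yy hD]; nlinarith

theorem Bd.mono {δ : Fn n} {b b' : ℝ} (h : Bd δ b) (hb : b ≤ b') : Bd δ b' :=
  fun u v huv => (h u v huv).trans hb

theorem Reg.mono {G : Gr n} {D η η' : ℝ} (h : Reg G D η) (hη : η ≤ η') : Reg G D η' :=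
  ⟨h.1, h.2.mono hη⟩

theorem abs_sum_AA_le {G : Gr n} (f : Fin n → ℝ) {b : ℝ} (u v : Fin n)
    (hf : ∀ w, s(u, w) ∈ G → s(v, w) ∈ G → |f w| ≤ b) :
    |∑ w, A G u w * A G v w * f w| ≤ Y G u v * b := by
  unfold Y
  rw [Finset.sum_mul]
  refine (Finset.abs_sum_le_sum_abs _ _).trans (Finset.sum_le_sum fun w _ => ?_)
  by_cases h1 : s(u, w) ∈ G
  · by_cases h2 : s(v, w) ∈ G
    · rw [A_of_mem h1, A_of_mem h2]; simpa using hf w h1 h2
    · rw [A_of_not_mem h2]; simp
  · rw [A_of_not_mem h1]; simp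

theorem Bd_opL {G : Gr n} {D η b : ℝ} {δ : Fn n} (hD : 0 < D) (h : Reg G D η) (hb : 0 ≤ b)
    (hδ : Bd δ b) : Bd (opL D G δ) ((1 + η) * b) := by
  intro u v huv
  unfold opL
  rw [abs_div, abs_of_pos hD, div_le_iff₀ hD]
  have h1 := abs_sum_AA_le (G := G) (fun w => δ u w) u v
    (fun w hw _ => hδ u w (ne_of_mem h.1 hw))
  have h2 := Y_le hD h huv
  nlinarith

theorem Bd_opR {G : Gr n} {D η b : ℝ} {δ : Fn n} (hD : 0 < D) (h : Reg G D η) (hb : 0 ≤ b)
    (hδ : Bd δ b) : Bd (opR D G δ) ((1 + η) * b) := by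
  intro u v huv
  unfold opR
  rw [abs_div, abs_of_pos hD, div_le_iff₀ hD]
  have h1 := abs_sum_AA_le (G := G) (fun w => δ w v) u v
    (fun w _ hw => hδ w v (ne_of_mem h.1 hw).symm)
  have h2 := Y_le hD h huv
  nlinarith

theorem Bd_opK {G : Gr n} {D η b : ℝ} {δ : Fn n} (hD : 0 < D) (h : Reg G D η) (hb : 0 ≤ b)
    (hδ : Bd δ b) : Bd (opK D G δ) (2 * (1 + η) * b) := by
  intro u v huv
  unfold opK
  have h1 := Bd_opL hD h hb hδ u v huv
  have h2 := Bd_opR hD h hb hδ u v huv
  have := abs_add_le (opL D G δ u v) (opR D G δ u v)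
  linarith

/-- With `Y ≤ 2D` and `lam ∈ [0,2]`, `K - lam` multiplies bounds by at most `6`. -/
theorem Bd_opS {G : Gr n} {D b lam : ℝ} {δ : Fn n} (hD : 0 < D) (h : Reg G D 1) (hb : 0 ≤ b)
    (h0 : 0 ≤ lam) (h2 : lam ≤ 2) (hδ : Bd δ b) : Bd (opS D G lam δ) (6 * b) := by
  intro u v huv
  unfold opS
  have h1 := Bd_opK hD h hb hδ u v huv
  have h3 : |lam * δ u v| ≤ 2 * b := by
    rw [abs_mul, abs_of_nonneg h0]
    exact mul_le_mul h2 (hδ u v huv) (abs_nonneg _) (by norm_num)
  have := abs_sub (opK D G δ u v) (lam * δ u v)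
  linarith

theorem Bd_Uop {G : Gr n} {D b : ℝ} {lam : ℕ → ℝ} {δ : Fn n} (hD : 0 < D) (h : Reg G D 1)
    (hb : 0 ≤ b) (hl : ∀ i, 0 ≤ lam i ∧ lam i ≤ 2) (hδ : Bd δ b) (i : ℕ) :
    Bd (Uop D G lam i δ) (6 ^ i * b) := by
  induction i with
  | zero => simpa [Uop] using hδ
  | succ i ih =>
    have := Bd_opS hD h (by positivity) (hl i).1 (hl i).2 ih
    refine this.mono (le_of_eq ?_)
    ring

theorem mem_triangles {G : Gr n} {t : Finset (Fin n)} :
    t ∈ triangles G ↔ t.card = 3 ∧ ∀ u ∈ t, ∀ v ∈ t, u ≠ v → s(u, v) ∈ G := by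
  simp [triangles, Finset.mem_powersetCard]

theorem mem_T {t : Finset (Fin n)} : t ∈ T n ↔ t.card = 3 := by
  simp [T, Finset.mem_powersetCard]

theorem card_T (n : ℕ) : (T n).card = n.choose 3 := by
  simp [T]

theorem triangles_subset_T (G : Gr n) : triangles G ⊆ T n := fun _ ht =>
  mem_T.2 (mem_triangles.1 ht).1

theorem T_nonempty (hn : 3 ≤ n) : (T n).Nonempty := by
  rw [← Finset.card_pos, card_T]; exact Nat.choose_pos hn

theorem triple_mem_triangles {G : Gr n} (hG : G ⊆ allEdges n) {u v w : Fin n}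
    (h1 : s(u, v) ∈ G) (h2 : s(u, w) ∈ G) (h3 : s(v, w) ∈ G) :
    ({u, v, w} : Finset (Fin n)) ∈ triangles G := by
  have n1 := ne_of_mem hG h1
  have n2 := ne_of_mem hG h2
  have n3 := ne_of_mem hG h3
  refine mem_triangles.2 ⟨Finset.card_eq_three.2 ⟨u, v, w, n1, n2, n3, rfl⟩, ?_⟩
  intro a ha b hb hab
  simp only [Finset.mem_insert, Finset.mem_singleton] at ha hb
  rcases ha with rfl | rfl | rfl <;> rcases hb with rfl | rfl | rfl <;>
    first | exact absurd rfl hab | assumption | (rw [Sym2.eq_swap]; assumption)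

/-- The triangles through an edge are counted by the codegree. -/
theorem tri_count {G : Gr n} (hG : G ⊆ allEdges n) {u v : Fin n} (huv : s(u, v) ∈ G) :
    (((triangles G).filter fun t => u ∈ t ∧ v ∈ t).card : ℝ) = Y G u v := by
  rw [Y_eq_card]
  have n1 := ne_of_mem hG huv
  congr 1
  symm
  refine Finset.card_bij (fun w _ => ({u, v, w} : Finset (Fin n))) ?_ ?_ ?_
  · intro w hw
    simp only [Finset.mem_filter, Finset.mem_univ, true_and] at hw
    exact Finset.mem_filter.2 ⟨triple_mem_triangles hG huv hw.1 hw.2, by simp, by simp⟩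
  · intro w hw w' hw' h
    simp only [Finset.mem_filter, Finset.mem_univ, true_and] at hw hw'
    have n2 := ne_of_mem hG hw.1
    have n3 := ne_of_mem hG hw.2
    have : w ∈ ({u, v, w'} : Finset (Fin n)) := by rw [← h]; simp
    simp only [Finset.mem_insert, Finset.mem_singleton] at this
    rcases this with rfl | rfl | rfl
    · exact absurd rfl n2
    · exact absurd rfl n3
    · rfl
  · intro t ht
    obtain ⟨ht, hu, hv⟩ := Finset.mem_filter.1 ht
    obtain ⟨hc, he⟩ := mem_triangles.1 ht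
    have hc' : ((t.erase u).erase v).card = 1 := by
      rw [Finset.card_erase_of_mem (Finset.mem_erase.2 ⟨n1.symm, hv⟩),
        Finset.card_erase_of_mem hu, hc]
    obtain ⟨w, hw⟩ := Finset.card_eq_one.1 hc'
    have hwm : w ∈ (t.erase u).erase v := by rw [hw]; simp
    obtain ⟨hwv, hwm⟩ := Finset.mem_erase.1 hwm
    obtain ⟨hwu, hwt⟩ := Finset.mem_erase.1 hwm
    refine ⟨w, ?_, ?_⟩
    · simp only [Finset.mem_filter, Finset.mem_univ, true_and]
      exact ⟨he u hu w hwt hwu.symm, he v hv w hwt hwv.symm⟩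
    · ext z
      simp only [Finset.mem_insert, Finset.mem_singleton]
      constructor
      · rintro (rfl | rfl | rfl) <;> assumption
      · intro hz
        by_cases hzu : z = u
        · exact Or.inl hzu
        by_cases hzv : z = v
        · exact Or.inr (Or.inl hzv)
        have : z ∈ (t.erase u).erase v := Finset.mem_erase.2 ⟨hzv, Finset.mem_erase.2 ⟨hzu, hz⟩⟩
        rw [hw] at this
        exact Or.inr (Or.inr (Finset.mem_singleton.1 this))

theorem step_subset (t : Finset (Fin n)) (G : Gr n) : step t G ⊆ G := by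
  unfold step; split_ifs
  · exact Finset.sdiff_subset
  · exact Finset.Subset.refl _

theorem mem_step {t : Finset (Fin n)} {G : Gr n} {u v : Fin n} :
    s(u, v) ∈ step t G ↔ s(u, v) ∈ G ∧ ¬ (t ∈ triangles G ∧ u ∈ t ∧ v ∈ t) := by
  unfold step
  split_ifs with h
  · simp [h]
  · simp [h]

theorem card_Gr_le (G : Gr n) : G.card ≤ n ^ 2 := by
  have h1 : G.card ≤ Fintype.card (Sym2 (Fin n)) := Finset.card_le_univ G
  have h2 : Fintype.card (Sym2 (Fin n)) ≤ Fintype.card (Fin n × Fin n) :=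
    Fintype.card_le_of_surjective (fun p : Fin n × Fin n => s(p.1, p.2))
      (fun z => Sym2.ind (fun a b => ⟨(a, b), rfl⟩) z)
  simpa [sq, pow_two] using h1.trans h2

theorem card_sdiff_lt {G : Gr n} {t : Finset (Fin n)} (ht : t ∈ triangles G) :
    (G \ t.sym2).card < G.card := by
  obtain ⟨hc, he⟩ := mem_triangles.1 ht
  obtain ⟨a, b, c, hab, -, -, rfl⟩ := Finset.card_eq_three.1 hc
  refine Finset.card_lt_card ⟨Finset.sdiff_subset, fun h => ?_⟩
  have h1 : s(a, b) ∈ G := he a (by simp) b (by simp) hab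
  have h2 := Finset.mem_sdiff.1 (h h1)
  exact h2.2 (Finset.mk_mem_sym2_iff.2 ⟨by simp, by simp⟩)

theorem expectFinal_fuel (φ : ℕ → ℝ) : ∀ (f : ℕ) (G : Gr n), G.card ≤ f →
    expectFinal φ (f + 1) G = expectFinal φ f G := by
  intro f
  induction f with
  | zero =>
    intro G hG
    have h0 : (triangles G).card = 0 := by
      rw [Finset.card_eq_zero, Finset.eq_empty_iff_forall_notMem]
      intro t ht
      have := card_sdiff_lt ht
      omega
    simp [expectFinal, h0]
  | succ f ih =>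
    intro G hG
    rw [expectFinal, expectFinal]
    split_ifs with h
    · rfl
    · congr 1
      refine Finset.sum_congr rfl fun t ht => ih _ ?_
      have := card_sdiff_lt ht
      omega

theorem hh_eq (φ : ℕ → ℝ) (G : Gr n) : hh φ G =
    if (triangles G).card = 0 then φ G.card
    else ((triangles G).card : ℝ)⁻¹ * ∑ t ∈ triangles G, hh φ (G \ t.sym2) := by
  unfold hh
  rw [← expectFinal_fuel φ _ G (card_Gr_le G), expectFinal]

theorem hh_of_no_tri (φ : ℕ → ℝ) {G : Gr n} (h : triangles G = ∅) : hh φ G = φ G.card := by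
  rw [hh_eq, if_pos (by simp [h])]

/-- Harmonicity of `hh` for the lazy chain. -/
theorem hh_step (φ : ℕ → ℝ) (hn : 3 ≤ n) (G : Gr n) :
    (∑ t ∈ T n, hh φ (step t G)) / ((T n).card : ℝ) = hh φ G := by
  have hM : (0 : ℝ) < (T n).card := by exact_mod_cast (T_nonempty hn).card_pos
  rw [div_eq_iff hM.ne', ← Finset.sum_sdiff (triangles_subset_T G)]
  have h1 : ∑ t ∈ T n \ triangles G, hh φ (step t G) =
      ((T n).card - (triangles G).card : ℝ) * hh φ G := by
    rw [Finset.sum_congr rfl (g := fun _ => hh φ G) (fun t ht => by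
      unfold step; rw [if_neg (Finset.mem_sdiff.1 ht).2])]
    rw [Finset.sum_const, Finset.card_sdiff_of_subset (triangles_subset_T G), nsmul_eq_mul,
      Nat.cast_sub (Finset.card_le_card (triangles_subset_T G))]
  have h2 : ∑ t ∈ triangles G, hh φ (step t G) = (triangles G).card * hh φ G := by
    rw [Finset.sum_congr rfl (g := fun t => hh φ (G \ t.sym2)) (fun t ht => by
      unfold step; rw [if_pos ht])]
    by_cases h0 : (triangles G).card = 0
    · rw [Finset.card_eq_zero.1 h0]; simp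
    · have h0' : ((triangles G).card : ℝ) ≠ 0 := by exact_mod_cast h0
      conv_rhs => rw [hh_eq, if_neg h0]
      field_simp
  rw [h1, h2]; ring

theorem expectFinal_bounds {φ : ℕ → ℝ} {H : ℝ} (hφ : ∀ e ≤ n ^ 2, 0 ≤ φ e ∧ φ e ≤ H) :
    ∀ (f : ℕ) (G : Gr n), 0 ≤ expectFinal φ f G ∧ expectFinal φ f G ≤ H := by
  intro f
  induction f with
  | zero => intro G; exact hφ _ (card_Gr_le G)
  | succ f ih =>
    intro G
    rw [expectFinal]
    split_ifs with h
    · exact hφ _ (card_Gr_le G)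
    · have h0 : (0 : ℝ) < (triangles G).card := by exact_mod_cast Nat.pos_of_ne_zero h
      refine ⟨mul_nonneg (by positivity) (Finset.sum_nonneg fun t _ => (ih _).1), ?_⟩
      rw [inv_mul_le_iff₀ h0]
      calc ∑ t ∈ triangles G, expectFinal φ f (G \ t.sym2) ≤ ∑ _t ∈ triangles G, H :=
            Finset.sum_le_sum fun t _ => (ih _).2
        _ = _ := by simp

theorem hh_bounds {φ : ℕ → ℝ} {H : ℝ} (hφ : ∀ e ≤ n ^ 2, 0 ≤ φ e ∧ φ e ≤ H) (G : Gr n) :
    0 ≤ hh φ G ∧ hh φ G ≤ H := expectFinal_bounds hφ _ G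

/-- The degree bound contained in `Ext`. -/
theorem deg_le_of_ext {G : Gr n} (hG : G ⊆ allEdges n) {m0 v0 : ℕ} {p ε : ℝ} (hv : 2 ≤ v0)
    (h : Ext m0 v0 p ε G) (u : Fin n) : ∑ w, A G u w ≤ (1 + ε) * n * p := by
  classical
  have hs : Safe m0 ({0} : Finset (Fin 2)) {(0, 1)} := by
    refine ⟨by simp, fun S hS => Or.inl ?_⟩
    by_cases h1 : (1 : Fin 2) ∈ S
    · have h2 : 1 ≤ (S \ {0}).card := Finset.card_pos.2 ⟨1, by simp [h1]⟩
      have h3 : eIn ({(0, 1)} : Finset (Fin 2 × Fin 2)) S ≤ 1 := by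
        unfold eIn; exact (Finset.card_filter_le _ _).trans (by simp)
      omega
    · have h3 : eIn ({(0, 1)} : Finset (Fin 2 × Fin 2)) S = 0 := by
        unfold eIn; simp [h1]
      omega
  have h1 := h 2 hv {0} {(0, 1)} hs (fun _ => u)
  simp only [Finset.card_singleton, Nat.add_one_sub_one, pow_one] at h1
  refine le_trans (le_of_eq ?_) h1
  have h2 : ∑ w, A G u w = ((Finset.univ.filter fun w => s(u, w) ∈ G).card : ℝ) := by
    rw [Finset.card_filter]; push_cast
    exact Finset.sum_congr rfl fun w _ => by unfold A; split_ifs <;> simp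
  rw [h2]
  congr 1
  unfold Cnt
  refine Finset.card_bij (fun w _ => ![u, w]) ?_ ?_ ?_
  · intro w hw
    simp only [Finset.mem_filter, Finset.mem_univ, true_and] at hw ⊢
    have hne := ne_of_mem hG hw
    refine ⟨?_, by simp, by simpa using hw⟩
    intro i j hij
    fin_cases i <;> fin_cases j <;> simp_all [eq_comm]
  · intro w _ w' _ h
    simpa using congrFun h 1
  · intro ψ hψ
    simp only [Finset.mem_filter, Finset.mem_univ, true_and, Finset.mem_singleton,
      forall_eq] at hψ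
    refine ⟨ψ 1, ?_, ?_⟩
    · simp only [Finset.mem_filter, Finset.mem_univ, true_and]
      rw [← hψ.2.1]; exact hψ.2.2
    · funext i
      fin_cases i
      · simpa using hψ.2.1.symm
      · simp

theorem al_symm (G : Gr n) (c : Finset (Fin n) → ℕ) :
    ∀ (k : ℕ) (u v : Fin n), al G c k u v → al G c k v u := by
  intro k
  induction k with
  | zero => intro u v _; trivial
  | succ k ih =>
    intro u v h
    refine ⟨ih _ _ h.1, fun w h1 h2 h3 h4 => h.2 w h2 h1 ?_ ⟨ih _ _ h4.2, ih _ _ h4.1⟩⟩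
    rw [Finset.insert_comm]; exact h3

theorem mem_fin {G : Gr n} {c : Finset (Fin n) → ℕ} {N : ℕ} {u v : Fin n} :
    s(u, v) ∈ fin G c N ↔ s(u, v) ∈ G ∧ al G c N u v := by
  classical
  unfold fin
  rw [Finset.mem_filter]
  refine and_congr_right fun _ => ⟨fun h => h u v rfl, fun h a b hab => ?_⟩
  rcases Sym2.eq_iff.1 hab with ⟨rfl, rfl⟩ | ⟨rfl, rfl⟩
  · exact h
  · exact al_symm G c N _ _ h

theorem two_card_eq {G : Gr n} (hG : G ⊆ allEdges n) :
    (2 * G.card : ℝ) = ∑ u, ∑ v, A G u v := by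
  classical
  rw [← Finset.sum_product']
  have h1 : ∑ x ∈ (Finset.univ : Finset (Fin n)) ×ˢ (Finset.univ : Finset (Fin n)), A G x.1 x.2 =
      ∑ e ∈ G, ∑ x ∈ (Finset.univ : Finset (Fin n × Fin n)),
        (if s(x.1, x.2) = e then (1 : ℝ) else 0) := by
    rw [Finset.sum_comm, Finset.univ_product_univ]
    refine Finset.sum_congr rfl fun x _ => ?_
    rw [Finset.sum_ite_eq]; rfl
  rw [h1]
  have h2 : ∀ e ∈ G, ∑ x ∈ (Finset.univ : Finset (Fin n × Fin n)),
      (if s(x.1, x.2) = e then (1 : ℝ) else 0) = 2 := by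
    intro e he
    induction e using Sym2.ind with
    | _ a b =>
      have hab := ne_of_mem hG he
      rw [← Finset.sum_filter]
      have : (Finset.univ.filter fun x : Fin n × Fin n => s(x.1, x.2) = s(a, b)) =
          {(a, b), (b, a)} := by
        ext ⟨x, y⟩
        simp
      rw [this, Finset.sum_pair (by simp [hab])]
      norm_num
  rw [Finset.sum_congr rfl h2]
  simp [mul_comm]

open Classical in
theorem two_card_fin {G : Gr n} (hG : G ⊆ allEdges n) (c : Finset (Fin n) → ℕ) (N : ℕ) :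
    (2 * (fin G c N).card : ℝ) = ∑ u, ∑ v, if s(u, v) ∈ G ∧ al G c N u v then 1 else 0 := by
  have h : fin G c N ⊆ allEdges n := (Finset.filter_subset _ _).trans hG
  rw [two_card_eq h]
  refine Finset.sum_congr rfl fun u _ => Finset.sum_congr rfl fun v _ => ?_
  unfold A
  by_cases h1 : s(u, v) ∈ G ∧ al G c N u v
  · rw [if_pos h1, if_pos (mem_fin.2 h1)]
  · rw [if_neg h1, if_neg (fun h => h1 (mem_fin.1 h))]

end Graph

/-! ## The killed chain exists -/

open Classical in
theorem exists_isChain {X τ : Type} [Fintype X] (stp : τ → X → X) (Tt : Finset τ)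
    (good : ℕ → X → Prop) (x0 : X) : ∃ ν : ℕ → X → ℝ, IsChain stp Tt good x0 ν := by
  let ν : ℕ → X → ℝ := fun k => Nat.rec (fun x => if x = x0 then 1 else 0)
    (fun k μ x => ∑ y, μ y * (if good k y then
      (∑ t ∈ Tt, if stp t y = x then (1 : ℝ) else 0) / (Tt.card : ℝ) else 0)) k
  refine ⟨ν, ?_, ?_, ?_⟩
  · intro k
    induction k with
    | zero => intro x; simp only [ν, Nat.rec_zero]; split_ifs <;> norm_num
    | succ k ih =>
      intro x
      refine Finset.sum_nonneg fun y _ => mul_nonneg (ih y) ?_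
      split_ifs
      · exact div_nonneg (Finset.sum_nonneg fun t _ => by split_ifs <;> norm_num) (by positivity)
      · exact le_rfl
  · intro F
    simp [ν]
  · intro k F
    have h : ∀ x, ν (k + 1) x = ∑ y, ν k y * (if good k y then
      (∑ t ∈ Tt, if stp t y = x then (1 : ℝ) else 0) / (Tt.card : ℝ) else 0) := fun x => rfl
    simp_rw [h, Finset.sum_mul]
    rw [Finset.sum_comm]
    refine Finset.sum_congr rfl fun y _ => ?_
    simp_rw [mul_assoc]
    rw [← Finset.mul_sum]
    congr 1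
    split_ifs with hg
    · simp_rw [div_mul_eq_mul_div, Finset.sum_mul]
      rw [← Finset.sum_div, Finset.sum_comm]
      congr 1
      refine Finset.sum_congr rfl fun t _ => ?_
      simp
    · simp

/-! ## Uniform averages -/

section Prob

variable {X : Type} [Fintype X]

theorem av_mono {f g : X → ℝ} (h : ∀ x, f x ≤ g x) : av f ≤ av g :=
  div_le_div_of_nonneg_right (Finset.sum_le_sum fun x _ => h x) (by positivity)

theorem av_nonneg {f : X → ℝ} (h : ∀ x, 0 ≤ f x) : 0 ≤ av f :=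
  div_nonneg (Finset.sum_nonneg fun x _ => h x) (by positivity)

theorem av_add (f g : X → ℝ) : av (fun x => f x + g x) = av f + av g := by
  unfold av; rw [Finset.sum_add_distrib, add_div]

theorem av_sub (f g : X → ℝ) : av (fun x => f x - g x) = av f - av g := by
  unfold av; rw [Finset.sum_sub_distrib, sub_div]

theorem av_const_mul (c : ℝ) (f : X → ℝ) : av (fun x => c * f x) = c * av f := by
  unfold av; rw [← Finset.mul_sum, mul_div_assoc]

theorem av_mul_const (c : ℝ) (f : X → ℝ) : av (fun x => f x * c) = av f * c := by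
  unfold av; rw [← Finset.sum_mul]; ring

theorem av_const [Nonempty X] (c : ℝ) : av (fun _ : X => c) = c := by
  have : (Fintype.card X : ℝ) ≠ 0 := by exact_mod_cast Fintype.card_ne_zero
  unfold av; simp [this]

theorem av_sum {ι : Type} (s : Finset ι) (f : ι → X → ℝ) :
    av (fun x => ∑ i ∈ s, f i x) = ∑ i ∈ s, av (f i) := by
  unfold av; rw [Finset.sum_comm, Finset.sum_div]

theorem av_equiv {Z : Type} [Fintype Z] (e : X ≃ Z) (f : Z → ℝ) :
    av (fun x => f (e x)) = av f := by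
  unfold av; rw [Fintype.card_congr e, Equiv.sum_comp e f]

theorem av_prod {Z : Type} [Fintype Z] (f : X × Z → ℝ) :
    av f = av fun x => av fun z => f (x, z) := by
  unfold av
  rw [Fintype.sum_prod_type, Fintype.card_prod, ← Finset.sum_div, div_div]
  push_cast; ring

theorem pr_nonneg (P : X → Prop) : 0 ≤ pr P :=
  av_nonneg fun x => by split_ifs <;> norm_num

theorem pr_mono {P Q : X → Prop} (h : ∀ x, P x → Q x) : pr P ≤ pr Q :=
  av_mono fun x => by
    by_cases hP : P x
    · rw [if_pos hP, if_pos (h x hP)]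
    · rw [if_neg hP]; split_ifs <;> norm_num

theorem pr_congr {P Q : X → Prop} (h : ∀ x, P x ↔ Q x) : pr P = pr Q :=
  le_antisymm (pr_mono fun x => (h x).1) (pr_mono fun x => (h x).2)

theorem pr_true [Nonempty X] {P : X → Prop} (h : ∀ x, P x) : pr P = 1 := by
  unfold pr; simp only [h, if_true]; exact av_const 1

theorem pr_false {P : X → Prop} (h : ∀ x, ¬ P x) : pr P = 0 := by
  unfold pr av; simp [h]

theorem pr_le_one [Nonempty X] (P : X → Prop) : pr P ≤ 1 :=
  (pr_mono (Q := fun _ => True) fun _ _ => trivial).trans (pr_true fun _ => trivial).le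

theorem pr_split (P Q : X → Prop) : pr P = pr (fun x => P x ∧ Q x) + pr (fun x => P x ∧ ¬ Q x) := by
  unfold pr
  rw [← av_add]
  congr 1
  funext x
  by_cases hP : P x <;> by_cases hQ : Q x <;> simp [hP, hQ]

theorem pr_not [Nonempty X] (P : X → Prop) : pr (fun x => ¬ P x) = 1 - pr P := by
  have h := pr_split (fun _ : X => True) P
  rw [pr_true (fun _ => trivial)] at h
  simp only [true_and] at h
  linarith

/-- Union bound. -/
theorem pr_exists_le {ι : Type} (s : Finset ι) (P : ι → X → Prop) :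
    pr (fun x => ∃ i ∈ s, P i x) ≤ ∑ i ∈ s, pr (P i) := by
  classical
  unfold pr
  rw [← av_sum]
  refine av_mono fun x => ?_
  split_ifs with h
  · obtain ⟨i, hi, hP⟩ := h
    have := Finset.single_le_sum (f := fun j => if P j x then (1 : ℝ) else 0)
      (fun j _ => by split_ifs <;> norm_num) hi
    simpa [hP] using this
  · exact Finset.sum_nonneg fun j _ => by split_ifs <;> norm_num

theorem pr_or_le (P Q : X → Prop) : pr (fun x => P x ∨ Q x) ≤ pr P + pr Q := by
  unfold pr
  rw [← av_add]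
  refine av_mono fun x => ?_
  by_cases hP : P x <;> by_cases hQ : Q x <;> simp [hP, hQ]

/-- Splitting an event along the value of a function. -/
theorem pr_eq_sum_fiber {ι : Type} (s : Finset ι) (f : X → ι) (P : X → Prop) :
    pr (fun x => f x ∈ s ∧ P x) = ∑ i ∈ s, pr (fun x => f x = i ∧ P x) := by
  classical
  unfold pr
  rw [← av_sum]
  congr 1
  funext x
  by_cases hP : P x
  · simp only [hP, and_true]
    rw [Finset.sum_ite_eq]
  · simp [hP]

variable {ι Ω : Type} [Fintype ι] [DecidableEq ι] [Fintype Ω]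

/-- `f` depends only on the coordinates in `S`. -/
def DepOn {β : Sort _} (S : ι → Prop) (f : (ι → Ω) → β) : Prop :=
  ∀ ω ω' : ι → Ω, (∀ i, S i → ω i = ω' i) → f ω = f ω'

omit [Fintype ι] [DecidableEq ι] [Fintype Ω] in
theorem DepOn.mono {β : Sort _} {S S' : ι → Prop} {f : (ι → Ω) → β} (h : DepOn S f)
    (hS : ∀ i, S i → S' i) : DepOn S' f :=
  fun ω ω' hω => h ω ω' fun i hi => hω i (hS i hi)

/-- Functions of disjoint sets of coordinates are independent. -/
theorem av_mul_of_indep [Nonempty Ω] {S S' : ι → Prop} {f g : (ι → Ω) → ℝ} (hf : DepOn S f)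
    (hg : DepOn S' g) (hd : ∀ i, S i → ¬ S' i) : av (fun ω => f ω * g ω) = av f * av g := by
  classical
  let e := Equiv.piEquivPiSubtypeProd S (fun _ : ι => Ω)
  obtain ⟨ω0⟩ : Nonempty (ι → Ω) := inferInstance
  have hf' : ∀ a b, f (e.symm (a, b)) = f (e.symm (a, (e ω0).2)) := by
    intro a b
    refine hf _ _ fun i hi => ?_
    simp [e, Equiv.piEquivPiSubtypeProd, hi]
  have hg' : ∀ a b, g (e.symm (a, b)) = g (e.symm ((e ω0).1, b)) := by
    intro a b
    refine hg _ _ fun i hi => ?_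
    have hi' : ¬ S i := fun h => hd i h hi
    simp [e, Equiv.piEquivPiSubtypeProd, hi']
  obtain ⟨F, hF⟩ : ∃ F : ({i // S i} → Ω) → ℝ, ∀ a b, f (e.symm (a, b)) = F a := ⟨_, hf'⟩
  obtain ⟨H, hH⟩ : ∃ H : ({i // ¬ S i} → Ω) → ℝ, ∀ a b, g (e.symm (a, b)) = H b := ⟨_, hg'⟩
  rw [← av_equiv e.symm (fun ω => f ω * g ω), ← av_equiv e.symm f, ← av_equiv e.symm g,
    av_prod, av_prod, av_prod]
  simp only [hF, hH, av_const_mul, av_const, av_mul_const]

theorem pr_and_of_indep [Nonempty Ω] {S S' : ι → Prop} {P Q : (ι → Ω) → Prop} (hP : DepOn S P)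
    (hQ : DepOn S' Q) (hd : ∀ i, S i → ¬ S' i) : pr (fun ω => P ω ∧ Q ω) = pr P * pr Q := by
  classical
  unfold pr
  rw [← av_mul_of_indep (S := S) (S' := S') (fun ω ω' h => by rw [hP ω ω' h])
    (fun ω ω' h => by rw [hQ ω ω' h]) hd]
  congr 1
  funext ω
  by_cases h1 : P ω <;> by_cases h2 : Q ω <;> simp [h1, h2]

theorem pr_forall_of_indep [Nonempty Ω] {κ : Type} (B : Finset κ) (S : κ → ι → Prop)
    (P : κ → (ι → Ω) → Prop) (hP : ∀ x ∈ B, DepOn (S x) (P x))
    (hd : ∀ x ∈ B, ∀ y ∈ B, x ≠ y → ∀ i, S x i → ¬ S y i) :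
    pr (fun ω => ∀ x ∈ B, P x ω) = ∏ x ∈ B, pr (P x) := by
  classical
  induction B using Finset.induction_on with
  | empty => simpa using pr_true (X := ι → Ω) (P := fun _ => True) fun _ => trivial
  | insert x B hx ih =>
    rw [Finset.prod_insert hx, ← ih (fun y hy => hP y (Finset.mem_insert_of_mem hy))
      (fun y hy z hz => hd y (Finset.mem_insert_of_mem hy) z (Finset.mem_insert_of_mem hz)),
      ← pr_and_of_indep (S := S x) (S' := fun i => ∃ y ∈ B, S y i)
        (hP x (Finset.mem_insert_self _ _))]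
    · exact pr_congr fun ω => by simp
    · intro ω ω' h
      refine propext (forall₂_congr fun y hy => ?_)
      rw [hP y (Finset.mem_insert_of_mem hy) ω ω' fun i hi => h i ⟨y, hy, hi⟩]
    · rintro i hi ⟨y, hy, hyi⟩
      exact hd x (Finset.mem_insert_self _ _) y (Finset.mem_insert_of_mem hy)
        (fun h => hx (h ▸ hy)) i hi hyi

/-- The law of one coordinate. -/
theorem av_coord [Nonempty Ω] (i : ι) (f : Ω → ℝ) : av (fun ω : ι → Ω => f (ω i)) = av f := by
  rw [← av_equiv (Equiv.funSplitAt i Ω).symm, av_prod]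
  congr 1
  funext z
  have : ∀ r : {j // j ≠ i} → Ω, (Equiv.funSplitAt i Ω).symm (z, r) i = z := by
    intro r; simp [Equiv.funSplitAt, Equiv.piSplitAt]
  simp_rw [this, av_const]

theorem pr_coord [Nonempty Ω] (i : ι) (P : Ω → Prop) : pr (fun ω : ι → Ω => P (ω i)) = pr P := by
  classical
  unfold pr
  exact av_coord i fun z => if P z then 1 else 0

end Prob

/-! ## Lists -/

section Lists

variable {α : Type}

theorem mem_LL [Finite α] {l : ℕ} {σ : List α} : σ ∈ LL α l ↔ σ.length = l := by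
  simp [LL]

theorem LL_zero [Finite α] : LL α 0 = {[]} := by
  ext σ; simp [mem_LL]

theorem sum_LL_succ [Fintype α] (l : ℕ) (f : List α → ℝ) :
    ∑ σ ∈ LL α (l + 1), f σ = ∑ a, ∑ σ ∈ LL α l, f (a :: σ) := by
  classical
  rw [← Finset.sum_product']
  symm
  refine Finset.sum_bij (fun q _ => q.1 :: q.2) ?_ ?_ ?_ ?_
  · intro q hq
    simpa [mem_LL] using hq
  · intro q _ q' _ h
    exact Prod.ext (List.cons.inj h).1 (List.cons.inj h).2
  · intro σ hσ
    rw [mem_LL] at hσ
    cases σ with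
    | nil => simp at hσ
    | cons a σ => exact ⟨(a, σ), by simpa [mem_LL] using hσ, rfl⟩
  · intro q _; rfl

theorem sum_LL_succ_snoc [Fintype α] (l : ℕ) (f : List α → ℝ) :
    ∑ σ ∈ LL α (l + 1), f σ = ∑ σ ∈ LL α l, ∑ a, f (σ ++ [a]) := by
  classical
  rw [← Finset.sum_product']
  symm
  refine Finset.sum_bij (fun q _ => q.1 ++ [q.2]) ?_ ?_ ?_ ?_
  · intro q hq
    simpa [mem_LL] using hq
  · intro q _ q' _ h
    have := List.append_inj' h rfl
    exact Prod.ext this.1 (by simpa using this.2)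
  · intro σ hσ
    rw [mem_LL] at hσ
    have hne : σ ≠ [] := by rintro rfl; simp at hσ
    exact ⟨(σ.dropLast, σ.getLast hne), by simp [mem_LL, hσ], List.dropLast_append_getLast hne⟩
  · intro q _; rfl

theorem card_LL [Fintype α] (l : ℕ) : (LL α l).card = Fintype.card α ^ l := by
  have : ((LL α l).card : ℝ) = (Fintype.card α : ℝ) ^ l := by
    induction l with
    | zero => simp [LL_zero]
    | succ l ih =>
      have h := sum_LL_succ (α := α) l fun _ => 1
      simp only [Finset.sum_const, nsmul_eq_mul, mul_one, Finset.card_univ] at h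
      rw [h, ih]; ring
  exact_mod_cast this

theorem Val_append (ok : List α → α → Prop) :
    ∀ (ρ σ γ : List α), Val ok γ (ρ ++ σ) ↔ Val ok γ ρ ∧ Val ok (γ ++ ρ) σ := by
  intro ρ
  induction ρ with
  | nil => intro σ γ; simp [Val]
  | cons a ρ ih => intro σ γ; simp [Val, ih, and_assoc]

theorem Val_snoc (ok : List α → α → Prop) (ρ γ : List α) (a : α) :
    Val ok γ (ρ ++ [a]) ↔ Val ok γ ρ ∧ ok (γ ++ ρ) a := by
  rw [Val_append]; simp [Val]

/-- Closed form of `JA`. -/
theorem JA_iff (ok : List α → α → Prop) (c : List α → ℕ) : ∀ (k : ℕ) (γ : List α),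
    JA ok c k γ ↔ ∀ a, ok γ a → c (γ ++ [a]) < k → ¬ JA ok c (c (γ ++ [a])) (γ ++ [a]) := by
  intro k
  induction k with
  | zero => intro γ; simp [JA]
  | succ k ih =>
    intro γ
    rw [JA, ih γ]
    constructor
    · rintro ⟨h1, h2⟩ a ha hlt
      rcases Nat.lt_succ_iff_lt_or_eq.1 hlt with h | h
      · exact h1 a ha h
      · rw [h]; exact h2 a ha h
    · intro h
      refine ⟨fun a ha hlt => h a ha (Nat.lt_succ_of_lt hlt), fun a ha he => ?_⟩
      have := h a ha (by omega)
      rwa [he] at this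

/-- `JA k γ` only depends on the clocks of the nodes `γ ++ ρ` with `1 ≤ |ρ| ≤ k`. -/
theorem JA_congr (ok : List α → α → Prop) {c c' : List α → ℕ} : ∀ (k : ℕ) (γ : List α),
    (∀ ρ, ρ ≠ [] → ρ.length ≤ k → c (γ ++ ρ) = c' (γ ++ ρ)) → (JA ok c k γ ↔ JA ok c' k γ) := by
  intro k
  induction k with
  | zero => intro γ _; simp [JA]
  | succ k ih =>
    intro γ h
    rw [JA, JA, ih γ fun ρ h1 h2 => h ρ h1 (by omega)]
    refine and_congr_right fun _ => forall₂_congr fun a _ => ?_
    rw [h [a] (by simp) (by simp), ih (γ ++ [a]) fun ρ h1 h2 => by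
      rw [List.append_assoc]; exact h _ (by simp) (by simp; omega)]

theorem run_snoc {n : ℕ} (s0 : St n) (γ : List (Bool × Fin n)) (x : Bool × Fin n) :
    run s0 (γ ++ [x]) = nxt (run s0 γ) x := by
  simp [run]

end Lists

end Crest.Agent.R30
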