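import Crest.Agent.R30.Basic

/-! # R30 COLP: the collision probability on the tree -/

set_option autoImplicit false

namespace Crest.Agent.R30

open Finset

namespace ColpA

variable {α : Type}

theorem lcp : ∀ (δ₁ δ₂ : List α), δ₁ ≠ δ₂ →
    ∃ β ρ₁ ρ₂, δ₁ = β ++ ρ₁ ∧ δ₂ = β ++ ρ₂ ∧ ρ₁.head? ≠ ρ₂.head?
  | [], [], h => absurd rfl h
  | [], b :: t, _ => ⟨[], [], b :: t, rfl, rfl, by simp⟩
  | a :: s, [], _ => ⟨[], a :: s, [], rfl, rfl, by simp⟩
  | a :: s, b :: t, h => by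
    by_cases hab : a = b
    · subst hab
      obtain ⟨β, ρ₁, ρ₂, h1, h2, h3⟩ := lcp s t fun e => h (by rw [e])
      exact ⟨a :: β, ρ₁, ρ₂, by simp [h1], by simp [h2], h3⟩
    · exact ⟨[], a :: s, b :: t, rfl, rfl, by simpa using hab⟩

variable {ok : List α → α → Prop} {c c' : List α → ℕ}

theorem Ex_mono {σ γ : List α} {k k' : ℕ} (h : Ex ok c σ γ k) (hk : k ≤ k') :
    Ex ok c σ γ k' := by
  cases σ with
  | nil => trivial
  | cons a ρ => exact ⟨h.1, h.2.1.trans_le hk, h.2.2⟩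

theorem Ex_val : ∀ (σ γ : List α) (k : ℕ), Ex ok c σ γ k → Val ok γ σ ∧ σ.length ≤ k
  | [], _, _, _ => ⟨trivial, Nat.zero_le _⟩
  | a :: ρ, γ, _, h => by
    have := Ex_val ρ _ _ h.2.2.2
    exact ⟨⟨h.1, this.1⟩, Nat.succ_le_of_lt (this.2.trans_lt h.2.1)⟩

theorem Ex_append : ∀ (β σ γ : List α) (k : ℕ), Ex ok c (β ++ σ) γ k →
    Ex ok c β γ k ∧ Ex ok c σ (γ ++ β) k
  | [], _, _, _, h => ⟨trivial, by simpa using h⟩
  | a :: β, σ, γ, _, h => by
    have := Ex_append β σ _ _ h.2.2.2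
    refine ⟨⟨h.1, h.2.1, h.2.2.1, this.1⟩, ?_⟩
    simpa using Ex_mono this.2 h.2.1.le

theorem Ex_congr : ∀ (σ γ : List α) (k : ℕ), (∀ ρ, ρ ≠ [] → c (γ ++ ρ) = c' (γ ++ ρ)) →
    (Ex ok c σ γ k ↔ Ex ok c' σ γ k)
  | [], _, _, _ => Iff.rfl
  | a :: σ, γ, k, h => by
    rw [Ex, Ex, h [a] (by simp), JA_congr ok _ γ fun ρ h1 _ => h ρ h1,
      Ex_congr σ (γ ++ [a]) _ fun ρ _ => by rw [List.append_assoc]; exact h _ (by simp)]

/-- `Ex` without the condition at the first node. -/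
def Tl (ok : List α → α → Prop) (c : List α → ℕ) (N : ℕ) : List α → List α → Prop
  | [], _ => True
  | x :: σ, γ => ok γ x ∧ Ex ok c σ (γ ++ [x]) N

theorem Tl_of_Ex {σ γ : List α} {N : ℕ} (h : Ex ok c σ γ N) : Tl ok c N σ γ := by
  cases σ with
  | nil => trivial
  | cons a ρ => exact ⟨h.1, Ex_mono h.2.2.2 h.2.1.le⟩

theorem wt_zero (S : ℝ) : wt S 0 = 1 := by simp [wt]

theorem wt_nonneg {S : ℝ} (h : 0 ≤ S) (l : ℕ) : 0 ≤ wt S l := by unfold wt; positivity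

theorem wt_mono {S S' : ℝ} (h : 0 ≤ S) (h' : S ≤ S') (l : ℕ) : wt S l ≤ wt S' l := by
  unfold wt; gcongr

theorem wt_sum {g : ℕ → ℝ} (hg : ∀ i, 0 ≤ g i) (l k : ℕ) :
    ∑ i ∈ range k, g i * wt (∑ j ∈ range i, g j) l ≤ wt (∑ j ∈ range k, g j) (l + 1) := by
  induction k with
  | zero => simp [wt]
  | succ k ih =>
    rw [sum_range_succ, sum_range_succ]
    refine (add_le_add ih le_rfl).trans ?_
    have h0 : 0 ≤ ∑ j ∈ range k, g j := sum_nonneg fun j _ => hg j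
    generalize ∑ j ∈ range k, g j = S at h0
    have := pow_add_mul_le_add_pow (a := S) (b := g k) h0 (by linarith [hg k]) (l + 1)
    unfold wt
    rw [Nat.factorial_succ, le_div_iff₀ (by positivity)]
    refine le_trans (le_of_eq ?_) this
    push_cast
    field_simp

variable {Ω : Type} {L : ℕ} {cl : Ω → ℕ}

/-- Strict descendants. -/
def SE (γ : List α) (j : Nd α L) : Prop := ∃ ρ, ρ ≠ [] ∧ j.1 = γ ++ ρ

theorem tc_congr {ω ω' : Nd α L → Ω} {S : Nd α L → Prop} (h : ∀ j, S j → ω j = ω' j)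
    {l : List α} (hl : ∀ h : l.length ≤ L, S ⟨l, h⟩) : tc cl ω l = tc cl ω' l := by
  unfold tc
  split_ifs with h1
  · rw [h _ (hl h1)]
  · rfl

theorem dep_Ex (σ γ : List α) (k : ℕ) :
    DepOn (SE γ) fun ω : Nd α L → Ω => Ex ok (tc cl ω) σ γ k := fun _ _ h =>
  propext (Ex_congr σ γ k fun ρ hρ => tc_congr h fun _ => ⟨ρ, hρ, rfl⟩)

theorem dep_and {ι : Type} {S : ι → Prop} {P Q : (ι → Ω) → Prop} (hP : DepOn S P)
    (hQ : DepOn S Q) : DepOn S fun ω => P ω ∧ Q ω := fun ω ω' h => by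
  show (P ω ∧ Q ω) = (P ω' ∧ Q ω')
  rw [hP ω ω' h, hQ ω ω' h]

/-- Descendants through the first letter of `σ`. -/
def SH (σ γ : List α) (j : Nd α L) : Prop := ∃ x ρ, σ.head? = some x ∧ j.1 = γ ++ x :: ρ

theorem dep_Tl (N : ℕ) (σ γ : List α) :
    DepOn (SH σ γ) fun ω : Nd α L → Ω => Tl ok (tc cl ω) N σ γ := by
  cases σ with
  | nil => intro _ _ _; rfl
  | cons x σ =>
    refine dep_and (fun _ _ _ => rfl) ((dep_Ex σ _ N).mono ?_)
    rintro j ⟨ρ, -, h⟩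
    exact ⟨x, ρ, rfl, by simpa using h⟩

variable [Fintype α] [DecidableEq α] [Fintype Ω] [Nonempty Ω] {N : ℕ} {κ : ℕ → ℝ}

theorem Uf_mono (hP : ProdStmt) {δ : List α} (hL : δ.length + N ≤ L) {i : ℕ} (hi : i ≤ N) :
    Uf ok (fun i => pr fun z => cl z = i) i δ ≤ Uf ok (fun i => pr fun z => cl z = i) N δ := by
  induction N, hi using Nat.le_induction with
  | base => exact le_rfl
  | succ k _ ih =>
    refine (ih (by omega)).trans ?_
    have h1 : 0 ≤ Qf ok (fun i => pr fun z => cl z = i) k δ := by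
      rw [← (hP α Ω ok cl L k δ (by omega)).1]
      exact pr_nonneg _
    exact le_add_of_nonneg_right (mul_nonneg (pr_nonneg _) h1)

theorem main (hP : ProdStmt) (hL : 2 * N + 2 ≤ L) (hκ : ∀ i, 0 ≤ κ i)
    (H : ∀ γ, γ ≠ [] → Val ok [] γ →
      (∀ i < N, Qf ok (fun i => pr fun z => cl z = i) i γ ≤ κ i) ∧
      Uf ok (fun i => pr fun z => cl z = i) N γ ≤ 1 / 2) (β : List α) :
    ∀ (γ : List α) (k : ℕ) (T : (Nd α L → Ω) → Prop), γ ≠ [] → Val ok [] γ →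
      γ.length + β.length ≤ N + 1 → k ≤ N → DepOn (SE (γ ++ β)) T →
      pr (fun ω : Nd α L → Ω => Ex ok (tc cl ω) β γ k ∧ T ω) ≤
        wt (∑ i ∈ range k, 2 * pr (fun z => cl z = i) * κ i) β.length * pr T := by
  classical
  induction β with
  | nil =>
    intro γ k T _ _ _ _ _
    rw [List.length_nil, wt_zero, one_mul]
    exact pr_mono fun _ h => h.2
  | cons x β ih =>
    intro γ k T hγ hv hl hk hT
    have hg : ∀ i, 0 ≤ 2 * pr (fun z => cl z = i) * κ i := fun i =>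
      mul_nonneg (mul_nonneg zero_le_two (pr_nonneg _)) (hκ i)
    by_cases hx : ok γ x
    swap
    · rw [pr_false fun _ h => hx h.1.1]
      exact mul_nonneg (wt_nonneg (sum_nonneg fun i _ => hg i) _) (pr_nonneg _)
    rw [List.length_cons] at hl ⊢
    have hl1 : (γ ++ [x]).length ≤ L := by simp; omega
    have hv1 : Val ok [] (γ ++ [x]) := (Val_snoc ok γ [] x).2 ⟨hv, by simpa using hx⟩
    set B := (univ.filter fun y => ok γ y).erase x with hB
    refine (pr_mono (Q := fun ω => ∃ i ∈ range k, cl (ω ⟨γ ++ [x], hl1⟩) = i ∧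
      ((∀ y ∈ B, tc cl ω (γ ++ [y]) < i → ¬ JA ok (tc cl ω) (tc cl ω (γ ++ [y])) (γ ++ [y])) ∧
        (Ex ok (tc cl ω) β (γ ++ [x]) i ∧ T ω))) ?_).trans ((pr_exists_le _ _).trans ?_)
    · rintro ω ⟨⟨-, h1, h2, h3⟩, h4⟩
      refine ⟨tc cl ω (γ ++ [x]), mem_range.2 h1, by rw [tc, dif_pos hl1], fun y hy => ?_, h3, h4⟩
      exact (JA_iff ok _ _ _).1 h2 y (mem_filter.1 (mem_of_mem_erase hy)).2
    refine le_trans (sum_le_sum fun i hi => ?_) (le_trans (le_of_eq (sum_mul _ _ _).symm)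
      (mul_le_mul_of_nonneg_right (wt_sum hg β.length k) (pr_nonneg T)))
    have hi' : i < N := (mem_range.1 hi).trans_le hk
    have hT' : DepOn (SE (γ ++ [x] ++ β)) T := by simpa using hT
    have d1 : DepOn (fun j : Nd α L => j = ⟨γ ++ [x], hl1⟩)
        fun ω : Nd α L → Ω => cl (ω ⟨γ ++ [x], hl1⟩) = i := fun ω ω' h => by
      show (_ = _) = (_ = _)
      rw [h _ rfl]
    have d2 : DepOn (fun j : Nd α L => ∃ y ρ, y ≠ x ∧ j.1 = γ ++ y :: ρ)
        fun ω : Nd α L → Ω => ∀ y ∈ B, tc cl ω (γ ++ [y]) < i →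
          ¬ JA ok (tc cl ω) (tc cl ω (γ ++ [y])) (γ ++ [y]) := fun ω ω' h => by
      refine propext (forall₂_congr fun y hy => ?_)
      have hy' := ne_of_mem_erase hy
      rw [tc_congr (cl := cl) h (l := γ ++ [y]) fun _ => ⟨y, [], hy', rfl⟩,
        JA_congr ok (c := tc cl ω) (c' := tc cl ω') _ _ fun ρ _ _ =>
          tc_congr h fun _ => ⟨y, ρ, hy', by simp⟩]
    have d3 : DepOn (SE (γ ++ [x]))
        fun ω : Nd α L → Ω => Ex ok (tc cl ω) β (γ ++ [x]) i ∧ T ω := by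
      refine dep_and (dep_Ex _ _ _) (hT'.mono ?_)
      rintro j ⟨ρ, h1, h2⟩
      exact ⟨β ++ ρ, by simp [h1], by simpa using h2⟩
    rw [pr_and_of_indep d1 (dep_and (S := fun j : Nd α L =>
        (∃ y ρ, y ≠ x ∧ j.1 = γ ++ y :: ρ) ∨ SE (γ ++ [x]) j) (d2.mono fun _ => Or.inl)
        (d3.mono fun _ => Or.inr)) ?_, pr_and_of_indep d2 d3 ?_,
      pr_coord (P := fun z => cl z = i)]
    · have p1 := (hP α Ω ok cl L i γ (by omega)).2 B
      have p2 := (H γ hγ hv).1 i hi'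
      have p3 := (Uf_mono hP (L := L) (by simp; omega) hi'.le).trans (H _ (by simp) hv1).2
      have p4 := ih (γ ++ [x]) i T (by simp) hv1 (by simp; omega) hi'.le hT'
      have p5 : Qf ok (fun i => pr fun z => cl z = i) i γ =
          (1 - Uf ok (fun i => pr fun z => cl z = i) i (γ ++ [x])) *
            ∏ y ∈ B, (1 - Uf ok (fun i => pr fun z => cl z = i) i (γ ++ [y])) := by
        rw [hB, mul_prod_erase _ (fun y => 1 - Uf ok (fun i => pr fun z => cl z = i) i (γ ++ [y]))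
          (mem_filter.2 ⟨mem_univ _, hx⟩)]
        rfl
      rw [p5, ← p1] at p2
      have p6 := pr_nonneg fun ω : Nd α L → Ω => ∀ y ∈ B, tc cl ω (γ ++ [y]) < i →
          ¬ JA ok (tc cl ω) (tc cl ω (γ ++ [y])) (γ ++ [y])
      refine (mul_le_mul_of_nonneg_left (mul_le_mul (b := 2 * κ i) (by nlinarith) p4 (pr_nonneg _)
        (mul_nonneg zero_le_two (hκ i))) (pr_nonneg _)).trans (le_of_eq ?_)
      ring
    · rintro j ⟨y, ρ, h1, h2⟩ ⟨ρ', -, h3⟩
      rw [h2] at h3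
      simp [h1] at h3
    · rintro j rfl (⟨y, ρ, h1, h2⟩ | ⟨ρ', h1, h2⟩)
      · simp [h1.symm] at h2
      · simp [h1] at h2

theorem tail (hP : ProdStmt) (hL : 2 * N + 2 ≤ L) (hκ : ∀ i, 0 ≤ κ i) {lam : ℝ}
    (hlam : ∑ i ∈ range N, 2 * pr (fun z => cl z = i) * κ i ≤ lam)
    (H : ∀ γ, γ ≠ [] → Val ok [] γ →
      (∀ i < N, Qf ok (fun i => pr fun z => cl z = i) i γ ≤ κ i) ∧
      Uf ok (fun i => pr fun z => cl z = i) N γ ≤ 1 / 2) (β γ : List α)
    (T : (Nd α L → Ω) → Prop) (hv : Val ok [] γ) (hl : γ.length + β.length ≤ N + 1)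
    (hT : DepOn (SE (γ ++ β)) T) :
    pr (fun ω : Nd α L → Ω => Tl ok (tc cl ω) N β γ ∧ T ω) ≤ wt lam (β.length - 1) * pr T := by
  have h0 : 0 ≤ ∑ i ∈ range N, 2 * pr (fun z => cl z = i) * κ i := sum_nonneg fun i _ =>
    mul_nonneg (mul_nonneg zero_le_two (pr_nonneg _)) (hκ i)
  cases β with
  | nil =>
    rw [List.length_nil, wt_zero, one_mul]
    exact pr_mono fun _ h => h.2
  | cons x β =>
    by_cases hx : ok γ x
    swap
    · rw [pr_false fun _ h => hx h.1.1]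
      exact mul_nonneg (wt_nonneg (h0.trans hlam) _) (pr_nonneg _)
    refine (pr_mono fun _ h => ⟨h.1.2, h.2⟩).trans ((main hP hL hκ H β (γ ++ [x]) N T (by simp)
      ((Val_snoc ok γ [] x).2 ⟨hv, by simpa using hx⟩) (by simp at hl ⊢; omega) le_rfl
      (by simpa using hT)).trans ?_)
    exact mul_le_mul_of_nonneg_right (wt_mono h0 hlam _) (pr_nonneg _)

omit [Fintype α] [DecidableEq α] in
theorem head_dropLast {ρ : List α} {x : α} (h : ρ.dropLast.head? = some x) : ρ.head? = some x := by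
  match ρ, h with
  | [], h => simp at h
  | [_], h => simp at h
  | _ :: _ :: _, h => simpa using h

omit [Fintype α] [DecidableEq α] in
theorem rev_Tl {β ρ : List α} (h : Rev ok c N (β ++ ρ)) :
    Val ok [] (β ++ ρ) ∧ β ++ ρ ≠ [] ∧ (β ++ ρ).length ≤ N + 1 ∧ Tl ok c N ρ.dropLast β ∧
      (ρ ≠ [] → Tl ok c N β []) := by
  obtain ⟨σ, a, h1, h2, h3⟩ := h
  have h4 := Ex_val _ _ _ h2
  refine ⟨by rw [h1, Val_snoc]; exact ⟨h4.1, by simpa using h3⟩, by simp [h1], by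
    rw [h1]; simpa using h4.2, ?_⟩
  by_cases hρ : ρ = []
  · subst hρ
    exact ⟨trivial, fun h => absurd rfl h⟩
  · have h5 : σ = β ++ ρ.dropLast := by
      rw [← List.dropLast_append_of_ne_nil hρ, h1, List.dropLast_concat]
    rw [h5] at h2
    have h6 := Ex_append _ _ _ _ h2
    exact ⟨Tl_of_Ex (by simpa using h6.2), fun _ => Tl_of_Ex h6.1⟩

end ColpA

open ColpA in
theorem colp_proof (hP : ProdStmt) : ColpStmt := by
  classical
  intro α τ Ω _ _ _ _ ok π cl N L κ lam hL hκ hlam H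
  have h0 : 0 ≤ lam := le_trans (sum_nonneg fun i _ =>
    mul_nonneg (mul_nonneg zero_le_two (pr_nonneg _)) (hκ i)) hlam
  set Tr : ℕ → ℕ → ℕ → Finset (List α × List α × List α) := fun b l₁ l₂ =>
    (LL α b ×ˢ LL α l₁ ×ˢ LL α l₂).filter fun q =>
      Val ok [] (q.1 ++ q.2.1) ∧ Val ok [] (q.1 ++ q.2.2) ∧ q.2.1.head? ≠ q.2.2.head? ∧
      q.1 ++ q.2.1 ≠ [] ∧ q.1 ++ q.2.2 ≠ [] ∧ π (q.1 ++ q.2.1) = π (q.1 ++ q.2.2) with hTr
  have hc : ∀ b l₁ l₂, cntT ok π b l₁ l₂ = (Tr b l₁ l₂).card := fun b l₁ l₂ => by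
    unfold cntT
    congr 1
    ext q
    simp only [hTr, mem_filter]
  refine (pr_mono (Q := fun ω => ∃ b ∈ range (N + 2), ∃ l₁ ∈ range (N + 2), ∃ l₂ ∈ range (N + 2),
    ∃ q ∈ Tr b l₁ l₂, (q.1 ++ q.2.1).length ≤ N + 1 ∧ (q.1 ++ q.2.2).length ≤ N + 1 ∧
      Tl ok (tc cl ω) N q.1 [] ∧ (Tl ok (tc cl ω) N q.2.1.dropLast q.1 ∧
        Tl ok (tc cl ω) N q.2.2.dropLast q.1)) ?_).trans ?_
  · rintro ω ⟨δ₁, δ₂, hne, r1, r2, hπ⟩
    obtain ⟨β, ρ₁, ρ₂, rfl, rfl, hh⟩ := lcp δ₁ δ₂ hne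
    obtain ⟨a1, a2, a3, a4, a5⟩ := rev_Tl r1
    obtain ⟨b1, b2, b3, b4, b5⟩ := rev_Tl r2
    have a3' := a3
    have b3' := b3
    rw [List.length_append] at a3' b3'
    refine ⟨β.length, mem_range.2 (by omega), ρ₁.length, mem_range.2 (by omega), ρ₂.length,
      mem_range.2 (by omega), (β, ρ₁, ρ₂), mem_filter.2 ⟨by simp [mem_LL], a1, b1, hh, a2, b2, hπ⟩,
      a3, b3, ?_, a4, b4⟩
    by_cases h : ρ₁ = []
    · exact b5 fun h' => hh (by rw [h, h'])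
    · exact a5 h
  unfold colB
  refine (pr_exists_le _ _).trans (sum_le_sum fun b _ => ?_)
  refine (pr_exists_le _ _).trans (sum_le_sum fun l₁ _ => ?_)
  refine (pr_exists_le _ _).trans (sum_le_sum fun l₂ _ => ?_)
  refine (pr_exists_le _ _).trans ?_
  rw [hc, ← nsmul_eq_mul]
  refine sum_le_card_nsmul _ _ _ ?_
  rintro ⟨β, ρ₁, ρ₂⟩ hq
  obtain ⟨q1, q2, -, q3, -⟩ := mem_filter.1 hq
  simp only [mem_product, mem_LL] at q1 q2 q3 ⊢
  obtain ⟨rfl, rfl, rfl⟩ := q1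
  by_cases hl : (β ++ ρ₁).length ≤ N + 1 ∧ (β ++ ρ₂).length ≤ N + 1
  swap
  · rw [pr_false fun _ h => hl ⟨h.1, h.2.1⟩]
    exact mul_nonneg (mul_nonneg (wt_nonneg h0 _) (wt_nonneg h0 _)) (wt_nonneg h0 _)
  simp only [List.length_append] at hl
  have hv : Val ok [] β := ((Val_append ok β ρ₁ []).1 q2).1
  have sub : ∀ σ (j : Nd α L), SH σ β j → SE ([] ++ β) j := by
    rintro σ j ⟨x, ρ, -, h⟩
    exact ⟨x :: ρ, by simp, by simpa using h⟩
  have one : ∀ ρ : List α, β.length + ρ.length ≤ N + 1 →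
      pr (fun ω : Nd α L → Ω => Tl ok (tc cl ω) N ρ.dropLast β) ≤ wt lam (ρ.length - 2) := by
    intro ρ hρ
    have := tail hP hL hκ hlam H ρ.dropLast β (fun _ => True) hv
      (by rw [List.length_dropLast]; omega) fun _ _ _ => rfl
    rw [pr_true (P := fun _ => True) fun _ => trivial, mul_one, List.length_dropLast] at this
    exact (pr_mono fun _ h => ⟨h, trivial⟩).trans this
  refine (pr_mono fun _ h => h.2.2).trans ((tail hP hL hκ hlam H β [] _ trivial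
    (by simp; omega) (dep_and ((dep_Tl N _ β).mono (sub _)) ((dep_Tl N _ β).mono (sub _)))).trans ?_)
  rw [mul_assoc, pr_and_of_indep (dep_Tl N _ β) (dep_Tl N _ β)]
  · exact mul_le_mul_of_nonneg_left (mul_le_mul (one ρ₁ hl.1) (one ρ₂ hl.2) (pr_nonneg _)
      (wt_nonneg h0 _)) (wt_nonneg h0 _)
  · rintro j ⟨x, ρ, h1, h2⟩ ⟨y, ρ', h3, h4⟩
    rw [h2] at h4
    have : x = y := by simpa using (List.cons.inj (List.append_cancel_left h4)).1
    exact q3 (by rw [head_dropLast h1, head_dropLast h3, this])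

end Crest.Agent.R30
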