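import Crest.Agent.R30.Basic

/-! # R30 CONC: exponential supermartingale bound -/

set_option autoImplicit false

namespace Crest.Agent.R30

open Finset

namespace Conc

open Classical in
theorem mgf {X τ : Type} [Fintype X] {stp : τ → X → X} {Tt : Finset τ} {good : ℕ → X → Prop}
    {x0 : X} {ν : ℕ → X → ℝ} (hν : IsChain stp Tt good x0 ν) (hT : Tt.Nonempty)
    (K : ℕ) (V : ℕ → X → ℝ) (c δ : ℕ → ℝ) (β ρ σ S θ : ℝ)
    (hc : ∀ k < K, 0 ≤ c k ∧ c k ≤ 1 ∧ 0 ≤ δ k) (hρ : 0 ≤ ρ) (hσ : 0 ≤ σ) (hθ : 0 ≤ θ)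
    (hβ : θ * β ≤ 1) (hS : ∑ k ∈ range K, δ k ≤ S)
    (h : ∀ k < K, ∀ x, good k x →
        (∀ t ∈ Tt, |V (k + 1) (stp t x) - c k * V k x| ≤ β) ∧
        (∑ t ∈ Tt, (V (k + 1) (stp t x) - c k * V k x)) / Tt.card ≤ ρ * δ k ∧
        (∑ t ∈ Tt, (V (k + 1) (stp t x) - c k * V k x) ^ 2) / Tt.card ≤ σ * δ k) :
    ∑ x, ν K x * Real.exp (θ * V K x) ≤ Real.exp (θ * |V 0 x0| + (θ * ρ + θ ^ 2 * σ) * S) := by
  have hM : (0 : ℝ) < Tt.card := by exact_mod_cast hT.card_pos
  set th : ℕ → ℝ := fun k => θ * ∏ i ∈ Ico k K, c i with hth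
  have th0 : ∀ k, 0 ≤ th k := fun k =>
    mul_nonneg hθ (prod_nonneg fun i hi => (hc i (mem_Ico.1 hi).2).1)
  have th1 : ∀ k, th k ≤ θ := fun k =>
    mul_le_of_le_one_right hθ (prod_le_one (fun i hi => (hc i (mem_Ico.1 hi).2).1)
      fun i hi => (hc i (mem_Ico.1 hi).2).2.1)
  have ths : ∀ k < K, th k = th (k + 1) * c k := fun k hk => by
    simp only [hth]
    rw [prod_eq_prod_Ico_succ_bot hk]; ring
  have thK : th K = θ := by simp [hth]
  have key : ∀ k ≤ K, ∑ x, ν k x * Real.exp (th k * V k x) ≤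
      Real.exp (θ * |V 0 x0| + (θ * ρ + θ ^ 2 * σ) * ∑ i ∈ range k, δ i) := by
    intro k
    induction k with
    | zero =>
      intro _
      rw [hν.2.1 fun x => Real.exp (th 0 * V 0 x)]
      refine Real.exp_le_exp.2 ?_
      have h1 : th 0 * V 0 x0 ≤ th 0 * |V 0 x0| := mul_le_mul_of_nonneg_left (le_abs_self _) (th0 0)
      have h2 : th 0 * |V 0 x0| ≤ θ * |V 0 x0| := mul_le_mul_of_nonneg_right (th1 0) (abs_nonneg _)
      simp only [range_zero, sum_empty, mul_zero, add_zero]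
      linarith
    | succ k ih =>
      intro hk
      have hk' : k < K := hk
      rw [hν.2.2 k fun x => Real.exp (th (k + 1) * V (k + 1) x), sum_range_succ, mul_add,
        ← add_assoc, Real.exp_add]
      refine le_trans ?_ (mul_le_mul_of_nonneg_right (ih hk'.le) (Real.exp_pos _).le)
      rw [sum_mul]
      refine sum_le_sum fun y _ => ?_
      rw [mul_assoc]
      refine mul_le_mul_of_nonneg_left ?_ (hν.1 k y)
      split_ifs with hg
      swap
      · positivity
      obtain ⟨h1, h2, h3⟩ := h k hk' y hg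
      have hδ := (hc k hk').2.2
      have t0 := th0 (k + 1)
      have t1 := th1 (k + 1)
      have pt : ∀ t ∈ Tt, Real.exp (th (k + 1) * V (k + 1) (stp t y)) ≤
          Real.exp (th k * V k y) * (1 + th (k + 1) * (V (k + 1) (stp t y) - c k * V k y) +
            θ ^ 2 * (V (k + 1) (stp t y) - c k * V k y) ^ 2) := fun t ht => by
        set Z := V (k + 1) (stp t y) - c k * V k y with hZ
        have e : th (k + 1) * V (k + 1) (stp t y) = th k * V k y + th (k + 1) * Z := by
          rw [ths k hk', hZ]; ring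
        rw [e, Real.exp_add]
        refine mul_le_mul_of_nonneg_left ?_ (Real.exp_pos _).le
        have hz : |th (k + 1) * Z| ≤ 1 := by
          rw [abs_mul, abs_of_nonneg t0]
          calc th (k + 1) * |Z| ≤ θ * |Z| := mul_le_mul_of_nonneg_right t1 (abs_nonneg _)
            _ ≤ θ * β := mul_le_mul_of_nonneg_left (h1 t ht) hθ
            _ ≤ 1 := hβ
        have h4 := (abs_le.1 (Real.abs_exp_sub_one_sub_id_le hz)).2
        have h5 : (th (k + 1) * Z) ^ 2 ≤ θ ^ 2 * Z ^ 2 := by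
          rw [mul_pow]
          exact mul_le_mul_of_nonneg_right (pow_le_pow_left₀ t0 t1 2) (sq_nonneg _)
        linarith
      refine (div_le_div_of_nonneg_right (sum_le_sum pt) hM.le).trans ?_
      rw [← mul_sum, mul_div_assoc]
      refine mul_le_mul_of_nonneg_left ?_ (Real.exp_pos _).le
      rw [sum_add_distrib, sum_add_distrib, sum_const, nsmul_eq_mul, mul_one, ← mul_sum, ← mul_sum,
        add_div, add_div, div_self hM.ne', mul_div_assoc, mul_div_assoc]
      have h6 := mul_le_mul_of_nonneg_left h2 t0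
      have h7 : th (k + 1) * (ρ * δ k) ≤ θ * (ρ * δ k) :=
        mul_le_mul_of_nonneg_right t1 (mul_nonneg hρ hδ)
      have h8 := mul_le_mul_of_nonneg_left h3 (sq_nonneg θ)
      have h9 := Real.add_one_le_exp ((θ * ρ + θ ^ 2 * σ) * δ k)
      linarith
  have h1 := key K le_rfl
  rw [thK] at h1
  refine h1.trans (Real.exp_le_exp.2 ?_)
  have : 0 ≤ θ * ρ + θ ^ 2 * σ := by positivity
  have := mul_le_mul_of_nonneg_left hS this
  linarith

end Conc

open Conc in
theorem conc_proof : ConcStmt := by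
  classical
  intro X τ _ stp Tt good x0 ν hν hT K V c δ β ρ σ S θ y hc hρ hσ hθ hβ hS h
  have h1 := mgf hν hT K V c δ β ρ σ S θ hc hρ hσ hθ hβ hS fun k hk x hx =>
    ⟨(h k hk x hx).1, (le_abs_self _).trans (h k hk x hx).2.1, (h k hk x hx).2.2⟩
  have h2 := mgf hν hT K (fun k x => -V k x) c δ β ρ σ S θ hc hρ hσ hθ hβ hS fun k hk x hx => by
    obtain ⟨a, b, d⟩ := h k hk x hx
    have e : ∀ t, -V (k + 1) (stp t x) - c k * -V k x = -(V (k + 1) (stp t x) - c k * V k x) :=
      fun t => by ring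
    simp only [e, abs_neg, neg_sq, sum_neg_distrib, neg_div]
    exact ⟨a, (neg_le_abs _).trans b, d⟩
  simp only [abs_neg] at h2
  set a := |V 0 x0| + ρ * S + y with ha
  have pt : ∀ x, (if a < |V K x| then (1 : ℝ) else 0) ≤
      Real.exp (-(θ * a)) * (Real.exp (θ * V K x) + Real.exp (θ * -V K x)) := fun x => by
    split_ifs with hx
    · rw [mul_add, ← Real.exp_add, ← Real.exp_add]
      rcases lt_abs.1 hx with h3 | h3
      · have : 1 ≤ Real.exp (-(θ * a) + θ * V K x) := Real.one_le_exp (by nlinarith)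
        linarith [Real.exp_pos (-(θ * a) + θ * -V K x)]
      · have : 1 ≤ Real.exp (-(θ * a) + θ * -V K x) := Real.one_le_exp (by nlinarith)
        linarith [Real.exp_pos (-(θ * a) + θ * V K x)]
    · positivity
  have h3 : ∑ x, ν K x * (if a < |V K x| then (1 : ℝ) else 0) ≤ Real.exp (-(θ * a)) *
      (∑ x, ν K x * Real.exp (θ * V K x) + ∑ x, ν K x * Real.exp (θ * -V K x)) := by
    rw [← sum_add_distrib, mul_sum]
    refine sum_le_sum fun x _ => ?_
    have := mul_le_mul_of_nonneg_left (pt x) (hν.1 K x)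
    linarith
  have h4 := mul_le_mul_of_nonneg_left (add_le_add h1 h2) (Real.exp_pos (-(θ * a))).le
  have e : Real.exp (-(θ * a)) * (Real.exp (θ * |V 0 x0| + (θ * ρ + θ ^ 2 * σ) * S) +
      Real.exp (θ * |V 0 x0| + (θ * ρ + θ ^ 2 * σ) * S)) =
      2 * Real.exp (-(θ * y) + θ ^ 2 * σ * S) := by
    rw [← two_mul, mul_left_comm, ← Real.exp_add]
    congr 2
    rw [ha]; ring
  rw [e] at h4
  exact le_trans (le_of_eq (by convert rfl)) (h3.trans h4)

end Crest.Agent.R30
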