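import Crest.Agent.R30.Basic

/-! # R30 COUP: coupling of the exploration with independent clocks -/

set_option autoImplicit false

namespace Crest.Agent.R30

open Finset

namespace CoupA

section General

variable {ι τ Ω : Type} [Fintype τ] [DecidableEq τ] [Fintype Ω] [Nonempty Ω]

theorem cyl (S : Finset ι) (π : ι → τ) (hπ : Set.InjOn π S) (f : ι → Ω) :
    pr (fun ξ : τ → Ω => ∀ i ∈ S, f i = ξ (π i)) = (1 / (Fintype.card Ω : ℝ)) ^ S.card := by
  classical
  rw [pr_forall_of_indep S (fun i t => t = π i), ← prod_const]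
  · refine prod_congr rfl fun i _ => ?_
    rw [pr_coord (π i) (fun z => f i = z)]
    unfold pr av
    simp
  · intro i _ ω ω' h
    show (_ = _) = (_ = _)
    rw [h _ rfl]
  · rintro i hi j hj hij t rfl h
    exact hij (hπ hi hj h)

theorem av_comm {X Z : Type} [Fintype X] [Fintype Z] (f : X → Z → ℝ) :
    av (fun x => av fun z => f x z) = av fun z => av fun x => f x z := by
  unfold av
  simp only [← sum_div]
  rw [sum_comm, div_right_comm]

open Classical in
/-- indicator -/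
noncomputable def ind (P : Prop) : ℝ := if P then 1 else 0

theorem ind_pos {P : Prop} (h : P) : ind P = 1 := if_pos h

theorem ind_neg {P : Prop} (h : ¬ P) : ind P = 0 := if_neg h

theorem pr_ind {X : Type} [Fintype X] (P : X → Prop) : pr P = av fun x => ind (P x) := rfl

variable [Fintype ι] [DecidableEq ι]

theorem stop (Rv : (ι → Ω) → Finset ι) (E : (ι → Ω) → Prop) (π : ι → τ)
    (hR : ∀ ω ω', (∀ i ∈ Rv ω, ω i = ω' i) → Rv ω = Rv ω' ∧ (E ω ↔ E ω'))
    (hI : ∀ ω, E ω → Set.InjOn π (Rv ω)) : pr (fun ξ : τ → Ω => E (fun i => ξ (π i))) = pr E := by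
  have hc : (0 : ℝ) < Fintype.card Ω := by exact_mod_cast Fintype.card_pos
  set w : (ι → Ω) → ℝ := fun ω => ind (E ω) * (Fintype.card Ω : ℝ) ^ (Rv ω).card with hw
  have h1 : ∀ ω, ind (E ω) = av fun ξ : τ → Ω => w ω * ind (∀ i ∈ Rv ω, ω i = ξ (π i)) := by
    intro ω
    rw [av_const_mul, ← pr_ind]
    simp only [hw]
    by_cases h : E ω
    · rw [cyl (Rv ω) π (hI ω h) ω, mul_assoc, ← mul_pow, mul_one_div_cancel hc.ne', one_pow,
        mul_one]
    · rw [ind_neg h, zero_mul, zero_mul]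
  have h2 : ∀ ω', ind (E ω') = av fun ω : ι → Ω => w ω * ind (∀ i ∈ Rv ω, ω i = ω' i) := by
    intro ω'
    have e : ∀ ω : ι → Ω, w ω * ind (∀ i ∈ Rv ω, ω i = ω' i) =
        w ω' * ind (∀ i ∈ Rv ω', ω' i = ω i) := by
      intro ω
      by_cases h : ∀ i ∈ Rv ω, ω i = ω' i
      · obtain ⟨a, b⟩ := hR ω ω' h
        rw [ind_pos h, ind_pos fun i hi => (h i (a ▸ hi)).symm]
        simp only [hw, a, b]
      · rw [ind_neg h, ind_neg fun h' => h fun i hi => (h' i ((hR ω' ω h').1 ▸ hi)).symm]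
        simp
    simp only [e]
    rw [av_const_mul, ← pr_ind, cyl (Rv ω') (fun i => i) (Set.injOn_id _) ω']
    simp only [hw]
    rw [mul_assoc, ← mul_pow, mul_one_div_cancel hc.ne', one_pow, mul_one]
  rw [pr_ind, pr_ind, funext h1, av_comm]
  exact congrArg av (funext fun ξ => h2 _)

theorem coup (Rv : (ι → Ω) → Finset ι) (E : (ι → Ω) → Prop) (π : ι → τ)
    (hR : ∀ ω ω', (∀ i ∈ Rv ω, ω i = ω' i) → Rv ω = Rv ω' ∧ (E ω ↔ E ω')) :
    |pr (fun ξ : τ → Ω => E (fun i => ξ (π i))) - pr E| ≤ pr fun ω => ¬ Set.InjOn π (Rv ω) := by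
  have h1 := stop Rv (fun ω => E ω ∧ Set.InjOn π (Rv ω)) π
    (fun ω ω' h => ⟨(hR ω ω' h).1, by rw [(hR ω ω' h).1, (hR ω ω' h).2]⟩) fun _ h => h.2
  have h2 := stop Rv (fun ω => Set.InjOn π (Rv ω)) π
    (fun ω ω' h => ⟨(hR ω ω' h).1, by rw [(hR ω ω' h).1]⟩) fun _ h => h
  have h3 := pr_not fun ω : ι → Ω => Set.InjOn π (Rv ω)
  have h4 := pr_not fun ξ : τ → Ω => Set.InjOn π (Rv fun i => ξ (π i))
  have h5 := pr_split E fun ω => Set.InjOn π (Rv ω)
  have h6 := pr_split (fun ξ : τ → Ω => E (fun i => ξ (π i)))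
    fun ξ => Set.InjOn π (Rv fun i => ξ (π i))
  have h7 := pr_mono (P := fun ω => E ω ∧ ¬ Set.InjOn π (Rv ω))
    (Q := fun ω => ¬ Set.InjOn π (Rv ω)) fun _ h => h.2
  have h8 := pr_mono (P := fun ξ : τ → Ω => E (fun i => ξ (π i)) ∧
    ¬ Set.InjOn π (Rv fun i => ξ (π i))) (Q := fun ξ => ¬ Set.InjOn π (Rv fun i => ξ (π i)))
    fun _ h => h.2
  have h9 := pr_nonneg fun ω => E ω ∧ ¬ Set.InjOn π (Rv ω)
  have h10 := pr_nonneg fun ξ : τ → Ω => E (fun i => ξ (π i)) ∧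
    ¬ Set.InjOn π (Rv fun i => ξ (π i))
  rw [abs_le]
  constructor <;> linarith

end General

variable {α : Type} {ok : List α → α → Prop} {c c' : List α → ℕ}

theorem Ex_mono {σ γ : List α} {k k' : ℕ} (h : Ex ok c σ γ k) (hk : k ≤ k') :
    Ex ok c σ γ k' := by
  cases σ with
  | nil => trivial
  | cons a ρ => exact ⟨h.1, h.2.1.trans_le hk, h.2.2⟩

theorem Ex_len : ∀ (σ γ : List α) (k : ℕ), Ex ok c σ γ k → σ.length ≤ k
  | [], _, _, _ => Nat.zero_le _
  | _ :: ρ, _, _, h => Nat.succ_le_of_lt ((Ex_len ρ _ _ h.2.2.2).trans_lt h.2.1)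

/-- Agreement on the nodes revealed below `γ`. -/
def Agr (ok : List α → α → Prop) (c c' : List α → ℕ) (γ : List α) (k : ℕ) : Prop :=
  ∀ ρ a, Ex ok c ρ γ k → ok (γ ++ ρ) a → c (γ ++ (ρ ++ [a])) = c' (γ ++ (ρ ++ [a]))

theorem Agr.mono {γ : List α} {k k' : ℕ} (h : Agr ok c c' γ k') (hk : k ≤ k') :
    Agr ok c c' γ k := fun ρ a h1 h2 => h ρ a (Ex_mono h1 hk) h2

theorem Agr.one {γ : List α} {k : ℕ} (h : Agr ok c c' γ k) {a : α} (ha : ok γ a) :
    c (γ ++ [a]) = c' (γ ++ [a]) := h [] a trivial (by simpa using ha)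

theorem Agr.down {γ : List α} {k : ℕ} (h : Agr ok c c' γ k) {a : α} (ha : ok γ a)
    (h1 : c (γ ++ [a]) < k) (h2 : JA ok c (c (γ ++ [a])) γ) :
    Agr ok c c' (γ ++ [a]) (c (γ ++ [a])) := fun ρ b h3 h4 => by
  simpa using h (a :: ρ) b ⟨ha, h1, h2, h3⟩ (by simpa using h4)

theorem JA_agr (k : ℕ) : ∀ γ : List α, Agr ok c c' γ k → (JA ok c k γ ↔ JA ok c' k γ) := by
  induction k with
  | zero => exact fun _ _ => Iff.rfl
  | succ k ih =>
    intro γ h
    rw [JA, JA, ← ih γ (h.mono (Nat.le_succ k))]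
    refine and_congr_right fun hJ => forall₂_congr fun a ha => ?_
    rw [← h.one ha]
    refine forall_congr' fun e => ?_
    have := h.down ha (by omega) (by rwa [e])
    rw [e] at this
    rw [ih _ this]

theorem Ex_agr : ∀ (ρ γ : List α) (k : ℕ), Agr ok c c' γ k → (Ex ok c ρ γ k ↔ Ex ok c' ρ γ k)
  | [], _, _, _ => Iff.rfl
  | a :: ρ, γ, k, h => by
    rw [Ex, Ex]
    refine and_congr_right fun ha => ?_
    rw [← h.one ha]
    refine and_congr_right fun h1 => ?_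
    rw [← JA_agr _ γ (h.mono h1.le)]
    exact and_congr_right fun h2 => Ex_agr ρ _ _ (h.down ha h1 h2)

end CoupA

open CoupA in
theorem coup_proof : CoupStmt := by
  classical
  intro α τ Ω _ _ _ _ _ _ ok π cl N L hL
  have h := coup (fun ω : Nd α L → Ω => univ.filter fun j => Rev ok (tc cl ω) N j.1)
    (fun ω => JA ok (tc cl ω) N []) (fun j => π j.1) fun ω ω' h => by
      have ag : Agr ok (tc cl ω) (tc cl ω') [] N := by
        intro ρ a h1 h2
        rw [List.nil_append] at h2 ⊢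
        unfold tc
        split_ifs with h3
        · rw [h ⟨_, h3⟩ (mem_filter.2 ⟨mem_univ _, ρ, a, rfl, h1, h2⟩)]
        · rfl
      refine ⟨filter_congr fun j _ => ?_, JA_agr N [] ag⟩
      unfold Rev
      simp only [Ex_agr _ [] N ag]
  rw [pr_congr (Q := fun ξ : τ → Ω => JA ok (tc cl fun j : Nd α L => ξ (π j.1)) N [])
    fun ξ => JA_congr ok N [] fun ρ _ h2 => by
      rw [tc, dif_pos (by simp; omega)]]
  refine h.trans (pr_mono fun ω hω => ?_)
  by_contra hc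
  refine hω fun i hi j hj hij => ?_
  by_contra hne
  exact hc ⟨i.1, j.1, fun e => hne (Subtype.ext e), (mem_filter.1 hi).2, (mem_filter.1 hj).2, hij⟩

end Crest.Agent.R30
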