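import Mathlib
import Crest.Prelude.Def_TriangleRemoval

/-!
# Row 30 (S0040, triangle removal): definitions and task list

Overview.  `hh φ G` is the expectation of the process started at `G`; it is harmonic for the lazy
chain `step` (pick a uniform triple of `T n`, delete it if it is a triangle).

* **Stage 1.** Run the lazy chain from `K_n` until the codegree is `D ∈ [x^8, 2x^8]`,
  `x = n^(1/1000)`.  With `y = Y/D - 1` one has `dy = -δ K y + noise`, `K = opL + opR`.  A fixed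
  polynomial `Uop J` in `K` nearly annihilates every bounded function (`AnnStmt`, from extension
  counts `Ext`), so the chain of quantities `Uop i y` stays small (`DriftStmt`, `ConcStmt`);
  `Ext` itself follows from survival probabilities (`SurvStmt`) and high moments (`MomStmt`).
* **Stage 2.** Give every triple an independent clock (`RoundStmt`).  Whether two edges survive is
  decided by exploring a tree (`LinkStmt`); it is coupled with independent clocks on the tree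
  (`CoupStmt`), where the probability is a product (`ProdStmt`) given by a recursion that is solved
  by `RecStmt`; the coupling error (`ColpStmt`) is small on average (`GeoStmt`, `SumsStmt`);
  second moment (`FixStmt`).

Every `def XStmt : Prop` is one task.  Prove it in `Crest/Agent/R30/X.lean` as
`theorem x_proof (earlier Stmts as hypotheses, as listed) : XStmt`, importing only
`Crest.Agent.R30.Defs` (and `Crest.Agent.R30.Basic`, elementary lemmas).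
-/

set_option autoImplicit false

namespace Crest.Agent.R30

open Crest.CombinatoricsR.TriangleRemoval Finset

/-- Edge sets on `Fin n`. -/
abbrev Gr (n : ℕ) := Finset (Sym2 (Fin n))

/-- Real functions of an ordered pair of vertices. -/
abbrev Fn (n : ℕ) := Fin n → Fin n → ℝ

section Stage1

variable {n : ℕ}

/-- Adjacency indicator. -/
noncomputable def A (G : Gr n) (u v : Fin n) : ℝ := if s(u, v) ∈ G then 1 else 0

/-- Codegree. -/
noncomputable def Y (G : Gr n) (u v : Fin n) : ℝ := ∑ w, A G u w * A G v w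

/-- Sup bound off the diagonal. -/
def Bd (δ : Fn n) (b : ℝ) : Prop := ∀ u v, u ≠ v → |δ u v| ≤ b

noncomputable def opL (D : ℝ) (G : Gr n) (δ : Fn n) : Fn n :=
  fun u v => (∑ w, A G u w * A G v w * δ u w) / D

noncomputable def opR (D : ℝ) (G : Gr n) (δ : Fn n) : Fn n :=
  fun u v => (∑ w, A G u w * A G v w * δ w v) / D

noncomputable def opK (D : ℝ) (G : Gr n) (δ : Fn n) : Fn n :=
  fun u v => opL D G δ u v + opR D G δ u v

/-- `(K - lam) δ`. -/
noncomputable def opS (D : ℝ) (G : Gr n) (lam : ℝ) (δ : Fn n) : Fn n :=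
  fun u v => opK D G δ u v - lam * δ u v

/-- Relative codegree deviation. -/
noncomputable def yy (D : ℝ) (G : Gr n) : Fn n := fun u v => Y G u v / D - 1

/-- `Uop i = (K - lam (i-1)) ∘ ⋯ ∘ (K - lam 0)`. -/
noncomputable def Uop (D : ℝ) (G : Gr n) (lam : ℕ → ℝ) : ℕ → Fn n → Fn n
  | 0, δ => δ
  | i + 1, δ => opS D G (lam i) (Uop D G lam i δ)

/-- Loopless, and all codegrees (of all pairs `u ≠ v`, adjacent or not) are `D (1 ± η)`. -/
def Reg (G : Gr n) (D η : ℝ) : Prop := G ⊆ allEdges n ∧ Bd (yy D G) η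

/-- All triples of vertices. -/
def T (n : ℕ) : Finset (Finset (Fin n)) := Finset.univ.powersetCard 3

/-- One step of the lazy chain. -/
def step (t : Finset (Fin n)) (G : Gr n) : Gr n := if t ∈ triangles G then G \ t.sym2 else G

/-- The expectation of `φ (final number of edges)` from `G`. -/
noncomputable def hh (φ : ℕ → ℝ) (G : Gr n) : ℝ := expectFinal φ (n ^ 2) G

/-- The time change `s 0 = 0`, `s (k+1) = s k + D a_k exp (-2 s k)` (used in both stages). -/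
noncomputable def sq (D : ℝ) (a : ℕ → ℝ) : ℕ → ℝ
  | 0 => 0
  | k + 1 => sq D a k + D * a k * Real.exp (-2 * sq D a k)

open Classical in
/-- `ν k` is the law at time `k` of the chain `x ↦ stp t x` (`t` uniform in `Tt`) started at `x0`
and killed when it is not `good k` at time `k` (so `ν k` still charges states that are bad at
time `k`; they have no offspring).  Existence: `exists_isChain` in `Basic`. -/
def IsChain {X τ : Type} [Fintype X] (stp : τ → X → X) (Tt : Finset τ) (good : ℕ → X → Prop)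
    (x0 : X) (ν : ℕ → X → ℝ) : Prop :=
  (∀ k x, 0 ≤ ν k x) ∧ (∀ F : X → ℝ, ∑ x, ν 0 x * F x = F x0) ∧
    ∀ (k : ℕ) (F : X → ℝ), ∑ x, ν (k + 1) x * F x =
      ∑ y, ν k y * (if good k y then (∑ t ∈ Tt, F (stp t y)) / (Tt.card : ℝ) else 0)

open Classical in
/-- Number of injective extensions of the rooted pattern `(R, E)` on `Fin v`, with the roots
placed by `φ`. -/
noncomputable def Cnt {v : ℕ} (G : Gr n) (R : Finset (Fin v)) (E : Finset (Fin v × Fin v))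
    (φ : Fin v → Fin n) : ℕ :=
  (Finset.univ.filter fun ψ : Fin v → Fin n =>
    Function.Injective ψ ∧ (∀ i ∈ R, ψ i = φ i) ∧ ∀ e ∈ E, s(ψ e.1, ψ e.2) ∈ G).card

/-- Number of pattern edges inside `S`. -/
def eIn {v : ℕ} (E : Finset (Fin v × Fin v)) (S : Finset (Fin v)) : ℕ :=
  (E.filter fun e => e.1 ∈ S ∧ e.2 ∈ S).card

/-- Safe rooted patterns. -/
def Safe (m0 : ℕ) {v : ℕ} (R : Finset (Fin v)) (E : Finset (Fin v × Fin v)) : Prop :=
  (∀ e ∈ E, e.1 < e.2) ∧ ∀ S : Finset (Fin v), R ⊆ S →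
    eIn E S ≤ 2 * (S \ R).card ∨ (eIn E S ≤ 2 * (S \ R).card + 3 ∧ m0 ≤ (S \ R).card)

/-- Upper bounds on all safe extension counts with at most `v0` vertices. -/
def Ext (m0 v0 : ℕ) (p ε : ℝ) (G : Gr n) : Prop :=
  ∀ v ≤ v0, ∀ (R : Finset (Fin v)) (E : Finset (Fin v × Fin v)), Safe m0 R E →
    ∀ φ : Fin v → Fin n, (Cnt G R E φ : ℝ) ≤ (1 + ε) * (n : ℝ) ^ (v - R.card) * p ^ E.card

/-- The word operator `X_{w 0} ∘ X_{w 1} ∘ ⋯ ∘ X_{w (j-1)}`, `X_true = opL`, `X_false = opR`. -/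
noncomputable def opW (D : ℝ) (G : Gr n) (w : ℕ → Bool) : ℕ → Fn n → Fn n
  | 0, δ => δ
  | j + 1, δ => opW D G w j (if w j then opL D G δ else opR D G δ)

/-- Labels of the current pair after `i` letters: the roots are `0, 1`; letter `i` creates the
vertex `i + 2`, joined to both current vertices; `true` keeps the first, `false` the second. -/
def cur (w : ℕ → Bool) : ℕ → ℕ × ℕ
  | 0 => (0, 1)
  | i + 1 => if w i then ((cur w i).1, i + 2) else (i + 2, (cur w i).2)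

/-- Roots of the word pattern: `0`, `1` and the final pair. -/
def Rw (w : ℕ → Bool) (j : ℕ) : Finset (Fin (j + 2)) :=
  Finset.univ.filter fun z => z.1 = 0 ∨ z.1 = 1 ∨ z.1 = (cur w j).1 ∨ z.1 = (cur w j).2

/-- Edges of the word pattern: the `2 j` created edges except the one joining the final pair. -/
def Ew (w : ℕ → Bool) (j : ℕ) : Finset (Fin (j + 2) × Fin (j + 2)) :=
  Finset.univ.filter fun e => 2 ≤ e.2.1 ∧
    (e.1.1 = (cur w (e.2.1 - 2)).1 ∨ e.1.1 = (cur w (e.2.1 - 2)).2) ∧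
    ¬ ((e.1.1 = (cur w j).1 ∧ e.2.1 = (cur w j).2) ∨ (e.1.1 = (cur w j).2 ∧ e.2.1 = (cur w j).1))

/-- The first `j` letters of `w` split into `m` consecutive blocks, each with both letters. -/
def Blk (w : ℕ → Bool) (j m : ℕ) : Prop :=
  ∃ τ : ℕ → ℕ, τ 0 = 0 ∧ τ m = j ∧ ∀ b < m,
    (∃ i, τ b ≤ i ∧ i < τ (b + 1) ∧ w i = true) ∧ (∃ i, τ b ≤ i ∧ i < τ (b + 1) ∧ w i = false)

/-- Average over all (ordered) edges. -/
noncomputable def Pi0 (p : ℝ) (G : Gr n) (δ : Fn n) : ℝ :=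
  (∑ a, ∑ b, A G a b * δ a b) / ((n : ℝ) ^ 2 * p)

/-- Average over the edges at `u`. -/
noncomputable def Pi1 (p : ℝ) (G : Gr n) (δ : Fn n) (u : Fin n) : ℝ :=
  (∑ b, A G u b * δ u b) / ((n : ℝ) * p)

/-- Bookkeeping for one step of the chain: `V` is a function of the current graph, `V' t` the same
function after the triple `t`; `Vp` is minus the normalised drift. -/
structure Vr (D : ℝ) (V Vp : Fn n) (V' : Finset (Fin n) → Fn n) (b β γ ρ : ℝ) : Prop where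
  bd : Bd V b
  jump : ∀ t ∈ T n, ∀ u v, u ≠ v → |V' t u v - V u v| ≤ β
  tot : ∀ u v, u ≠ v → ∑ t ∈ T n, |V' t u v - V u v| ≤ γ * D
  drift : ∀ u v, u ≠ v → |∑ t ∈ T n, (V' t u v - V u v) + D * Vp u v| ≤ ρ * D

end Stage1

/-! ## Stage 1 tasks -/

/-- **30-SAFE** (pure combinatorics, no hypotheses).  Facts: `(cur w i).1 ≠ (cur w i).2`, both are
`≤ i + 1`, for `i ≥ 1` one of them is `i + 1`.  Every vertex `z ≥ 2` has exactly two back-edges
(to `cur w (z-2)`); for `j ≥ 1` the final pair is one of them and is removed, so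
`eIn E S = (∑ z ∈ S, z ≥ 2, #back-neighbours of z in S) - 1 ≤ 2 |S \ {0,1}| - 1`.
(a) all-`true` word: `cur i = (0, i+1)`, `R = {0,1,j+1}`; if `|S \ R| < m0 ≤ j - 1` some vertex in
`2..j` is missing from `S`, and the next vertex of `S` after it lacks the back-edge `(z-1, z)`.
(b) blocks: both final labels are created in the last block.  If `|S \ R| < m0` some block among
the first `m0 + 1` creates no vertex of `S`; at its end both current vertices were created in it.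
The first vertex of `S` created later has no back-neighbour in `S`, the second at most one
(current labels after time `τ (b+1)` are always created at or after time `τ b`), so three
back-edges are missing. -/
def SafeStmt : Prop :=
  (∀ m0 j : ℕ, m0 + 1 ≤ j → Safe m0 (Rw (fun _ => true) j) (Ew (fun _ => true) j) ∧
      (cur (fun _ => true) j).1 = 0) ∧
  ∀ (m0 j : ℕ) (w : ℕ → Bool), Blk w j (m0 + 2) →
    Safe m0 (Rw w j) (Ew w j) ∧ 2 ≤ (cur w j).1 ∧ 2 ≤ (cur w j).2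

/-- **30-MIX** (no hypotheses).  Unfold `opW D G w j δ u v = D^{-j} ∑_ψ (∏ of the 2j created
adjacencies) · δ (ψ (cur j).1) (ψ (cur j).2)` over `ψ : Fin (j+2) → Fin n`, `ψ 0 = u`, `ψ 1 = v`.
Let `μ (a,b)` be the mass of the *injective* `ψ` with final pair `(a,b)`.  Then `μ (a,b) = 0`
unless `s(a,b) ∈ G`, and `μ (a,b) ≤ D^{-j} Cnt G (Rw w j) (Ew w j) φ ≤ (1+ε) π (a,b)` with
`π = A a b / (n² p)` (`|R| = 4`, `|E| = 2j-1`), resp. `π = [a = u] A u b / (n p)` (`|R| = 3`).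
Total mass of all `ψ` is `≥ (1-η)^j` (each step has `Y ≥ (1-η) D` choices, current pairs are
distinct because `G` is loopless), the non-injective `ψ` have mass `≤ j (j+2) (2D)^(j-1) / D^j`,
and `∑ π ≤ 1 + ε` by `Ext` for `v = 2`, `R = {0}`, `E = {(0,1)}` (degree bound).  Conclude with
`∑ |μ - π| = 2 ∑ (μ-π)⁺ - ∑ μ + ∑ π ≤ C ε`. -/
def MixStmt : Prop :=
  ∀ j0 : ℕ, ∃ C : ℝ, 0 ≤ C ∧ ∀ (m0 n : ℕ) (G : Gr n) (p D η ε : ℝ) (w : ℕ → Bool) (j : ℕ),
    0 < p → D = n * p ^ 2 → 1 ≤ D → η ≤ ε → 1 / D ≤ ε → ε ≤ 1 → Reg G D η →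
    Ext m0 (j0 + 2) p ε G → 1 ≤ j → j ≤ j0 → Safe m0 (Rw w j) (Ew w j) →
    ∀ (δ : Fn n) (b : ℝ), 0 ≤ b → Bd δ b → ∀ u v, u ≠ v →
      (2 ≤ (cur w j).1 → 2 ≤ (cur w j).2 → |opW D G w j δ u v - Pi0 p G δ| ≤ C * ε * b) ∧
      ((cur w j).1 = 0 → |opW D G w j δ u v - Pi1 p G δ u| ≤ C * ε * b)

/-- **30-ANN** (from `SafeStmt`, `MixStmt`).  Put `j = m0 + 1`, `m = m0 + 2`, `j0 = m (j+1)`,
`v0 = j0 + 2`, `J = 1 + m (j+1)`, `lam 0 = 2`, then `m` blocks `(1, 0, …, 0)` (`j` zeros), so that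
`Uop J = B^m (K - 2)` with `B = K^j (K - 1) = K^{j+1} - K^j`.  Expand `K^j` as the sum of all words
of length `j`.  The constant words give `L^{j+1} - L^j` and `R^{j+1} - R^j`, both `O(ε)` by Mix
(`R^i δ u v = L^i δᵀ v u`); all other words contain both letters.  `opL`, `opR` at most double
`Bd`-bounds (`Y ≤ 2D`), so `B^m = O(ε) +` a signed sum of boundedly many concatenations `w` with
`Blk w j' m`, `j' ≤ j0`, each `Pi0 + O(ε)` by Mix.  Finally, by swapping sums,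
`Pi0 ((K-2) δ) = 2 ∑ A δ y / (n² p)`, which is `≤ 2 η b (1+ε)` (degree bound from `Ext`, `v = 2`).
Suggested formalisation: call an operator `P` *small* if `Bd δ b → Bd (P δ) (C ε b)`; show by
induction on `m'` that `B^{m'}` is small plus a finite signed sum (e.g. a `List` or `Finsupp` of
pairs word/length with `Blk · · m'`), using `opW` of a concatenation = composition. -/
def AnnStmt : Prop :=
  ∀ m0 : ℕ, ∃ (J v0 : ℕ) (lam : ℕ → ℝ) (C : ℝ), 1 ≤ J ∧ 2 ≤ v0 ∧ (∀ i, 0 ≤ lam i ∧ lam i ≤ 2) ∧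
    0 ≤ C ∧ ∀ (n : ℕ) (G : Gr n) (p D η ε : ℝ),
      0 < p → D = n * p ^ 2 → 1 ≤ D → η ≤ ε → 1 / D ≤ ε → ε ≤ 1 → Reg G D η →
      Ext m0 v0 p ε G → ∀ (δ : Fn n) (b : ℝ), 0 ≤ b → Bd δ b → Bd (Uop D G lam J δ) (C * ε * b)

/-- **30-DR0** (no hypotheses; `tri_count` in `Basic`).  Let `M = #(T n)`, `D' = D e^{-2δ}`.
For a common neighbour `w` of `u, v`, the number of `t` with `A' u w * A' v w = 0` after `step t`
is `N_w = Y u w + Y v w - A u v` (triangles through `uw` or `vw`; only `{u,v,w}` has both), and one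
`t` kills at most three `w`.  So `∑_t (Y - Y'_t) = D (2Y + D · K y) - A u v · Y`, while
`M Y (1/D' - 1/D) = 2Y + O(δ D)`; use `δ ≤ 1/D`, `Y ≤ 2D`, `|K y| ≤ 3η`. -/
def Drift0Stmt : Prop :=
  ∃ C : ℝ, 0 ≤ C ∧ ∀ (n : ℕ) (G : Gr n) (D δ η : ℝ), 0 < D → 0 ≤ δ → δ * (T n).card = D →
    δ ≤ 1 / D → 1 / D ≤ η ^ 2 → 0 ≤ η → η ≤ 1 / 2 → Reg G D η →
    Vr D (yy D G) (opK D G (yy D G)) (fun t => yy (D * Real.exp (-2 * δ)) (step t G))
      η (C / D) C (C / D)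

/-- **30-DR1** (no hypotheses; `tri_count` in `Basic`).  With `a_w = A u w A v w / D` and `a'_{t,w}`
the same after `step t` with `D' = D e^{-2δ}`, write
`a' V' - a V = (a' - a) V + a (V' - V) + (a' - a)(V' - V)`.  For a common neighbour `w`,
`∑_t (a' - a) = ((M - N_w) e^{2δ} - M)/D = O(η + 1/D)` (`N_w` as in DR0, `M δ = D`) and
`∑_t |a' - a| = O(1)`; there are `≤ 2D` such `w`, and for fixed `t` at most three `w` are killed. -/
def Drift1Stmt : Prop :=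
  ∃ C : ℝ, 0 ≤ C ∧ ∀ (n : ℕ) (G : Gr n) (D δ η : ℝ), 0 < D → 0 ≤ δ → δ * (T n).card = D →
    δ ≤ 1 / D → 1 / D ≤ η ^ 2 → 0 ≤ η → η ≤ 1 / 2 → Reg G D η →
    ∀ (lam : ℝ) (V Vp : Fn n) (V' : Finset (Fin n) → Fn n) (b β γ ρ : ℝ),
      0 ≤ lam → lam ≤ 2 → 0 ≤ b → 0 ≤ β → 0 ≤ γ → 0 ≤ ρ → Vr D V Vp V' b β γ ρ →
      Vr D (opS D G lam V) (opS D G lam Vp)
        (fun t => opS (D * Real.exp (-2 * δ)) (step t G) lam (V' t))
        (C * b) (C * (b / D + β)) (C * (b + γ)) (C * (b * (η + 1 / D) + ρ + β))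

/-- The increment `V_i(k+1) - (1 - lam i δ) V_i(k)` of `V_i = Uop i y`. -/
noncomputable def Zinc {n : ℕ} (D δ : ℝ) (G : Gr n) (lam : ℕ → ℝ) (i : ℕ) (u v : Fin n)
    (t : Finset (Fin n)) : ℝ :=
  Uop (D * Real.exp (-2 * δ)) (step t G) lam i (yy (D * Real.exp (-2 * δ)) (step t G)) u v -
    (1 - lam i * δ) * Uop D G lam i (yy D G) u v

/-- **30-DR** (from `Drift0Stmt`, `Drift1Stmt`).  Induction on `i`: `Vr` holds for
`V = Uop i y`, `Vp = K V` (`opS` commutes with `opK` by linearity) with constants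
`C_i η, C_i / D, C_i, C_i η²`.  Then `∑ Z² ≤ max |Z| · ∑ |Z|`. -/
def DriftStmt : Prop :=
  ∀ J : ℕ, ∃ C : ℝ, 0 < C ∧ ∀ (n : ℕ) (G : Gr n) (D δ η : ℝ) (lam : ℕ → ℝ), 0 < D → 0 ≤ δ →
    δ * (T n).card = D → δ ≤ 1 / D → 1 / D ≤ η ^ 2 → 0 ≤ η → η ≤ 1 / 2 → Reg G D η →
    (∀ i, 0 ≤ lam i ∧ lam i ≤ 2) → ∀ i ≤ J, ∀ u v, u ≠ v →
      (∀ t ∈ T n, |Zinc D δ G lam i u v t| ≤ C / D) ∧
      |(∑ t ∈ T n, Zinc D δ G lam i u v t) / (T n).card + δ * Uop D G lam (i + 1) (yy D G) u v|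
        ≤ C * η ^ 2 * δ ∧
      (∑ t ∈ T n, Zinc D δ G lam i u v t ^ 2) / (T n).card ≤ C / D * δ

open Classical in
/-- **30-CONC** (no hypotheses).  Exponential supermartingale: with `θ_k = θ ∏_{k ≤ i < K} c i`
(so `0 ≤ θ_k ≤ θ`, `θ_k = θ_{k+1} c k`) and `e^z ≤ 1 + z + z²` for `|z| ≤ 1`, one gets
`∑ ν (k+1) exp (θ_{k+1} V (k+1)) ≤ exp (θ ρ δ_k + θ² σ δ_k) ∑ ν k exp (θ_k V k)`; Markov; apply
to `V` and `-V`. -/
def ConcStmt : Prop :=
  ∀ (X τ : Type) [Fintype X] (stp : τ → X → X) (Tt : Finset τ) (good : ℕ → X → Prop) (x0 : X)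
    (ν : ℕ → X → ℝ), IsChain stp Tt good x0 ν → Tt.Nonempty →
    ∀ (K : ℕ) (V : ℕ → X → ℝ) (c δ : ℕ → ℝ) (β ρ σ S θ y : ℝ),
      (∀ k < K, 0 ≤ c k ∧ c k ≤ 1 ∧ 0 ≤ δ k) → 0 ≤ ρ → 0 ≤ σ → 0 ≤ θ → θ * β ≤ 1 →
      ∑ k ∈ range K, δ k ≤ S →
      (∀ k < K, ∀ x, good k x →
        (∀ t ∈ Tt, |V (k + 1) (stp t x) - c k * V k x| ≤ β) ∧
        |(∑ t ∈ Tt, (V (k + 1) (stp t x) - c k * V k x)) / Tt.card| ≤ ρ * δ k ∧
        (∑ t ∈ Tt, (V (k + 1) (stp t x) - c k * V k x) ^ 2) / Tt.card ≤ σ * δ k) →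
      ∑ x, ν K x * (if |V 0 x0| + ρ * S + y < |V K x| then 1 else 0) ≤
        2 * Real.exp (-(θ * y) + θ ^ 2 * σ * S)

open Classical in
/-- **30-SURV** (no hypotheses; `tri_count` in `Basic`).  If `F ⊆ G` and `Reg G D η`, the number
of triangles of `G` containing an edge of `F` is at least `|F| (1-η) D - |F|²` (Bonferroni: two
distinct edges lie in at most one common triple), and such a triple destroys `F ⊆ G`; `step` only
deletes edges.  Use `1 - z ≤ e^{-z}` and induct on `k`. -/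
def SurvStmt : Prop :=
  ∀ (n : ℕ) (good : ℕ → Gr n → Prop) (x0 : Gr n) (ν : ℕ → Gr n → ℝ) (Dk : ℕ → ℝ) (η : ℝ),
    3 ≤ n → IsChain step (T n) good x0 ν → (∀ k, 0 < Dk k) →
    (∀ k G, good k G → Reg G (Dk k) η) → ∀ (k : ℕ) (F : Gr n),
      ∑ G, ν k G * (if F ⊆ G then 1 else 0) ≤
        Real.exp (-((F.card : ℝ) * (1 - η) * ∑ i ∈ range k, Dk i / (T n).card) +
          (F.card : ℝ) ^ 2 * k / (T n).card)

open Classical in
/-- **30-MOM** (no hypotheses).  Fix a safe `(R,E)` on `Fin v`, `v ≤ v0`, and `φ`.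
`∑ ν Cnt^r ≤ κ ∑_{ψ_1..ψ_r} pt^{|⋃ ψ_i(E)|}` (injective `ψ_i` equal to `φ` on `R`).  Add the copies
one at a time: let `W` be `φ(R)` together with the vertices of the earlier copies, `|W| ≤ r v0`,
and `S = ψ⁻¹ W ⊇ R`.  There are `≤ |W|^{|S \ R|} n^{v - |S|}` maps with a given `S`, and the edges
of `E` not inside `S` give `|E| - eIn E S` distinct new edges.  Relative to `n^{v-|R|} pt^{|E|}` the
term of `S` is `1` for `S = R`, and else `≤ ξ` or `≤ ξ^m0 / p³`; so the sum is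
`≤ ((1+ε/4) n^{v-|R|} pt^{|E|})^r ≤ ((1+ε/4)² n^{v-|R|} p^{|E|})^r`.  Markov with
`(1+ε/4)²/(1+ε) ≤ e^{-ε/5}`, union bound over `(v, R, E, φ)`. -/
def MomStmt : Prop :=
  ∀ (n m0 v0 r : ℕ) (ν : Gr n → ℝ) (κ p pt ε ξ : ℝ), 1 ≤ n → 1 ≤ m0 → (∀ G, 0 ≤ ν G) → 0 ≤ κ →
    0 < p → p ≤ pt → pt ≤ 1 → 0 < ε → ε ≤ 1 → pt ^ (v0 ^ 2) ≤ (1 + ε / 4) * p ^ (v0 ^ 2) →
    ξ = r * v0 / (n * p ^ 2) → ξ ≤ 1 → 2 ^ v0 * ξ ≤ ε / 4 → 2 ^ v0 * ξ ^ m0 / p ^ 3 ≤ ε / 4 →
    (∀ F : Gr n, F.card ≤ r * v0 ^ 2 → ∑ G, ν G * (if F ⊆ G then 1 else 0) ≤ κ * pt ^ F.card) →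
    ∑ G, ν G * (if Ext m0 v0 p ε G then 0 else 1) ≤
      (v0 + 1) * 2 ^ (v0 + v0 ^ 2) * (n : ℝ) ^ v0 * κ * Real.exp (-(ε * r / 5))

open Classical in
/-- What stage 1 delivers, with `x = n^(1/1000)`. -/
def S1Out (J : ℕ) (lam : ℕ → ℝ) (C : ℝ) (n : ℕ) (x : ℝ) : Prop :=
  ∃ (p D : ℝ) (ν : Gr n → ℝ), 0 < p ∧ D = n * p ^ 2 ∧ x ^ 8 ≤ D ∧ D ≤ 2 * x ^ 8 ∧
    (∀ G, 0 ≤ ν G) ∧ ∑ G, ν G ≤ 1 ∧
    (∀ G, ν G ≠ 0 → Reg G D (1 / x ^ 2) ∧ (∀ u, ∑ w, A G u w ≤ (1 + 1 / x) * n * p) ∧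
      ∀ (δ : Fn n) (b : ℝ), 0 ≤ b → Bd δ b → Bd (Uop D G lam J δ) (C / x * b)) ∧
    (∀ F : Gr n, (F.card : ℝ) ≤ x ^ 3 →
      ∑ G, ν G * (if F ⊆ G then 1 else 0) ≤ 2 * (5 / 4 * p) ^ F.card) ∧
    ∀ (φ : ℕ → ℝ) (H : ℝ), (∀ e ≤ n ^ 2, 0 ≤ φ e ∧ φ e ≤ H) →
      hh φ (allEdges n) ≤ ∑ G, ν G * hh φ G + H / (n : ℝ) ^ 2

/-- **30-S1** (from `AnnStmt`, `DriftStmt`, `ConcStmt`, `SurvStmt`, `MomStmt`; `hh_step`,
`hh_bounds`, `exists_isChain`, `deg_le_of_ext` in `Basic`).  Take `m0 = 1000` in Ann.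
`M = #(T n) = C(n,3)`, `s = sq n (fun _ => 1/M)`, `p_k = e^{-s k}`, `D_k = n p_k²`, `δ_k = D_k/M`, so
`s (k+1) = s k + δ_k`, `D_{k+1} = D_k e^{-2 δ_k}`.  `k0` = first `k` with `D_k < 2x^8`; then
`x^8 ≤ D_k ≤ n` for `k ≤ k0`, `s k0 ≤ S := log n`, `k0/M ≤ S/x^8`.  `η = 1/x²`, `ε = 1/x`,
`η_i = η/(4S)^i`, `r = ⌈x²⌉`.  `good k G := G ⊆ allEdges n ∧ (∀ i < J, Bd (Uop D_k G lam i (yy D_k G))
η_i) ∧ Ext m0 v0 p_k ε G`.  For `k ≤ k0`: `ν k` lives on loopless graphs; `ν k (¬Ext)` is bounded by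
Mom with `pt = e^{-(1-η) s k}`, `κ = 2` (Surv, `|F|² k/M ≤ x^6 S/x^8`); for `i < J`, `u ≠ v`, Conc
with `V k G = Uop D_k G lam i (yy D_k G) u v`, `c k = 1 - lam i δ_k`, `β = σ = C/x^8`,
`ρ = η_{i+1} + C η²` (for `i + 1 = J` Ann gives `|Uop J y| ≤ C ε η ≤ η_J`), `y = η_i/4`,
`θ = y/(2σS)`, `|V 0| ≤ 6^i · 2/n`: failure `≤ 2 exp (-y²/(4σS))`, `y²/(σ S) ≥ x³` eventually.
Harmonicity gives `hh x0 ≤ ∑ ν k0 · 1[good k0] · hh + H ∑_{k ≤ k0} ν k (¬ good k)`; output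
`ν k0 · 1[good k0]`.  All failures are `≤ poly(n) e^{-x/5} ≤ 1/n²` eventually (`k0 ≤ n³ log n`). -/
def Stage1Stmt : Prop :=
  ∃ (J : ℕ) (lam : ℕ → ℝ) (C : ℝ), 1 ≤ J ∧ (∀ i, 0 ≤ lam i ∧ lam i ≤ 2) ∧ 1 ≤ C ∧
    ∀ᶠ n : ℕ in Filter.atTop, S1Out J lam C n ((n : ℝ) ^ ((1 : ℝ) / 1000))

/-! ## Stage 2 definitions -/

/-- Uniform average on a finite type. -/
noncomputable def av {X : Type} [Fintype X] (f : X → ℝ) : ℝ := (∑ x, f x) / Fintype.card X

open Classical in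
/-- Uniform probability on a finite type. -/
noncomputable def pr {X : Type} [Fintype X] (P : X → Prop) : ℝ := av fun x => if P x then 1 else 0

section Stage2

variable {n : ℕ}

/-- `al G c k u v`: the pair `uv` has not been deleted during the rounds `< k`, when the triple `t`
rings in round `c t`. -/
def al (G : Gr n) (c : Finset (Fin n) → ℕ) : ℕ → Fin n → Fin n → Prop
  | 0, _, _ => True
  | k + 1, u, v => al G c k u v ∧ ∀ w, s(u, w) ∈ G → s(v, w) ∈ G → c {u, v, w} = k →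
      ¬ (al G c k u w ∧ al G c k w v)

open Classical in
/-- The edges of `G` alive after `N` rounds. -/
noncomputable def fin (G : Gr n) (c : Finset (Fin n) → ℕ) (N : ℕ) : Gr n :=
  G.filter fun e => ∀ u v, e = s(u, v) → al G c N u v

/-- First index with value `0`, or `N` if there is none. -/
noncomputable def clk {N Q : ℕ} (z : Fin N → Fin Q) : ℕ :=
  sInf {i : ℕ | N ≤ i ∨ ∃ h : i < N, (z ⟨i, h⟩ : ℕ) = 0}

end Stage2

section Tree

variable {α : Type}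

/-- Abstract tree on `List α`, children `γ ++ [a]` with `ok γ a`; node `δ` rings at time `c δ`.
`JA k γ`: no child rang before `k` while itself `JA` at its ringing time. -/
def JA (ok : List α → α → Prop) (c : List α → ℕ) : ℕ → List α → Prop
  | 0, _ => True
  | k + 1, γ => JA ok c k γ ∧ ∀ a, ok γ a → c (γ ++ [a]) = k → ¬ JA ok c k (γ ++ [a])

/-- `Ex ρ γ k`: deciding `JA k γ` examines the node `γ ++ ρ`. -/
def Ex (ok : List α → α → Prop) (c : List α → ℕ) : List α → List α → ℕ → Prop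
  | [], _, _ => True
  | a :: ρ, γ, k => ok γ a ∧ c (γ ++ [a]) < k ∧ JA ok c (c (γ ++ [a])) γ ∧
      Ex ok c ρ (γ ++ [a]) (c (γ ++ [a]))

/-- Revealed nodes: the children of examined nodes. -/
def Rev (ok : List α → α → Prop) (c : List α → ℕ) (N : ℕ) (δ : List α) : Prop :=
  ∃ ρ a, δ = ρ ++ [a] ∧ Ex ok c ρ [] N ∧ ok ρ a

/-- Collision: two revealed nodes with the same label. -/
def Col {τ : Type} (ok : List α → α → Prop) (c : List α → ℕ) (N : ℕ) (π : List α → τ) : Prop :=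
  ∃ δ₁ δ₂, δ₁ ≠ δ₂ ∧ Rev ok c N δ₁ ∧ Rev ok c N δ₂ ∧ π δ₁ = π δ₂

/-- Nodes of depth at most `L`. -/
abbrev Nd (α : Type) (L : ℕ) := {l : List α // l.length ≤ L}

noncomputable instance instFintypeNd [Finite α] (L : ℕ) : Fintype (Nd α L) :=
  (List.finite_length_le α L).fintype

/-- Independent clocks on the tree. -/
def tc {Ω : Type} {L : ℕ} (cl : Ω → ℕ) (ω : Nd α L → Ω) (l : List α) : ℕ :=
  if h : l.length ≤ L then cl (ω ⟨l, h⟩) else 0

open Classical in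
/-- `Uf k δ`: probability that `δ` rings before `k` and is `JA` then (`a i` = law of a clock). -/
noncomputable def Uf [Fintype α] (ok : List α → α → Prop) (a : ℕ → ℝ) : ℕ → List α → ℝ
  | 0, _ => 0
  | k + 1, δ => Uf ok a k δ +
      a k * ∏ x ∈ Finset.univ.filter (fun x => ok δ x), (1 - Uf ok a k (δ ++ [x]))

open Classical in
/-- `Qf k γ`: probability of `JA k γ` under independent clocks. -/
noncomputable def Qf [Fintype α] (ok : List α → α → Prop) (a : ℕ → ℝ) (k : ℕ) (γ : List α) : ℝ :=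
  ∏ x ∈ Finset.univ.filter (fun x => ok γ x), (1 - Uf ok a k (γ ++ [x]))

/-- `Val γ ρ`: the path `ρ` from the node `γ` uses only admissible children. -/
def Val (ok : List α → α → Prop) : List α → List α → Prop
  | _, [] => True
  | γ, a :: ρ => ok γ a ∧ Val ok (γ ++ [a]) ρ

/-- All lists of length `l`. -/
noncomputable def LL (α : Type) [Finite α] (l : ℕ) : Finset (List α) :=
  (List.finite_length_eq α l).toFinset

open Classical in
/-- Number of colliding pairs of valid nodes `β ++ ρ₁`, `β ++ ρ₂` with longest common prefix `β`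
and the given lengths. -/
noncomputable def cntT [Finite α] {τ : Type} (ok : List α → α → Prop) (π : List α → τ)
    (b l₁ l₂ : ℕ) : ℕ :=
  ((LL α b ×ˢ LL α l₁ ×ˢ LL α l₂).filter fun q =>
    Val ok [] (q.1 ++ q.2.1) ∧ Val ok [] (q.1 ++ q.2.2) ∧ q.2.1.head? ≠ q.2.2.head? ∧
    q.1 ++ q.2.1 ≠ [] ∧ q.1 ++ q.2.2 ≠ [] ∧ π (q.1 ++ q.2.1) = π (q.1 ++ q.2.2)).card

/-- `lam^l / l!`. -/
noncomputable def wt (lam : ℝ) (l : ℕ) : ℝ := lam ^ l / (l.factorial : ℝ)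

/-- The collision bound. -/
noncomputable def colB [Finite α] {τ : Type} (ok : List α → α → Prop) (π : List α → τ)
    (lam : ℝ) (N : ℕ) : ℝ :=
  ∑ b ∈ range (N + 2), ∑ l₁ ∈ range (N + 2), ∑ l₂ ∈ range (N + 2),
    (cntT ok π b l₁ l₂ : ℝ) * (wt lam (b - 1) * wt lam (l₁ - 2) * wt lam (l₂ - 2))

end Tree

section Geo

variable {n : ℕ}

/-- An ordered pair with an optional forbidden ("back") vertex. -/
abbrev Ed (n : ℕ) := Fin n × Fin n × Option (Fin n)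

/-- A node of the exploration tree carries two such pairs. -/
abbrev St (n : ℕ) := Bool → Ed n

/-- The letter `(b, w)` picks the pair `s b = (a, a', _)` and the triangle `{a, a', w}`; the child
carries the two other sides `(a, w)` and `(w, a')`. -/
def nxt (s : St n) (x : Bool × Fin n) : St n := fun b =>
  if b then ((s x.1).1, x.2, some (s x.1).2.1) else (x.2, (s x.1).2.1, some (s x.1).1)

def run (s0 : St n) (γ : List (Bool × Fin n)) : St n := γ.foldl nxt s0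

def okE (G : Gr n) (e : Ed n) (w : Fin n) : Prop :=
  s(e.1, e.2.1) ∈ G ∧ s(e.1, w) ∈ G ∧ s(e.2.1, w) ∈ G ∧ some w ≠ e.2.2

def okG (G : Gr n) (s0 : St n) (γ : List (Bool × Fin n)) (x : Bool × Fin n) : Prop :=
  okE G (run s0 γ x.1) x.2

/-- The triangle of a non-root node. -/
def piT (s0 : St n) (δ : List (Bool × Fin n)) : Finset (Fin n) :=
  insert (run s0 δ true).1 (insert (run s0 δ true).2.1 (run s0 δ true).2.2.toFinset)

def root (u v u' v' : Fin n) : St n := fun b => if b then (u, v, none) else (u', v', none)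

/-- Common neighbours other than the back vertex. -/
def cn (G : Gr n) (x y : Fin n) (o : Option (Fin n)) : Finset (Fin n) :=
  Finset.univ.filter fun z => s(x, z) ∈ G ∧ s(y, z) ∈ G ∧ some z ≠ o

/-- Tree probability that the triangle `{x, y, w}` on the pair `xy` is removed before `k`. -/
noncomputable def uu (G : Gr n) (a : ℕ → ℝ) : ℕ → Fin n → Fin n → Fin n → ℝ
  | 0, _, _, _ => 0
  | k + 1, x, y, w => uu G a k x y w +
      a k * ((∏ z ∈ cn G x w (some y), (1 - uu G a k x w z)) *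
        ∏ z ∈ cn G w y (some x), (1 - uu G a k w y z))

/-- Tree probability that the pair `xy` survives the rounds `< k`. -/
noncomputable def qq (G : Gr n) (a : ℕ → ℝ) (k : ℕ) (x y : Fin n) (o : Option (Fin n)) : ℝ :=
  ∏ z ∈ cn G x y o, (1 - uu G a k x y z)

/-- Four distinct vertices. -/
def Dist4 (u v u' v' : Fin n) : Prop :=
  u ≠ v ∧ u ≠ u' ∧ u ≠ v' ∧ v ≠ u' ∧ v ≠ v' ∧ u' ≠ v'

open Classical in
/-- Sum of `f` over roots: four distinct vertices, `uv ∈ G`, and `u'v' ∈ G` if `fl`. -/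
noncomputable def rsum (G : Gr n) (fl : Bool) (f : Fin n → Fin n → Fin n → Fin n → ℝ) : ℝ :=
  ∑ u, ∑ v, ∑ u', ∑ v',
    if Dist4 u v u' v' ∧ s(u, v) ∈ G ∧ (fl = true → s(u', v') ∈ G) then f u v u' v' else 0

end Geo

/-! ## Stage 2 tasks -/

/-- **30-ROUND** (no hypotheses; `hh_step`, `hh_of_no_tri`, `hh_bounds`, `al_symm` in `Basic`).
(a) law of `clk`: `pr (clk = i) = (1-1/Q)^i / Q` for `i < N`.
(b) In round `k` the ringing set is `B_k = {t ∈ T n | ξ t k = 0}`.  Let `G_0 = G`, `G_{k+1} = G_k` if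
`B_k = ∅`, `step t G_k` if `B_k = {t}`; `bad` if some `|B_k| ≥ 2`.  Given `|B_k| = 1` the triple is
uniform, so by harmonicity `hh G ≤ av (1[no bad round] hh G_N) + H · pr bad` (induct on `N`, e.g.
via `Fin.consEquiv`/`Fin.snoc` on each `ξ t`, or swap `ξ` to `Fin N → (Finset (Fin n) → Fin Q)`),
`pr bad ≤ N M²/Q²`.  Without a bad round, `G_k = fin G (clk ∘ ξ) k` (a triple that rang once is
never a triangle again, so only first rings matter), and if every triple has rung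
(`pr` of failure `≤ M (1-1/Q)^N`) `G_N` has no triangle. -/
def RoundStmt : Prop :=
  (∀ N Q : ℕ, 1 ≤ Q → (∀ i < N, pr (fun z : Fin N → Fin Q => clk z = i) ≤ 1 / Q) ∧
    ∑ i ∈ range N, pr (fun z : Fin N → Fin Q => clk z = i) = 1 - (1 - 1 / (Q : ℝ)) ^ N) ∧
  ∀ (n N Q : ℕ) (G : Gr n) (φ : ℕ → ℝ) (H : ℝ), 3 ≤ n → 1 ≤ Q → G ⊆ allEdges n →
    (∀ e ≤ n ^ 2, 0 ≤ φ e ∧ φ e ≤ H) →
    hh φ G ≤ av (fun ξ : Finset (Fin n) → Fin N → Fin Q =>
        φ (fin G (fun t => clk (ξ t)) N).card) +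
      H * ((N : ℝ) * (n : ℝ) ^ 6 / (Q : ℝ) ^ 2 + (n : ℝ) ^ 3 * (1 - 1 / (Q : ℝ)) ^ N)

/-- **30-COUP** (no hypotheses).  Stopping set: if `c'` agrees with `c` on `Rev ok c N`, then
`Rev`, `JA N []` agree for `c`, `c'` (if `ρ` is examined with time `k`, then `JA j ρ` agrees for all
`j ≤ k`, induction on `j`; then `Ex` agrees, induction on `ρ` from the right); revealed nodes have
length `≤ N + 1`.  General lemma: `Rv : (ι → Ω) → Finset ι` with `ω' = ω on Rv ω → Rv ω' = Rv ω`,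
`E` an event decided on `Rv`, `π : ι → τ`; then `pr_ξ (E (ξ∘π) ∧ InjOn π (Rv (ξ∘π))) =
pr_ω (E ω ∧ InjOn π (Rv ω))` by double counting the pairs `(ω, ξ)` with `ω = ξ∘π` on `Rv ω`,
weighted by `|Ω|^{|Rv ω|}`.  Use it for `E = JA` and `E = True`. -/
def CoupStmt : Prop :=
  ∀ (α τ Ω : Type) [Fintype α] [DecidableEq α] [Fintype τ] [DecidableEq τ] [Fintype Ω]
    [Nonempty Ω] (ok : List α → α → Prop) (π : List α → τ) (cl : Ω → ℕ) (N L : ℕ), N + 1 ≤ L →
    |pr (fun ξ : τ → Ω => JA ok (fun l => cl (ξ (π l))) N []) -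
        pr (fun ω : Nd α L → Ω => JA ok (tc cl ω) N [])| ≤
      pr (fun ω : Nd α L → Ω => Col ok (tc cl ω) N π)

/-- **30-PROD** (no hypotheses; `pr_and_of_indep`, `pr_forall_of_indep` in `Basic`).
`JA k γ ↔ ∀ a, ok γ a → c (γ++[a]) < k → ¬ JA (c (γ++[a])) (γ++[a])`; `JA k γ` depends only on the
clocks of the nodes `γ ++ ρ`, `1 ≤ |ρ| ≤ k`.  Strong induction on `k`:
`pr (c δ < k ∧ JA (c δ) δ) = ∑_{i<k} a i · Qf i δ = Uf k δ`, and different children are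
independent. -/
def ProdStmt : Prop :=
  ∀ (α Ω : Type) [Fintype α] [DecidableEq α] [Fintype Ω] [Nonempty Ω]
    (ok : List α → α → Prop) (cl : Ω → ℕ) (L k : ℕ) (γ : List α), γ.length + k ≤ L →
    pr (fun ω : Nd α L → Ω => JA ok (tc cl ω) k γ) = Qf ok (fun i => pr fun z => cl z = i) k γ ∧
    ∀ B : Finset α, pr (fun ω : Nd α L → Ω => ∀ x ∈ B, tc cl ω (γ ++ [x]) < k →
        ¬ JA ok (tc cl ω) (tc cl ω (γ ++ [x])) (γ ++ [x])) =
      ∏ x ∈ B, (1 - Uf ok (fun i => pr fun z => cl z = i) k (γ ++ [x]))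

/-- **30-COLP** (from `ProdStmt`; independence lemmas in `Basic`).  Union bound over the triples
of `cntT` (two distinct revealed nodes are `β ++ ρ₁`, `β ++ ρ₂` with different heads, valid, of
length `≤ N + 1`; then `β ++ ρᵢ.dropLast` and `β` are examined).  Let `g i = 2 a i κ i`,
`W l k = (∑_{i<k} g i)^l / l!`, so `∑_{i<k} g i W l i ≤ W (l+1) k`.  For valid `γ ≠ []`:
`pr (Ex ρ γ k) ≤ W |ρ| k`, since `Ex (x :: ρ) γ k` forces, for some `i < k`, the three independent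
events `c (γ++[x]) = i`, "no child `x' ≠ x` kills before `i`" (probability
`Qf i γ / (1 - Uf i (γ++[x])) ≤ 2 κ i`) and `Ex ρ (γ++[x]) i`.  Same induction along `β` for both
paths at once; at the root and at the branch node `β` drop the `JA` condition (`Ex` is monotone in
the time, `Ex σ δ i → Ex σ δ N`), the two branches being independent. -/
def ColpStmt : Prop :=
  ∀ (α τ Ω : Type) [Fintype α] [DecidableEq α] [Fintype Ω] [Nonempty Ω]
    (ok : List α → α → Prop) (π : List α → τ) (cl : Ω → ℕ) (N L : ℕ) (κ : ℕ → ℝ) (lam : ℝ),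
    2 * N + 2 ≤ L → (∀ i, 0 ≤ κ i) →
    ∑ i ∈ range N, 2 * pr (fun z => cl z = i) * κ i ≤ lam →
    (∀ γ, γ ≠ [] → Val ok [] γ →
      (∀ i < N, Qf ok (fun i => pr fun z => cl z = i) i γ ≤ κ i) ∧
      Uf ok (fun i => pr fun z => cl z = i) N γ ≤ 1 / 2) →
    pr (fun ω : Nd α L → Ω => Col ok (tc cl ω) N π) ≤ colB ok π lam N

open Classical in
/-- **30-LINK** (no hypotheses).  (1) General claim by induction on `k`: if every back vertex `z` of
a pair `(a,a',some z)` of `run s0 γ` has `k ≤ c {a,a',z}`, then `JA k γ ↔` both pairs of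
`run s0 γ` that are edges of `G` are `al` at `k` (`run s0 (γ++[x]) = nxt (run s0 γ) x`,
`piT s0 (γ++[(b,w)]) = {a,w,a'}`).  (2), (3): by induction on `k`, for all `γ` and admissible
`(b,w)`, `Uf k (γ++[(b,w)]) = uu k a a' w`; a product over admissible letters splits over `b`. -/
def LinkStmt : Prop :=
  ∀ (n : ℕ) (G : Gr n) (u v u' v' : Fin n),
    (∀ (c : Finset (Fin n) → ℕ) (N : ℕ),
      JA (okG G (root u v u' v')) (fun l => c (piT (root u v u' v') l)) N [] ↔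
        (s(u, v) ∈ G → al G c N u v) ∧ (s(u', v') ∈ G → al G c N u' v')) ∧
    ∀ a : ℕ → ℝ,
      (∀ k, Qf (okG G (root u v u' v')) a k [] =
        (if s(u, v) ∈ G then qq G a k u v none else 1) *
          (if s(u', v') ∈ G then qq G a k u' v' none else 1)) ∧
      ∀ γ, γ ≠ [] → Val (okG G (root u v u' v')) [] γ →
        ∃ x y w, s(x, w) ∈ G ∧ s(w, y) ∈ G ∧ ∀ k,
          Uf (okG G (root u v u' v')) a k γ = uu G a k x y w ∧
          Qf (okG G (root u v u' v')) a k γ = qq G a k x w (some y) * qq G a k w y (some x)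

/-- **30-REC** (no hypotheses).  `s = sq D a`, `θ_i = D a_i e^{-2 s i}` (`∑_{i<k} θ_i = s k ≤ S`,
`2 θ_i ≤ 1`).  Strong induction on `k`.  From the bounds at times `i < k`:
`0 ≤ uu k ≤ e^{2ζ} S/D`.  Put `z_k x y = -log (qq k x y none) - s k`; changing `none` to `o` moves
it by at most `-log (1 - uu) = O(S/D) = O(ζ²)`.  With `-log (1-u) = u + O(u²)`, `≤ 2D` factors and
`e^{-a-b} = 1 - a - b + O(ζ²)`: `z_k = -∑_{i<k} θ_i K z_i + g_k`, `Bd g_k (C S ζ²)`.  Apply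
`Uop j` (linear, commutes with `K`, multiplies `Bd` bounds by `≤ 6^j`):
`u^j_k = -∑_{i<k} θ_i (lam j u^j_i + u^{j+1}_i) + Uop j g_k`.  Volterra lemma: if
`x_m = -∑_{i<m} c_i x_i + h_m`, `0 ≤ c_i ≤ 1`, `|h_m| ≤ g` for all `m ≤ k`, then `|x_k| ≤ 2g`.
Downward induction from `|u^J_i| ≤ ε ζ ≤ ζ²` (`i < k`) gives `|z_k| ≤ C' S^{J+1} ζ²`. -/
def RecStmt : Prop :=
  ∀ (J : ℕ), 1 ≤ J → ∃ C : ℝ, 0 < C ∧ ∀ (lam : ℕ → ℝ) (n : ℕ) (G : Gr n) (D η ε ζ S : ℝ) (a : ℕ → ℝ)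
    (N : ℕ), (∀ i, 0 ≤ lam i ∧ lam i ≤ 2) → 0 < D → Reg G D η →
    (∀ (δ : Fn n) (b : ℝ), 0 ≤ b → Bd δ b → Bd (Uop D G lam J δ) (ε * b)) →
    (∀ i < N, 0 ≤ a i ∧ D * a i ≤ 1 / 2) → sq D a N ≤ S → 1 ≤ S → 0 < ζ → η ≤ ζ ^ 2 → ε ≤ ζ →
    S ^ 2 / D ≤ ζ ^ 2 → C * S ^ (J + 1) * ζ ≤ 1 → ∀ k ≤ N,
      (∀ x y o, x ≠ y → Real.exp (-sq D a k - ζ) ≤ qq G a k x y o ∧
        qq G a k x y o ≤ Real.exp (-sq D a k + ζ)) ∧
      ∀ x y w, x ≠ w → w ≠ y → uu G a k x y w ≤ 1 / 2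

/-- The node to which letter number `i` of `σ = β ++ ρ₁ ++ ρ₂` is attached (`b = |β|`,
`l₁ = |ρ₁|`); it depends only on `σ.take i`. -/
def nodeAt {α : Type} (b l₁ : ℕ) (σ : List α) (i : ℕ) : List α :=
  if i < b + l₁ then σ.take i else σ.take b ++ (σ.take i).drop (b + l₁)

/-- The edges created by the letters of `σ` (two per letter). -/
def madeE {n : ℕ} (s0 : St n) (b l₁ : ℕ) (σ : List (Bool × Fin n)) : Gr n :=
  (Finset.univ : Finset (Fin σ.length)).biUnion fun i =>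
    {s((run s0 (nodeAt b l₁ σ i) (σ.get i).1).1, (σ.get i).2),
      s((run s0 (nodeAt b l₁ σ i) (σ.get i).1).2.1, (σ.get i).2)}

/-- **30-GEOA** (deterministic combinatorics, no hypotheses).  Call letter `j` of
`σ = β ++ ρ₁ ++ ρ₂` fresh if its vertex is none of `u v u' v'` and differs from the vertices of the
earlier letters.  If all letters were fresh the two triangles would differ (the triangle of a node
contains the vertex of its last letter and otherwise only roots and vertices of its own path).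
Let `i` be the first non-fresh letter.  The `i` earlier letters create `2 i` distinct edges,
different from `uv`, `u'v'` (each contains its own fresh vertex; the two ends `a ≠ a'` of a used
pair differ as `G` is loopless).  Letter `i = (b', w)` on the pair `(a, a', back)` creates at least
one further edge: otherwise `{a,a',w}` is a triangle of `H = {uv, u'v'} ∪ earlier edges`; look at
its newest vertex: its only edges to older vertices are the two it was created with, so the triangle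
is that of an earlier letter `j`, which either created the pair `aa'` (then `w = back`, excluded by
`okE`) or was attached to the same pair, hence to the same node and side (a non-root pair contains
the vertex of the last letter of its node as newest vertex), which happens only for the heads of
`ρ₁`, `ρ₂`, and these differ. -/
def GeoAStmt : Prop :=
  ∀ (n : ℕ) (G : Gr n) (u v u' v' : Fin n) (β ρ₁ ρ₂ : List (Bool × Fin n)), G ⊆ allEdges n →
    Dist4 u v u' v' → Val (okG G (root u v u' v')) [] (β ++ ρ₁) →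
    Val (okG G (root u v u' v')) [] (β ++ ρ₂) → ρ₁.head? ≠ ρ₂.head? → β ++ ρ₁ ≠ [] →
    β ++ ρ₂ ≠ [] → piT (root u v u' v') (β ++ ρ₁) = piT (root u v u' v') (β ++ ρ₂) →
    ∃ (i : ℕ) (x : Bool × Fin n), (β ++ ρ₁ ++ ρ₂)[i]? = some x ∧
      (x.2 = u ∨ x.2 = v ∨ x.2 = u' ∨ x.2 = v' ∨ ∃ y ∈ (β ++ ρ₁ ++ ρ₂).take i, y.2 = x.2) ∧
      2 * i + 1 ≤ (madeE (root u v u' v') β.length ρ₁.length ((β ++ ρ₁ ++ ρ₂).take (i + 1)) \
        {s(u, v), s(u', v')}).card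

open Classical in
/-- **30-GEO** (from `GeoAStmt`).  A valid node has at most `2 · 2D` admissible letters
(`Y ≤ 2D`), which gives the crude bound and bounds the number of ways to complete a prefix of
`σ = β ++ ρ₁ ++ ρ₂` of length `i + 1` by `(4D)^(Λ-i-1)` (letter `j` must be admissible at
`nodeAt b l₁ σ j`).  By GEOA, `cntT ≤ ∑_{i<Λ} ∑_{σ' ∈ LL (i+1) good} 1[madeE σ' ⊆ G] (4D)^(Λ-i-1)`
where "good" (last vertex old, `≥ 2i+1` edges outside the root pairs) does not depend on `G`; there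
are `≤ (2n)^i · 2 (Λ+4)` such `σ'`.  Choose `F ⊆ madeE σ' ∪ root edges` with exactly
`2i + 1 + ρ` edges (`ρ = 2` or `1` root edges) and use the survival hypothesis;
`(2 n pt²)^i ≤ (4D)^i`, `2 ≤ 4D`. -/
def GeoStmt : Prop :=
  (∀ (n : ℕ) (G : Gr n) (D : ℝ) (s0 : St n) (b l₁ l₂ : ℕ), 0 < D → Reg G D 1 →
    (cntT (okG G s0) (piT s0) b l₁ l₂ : ℝ) ≤ (4 * D) ^ (b + l₁ + l₂)) ∧
  ∀ (n : ℕ) (ν : Gr n → ℝ) (D κ pt : ℝ) (fl : Bool) (b l₁ l₂ : ℕ), 1 ≤ D → 0 ≤ κ → 0 ≤ pt →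
    n * pt ^ 2 ≤ 2 * D → (∀ G, 0 ≤ ν G) → (∀ G, ν G ≠ 0 → Reg G D 1) →
    (∀ F : Gr n, F.card ≤ 2 * (b + l₁ + l₂) + 3 →
      ∑ G, ν G * (if F ⊆ G then 1 else 0) ≤ κ * pt ^ F.card) →
    ∑ G, ν G * rsum G fl (fun u v u' v' =>
        (cntT (okG G (root u v u' v')) (piT (root u v u' v')) b l₁ l₂ : ℝ)) ≤
      κ * (n : ℝ) ^ 4 * pt ^ (if fl then 3 else 2) * (4 * D) ^ (b + l₁ + l₂) *
        ((b + l₁ + l₂ : ℕ) * ((b + l₁ + l₂ : ℕ) + 4))

open Classical in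
/-- **30-SUMS** (from `GeoStmt`).  With `Λ = b + l₁ + l₂`: for `Λ ≤ Λ0` use the averaged bound and
`Λ(Λ+4) ≤ 3 · 2^Λ`, for `Λ > Λ0` the crude bound times `1 ≤ 2^Λ / 2^Λ0`; then
`∑_b (8D)^b wt (b-1) ≤ 9 D e^{8 D lam}`, `∑_l (8D)^l wt (l-2) ≤ 73 D² e^{8 D lam}`.
Second part: `e^{2 s (k+1)} = e^{2 s k} e^{2θ}`, `θ = D a_k e^{-2 s k}`, and
`1 + y ≤ e^y ≤ 1 + y + y²` for `0 ≤ y ≤ 1`. -/
def SumsStmt : Prop :=
  (∀ (n : ℕ) (ν : Gr n → ℝ) (D κ pt lam : ℝ) (fl : Bool) (N Λ0 : ℕ), 1 ≤ D → 0 ≤ κ → 0 ≤ pt →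
    0 ≤ lam → n * pt ^ 2 ≤ 2 * D → (∀ G, 0 ≤ ν G) → ∑ G, ν G ≤ 1 → (∀ G, ν G ≠ 0 → Reg G D 1) →
    (∀ F : Gr n, F.card ≤ 2 * Λ0 + 3 →
      ∑ G, ν G * (if F ⊆ G then 1 else 0) ≤ κ * pt ^ F.card) →
    ∑ G, ν G * rsum G fl (fun u v u' v' =>
        colB (okG G (root u v u' v')) (piT (root u v u' v')) lam N) ≤
      (3 * κ * pt ^ (if fl then 3 else 2) + 1 / 2 ^ Λ0) * (n : ℝ) ^ 4 *
        (50000 * D ^ 5 * Real.exp (24 * D * lam))) ∧
  ∀ (D θ : ℝ) (a : ℕ → ℝ) (N : ℕ), 0 < D → D * θ ≤ 1 / 2 → (∀ i < N, 0 ≤ a i ∧ a i ≤ θ) →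
    0 ≤ sq D a N ∧ sq D a N = D * ∑ i ∈ range N, a i * Real.exp (-2 * sq D a i) ∧
    1 + 2 * D * ∑ i ∈ range N, a i ≤ Real.exp (2 * sq D a N) ∧
    Real.exp (2 * sq D a N) ≤ 1 + 2 * D * (1 + 2 * D * θ) * ∑ i ∈ range N, a i

open Classical in
/-- **30-FIX** (no hypotheses).  `X = 2F = ∑_{u,v} 1[uv ∈ G ∧ Al u v]`, `Σ = ∑ A q`.
`av X² ≤ Σ² + rsum true cb + 16 n³ p²` (quadruples of two edges that are not `Dist4` share a vertex:
`≤ 4 · n · (2np)²`).  For each edge `uv` average the hypothesis over the non-edges `u'v'` with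
`Dist4`, of which there are `≥ (n-2)(n-3) - 2n²p ≥ n²/2`: `av X ≥ Σ - (2/n²) rsum false cb`.
Expand the square. -/
def FixStmt : Prop :=
  ∀ (n : ℕ) (G : Gr n) (Ω : Type) [Fintype Ω] [Nonempty Ω] (Al : Ω → Fin n → Fin n → Prop)
    (F : Ω → ℕ) (q : Fn n) (cb : Fin n → Fin n → Fin n → Fin n → ℝ) (p c : ℝ),
    20 ≤ n → G ⊆ allEdges n → 0 ≤ p → p ≤ 1 / 8 → 0 ≤ c → (∀ u, ∑ w, A G u w ≤ 2 * n * p) →
    (∀ u v, s(u, v) ∈ G → 0 ≤ q u v) → (∀ u v u' v', 0 ≤ cb u v u' v') →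
    (∀ ω, (2 * F ω : ℝ) = ∑ u, ∑ v, if s(u, v) ∈ G ∧ Al ω u v then 1 else 0) →
    (∀ u v u' v', Dist4 u v u' v' →
      |pr (fun ω => (s(u, v) ∈ G → Al ω u v) ∧ (s(u', v') ∈ G → Al ω u' v')) -
        (if s(u, v) ∈ G then q u v else 1) * (if s(u', v') ∈ G then q u' v' else 1)| ≤
        cb u v u' v') →
    av (fun ω => ((F ω : ℝ) / (n : ℝ) ^ ((3 : ℝ) / 2) - c) ^ 2) ≤
      ((∑ u, ∑ v, A G u v * q u v) / (2 * (n : ℝ) ^ ((3 : ℝ) / 2)) - c) ^ 2 +
        rsum G true cb / (4 * (n : ℝ) ^ 3) + 4 * p ^ 2 +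
        2 * c * rsum G false cb / ((n : ℝ) ^ 2 * (n : ℝ) ^ ((3 : ℝ) / 2))

end Crest.Agent.R30
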