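import Crest.Agent.R30.Basic

/-! # R30 DR: drift, jumps and variance of the chain `Uop i y` -/

set_option autoImplicit false

namespace Crest.Agent.R30

open Finset

namespace Dr

variable {n : ℕ}

theorem vr_mono {D : ℝ} (hD : 0 ≤ D) {V Vp : Fn n} {V' : Finset (Fin n) → Fn n}
    {b β γ ρ b' β' γ' ρ' : ℝ} (h : Vr D V Vp V' b β γ ρ) (h1 : b ≤ b') (h2 : β ≤ β') (h3 : γ ≤ γ')
    (h4 : ρ ≤ ρ') : Vr D V Vp V' b' β' γ' ρ' :=
  ⟨h.bd.mono h1, fun t ht u v huv => (h.jump t ht u v huv).trans h2,
    fun u v huv => (h.tot u v huv).trans (mul_le_mul_of_nonneg_right h3 hD),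
    fun u v huv => (h.drift u v huv).trans (mul_le_mul_of_nonneg_right h4 hD)⟩

theorem opS_opK (D : ℝ) (G : Gr n) (lam : ℝ) (V : Fn n) :
    opS D G lam (opK D G V) = opK D G (opS D G lam V) := by
  funext u v
  have eL : opL D G (opS D G lam V) u v = opL D G (opK D G V) u v - lam * opL D G V u v := by
    unfold opL opS
    rw [← mul_div_assoc, ← sub_div, mul_sum, ← sum_sub_distrib]
    congr 1
    exact sum_congr rfl fun w _ => by ring
  have eR : opR D G (opS D G lam V) u v = opR D G (opK D G V) u v - lam * opR D G V u v := by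
    unfold opR opS
    rw [← mul_div_assoc, ← sub_div, mul_sum, ← sum_sub_distrib]
    congr 1
    exact sum_congr rfl fun w _ => by ring
  show opL D G (opK D G V) u v + opR D G (opK D G V) u v - lam * (opL D G V u v + opR D G V u v) =
    opL D G (opS D G lam V) u v + opR D G (opS D G lam V) u v
  rw [eL, eR]; ring

end Dr

open Dr in
theorem dr_proof (h0 : Drift0Stmt) (h1 : Drift1Stmt) : DriftStmt := by
  obtain ⟨C0, hC0, h0⟩ := h0
  obtain ⟨C1, hC1, h1⟩ := h1
  intro J
  have hq : (1 : ℝ) ≤ 4 * C1 + 1 := by linarith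
  set E := (C0 + 1) * (4 * C1 + 1) ^ J with hE
  have hE1 : 1 ≤ E := one_le_mul_of_one_le_of_one_le (by linarith) (one_le_pow₀ hq)
  refine ⟨4 * E ^ 2, by positivity, ?_⟩
  intro n G D δ η lam hD hδ hM hδD hDη hη hη2 hG hl i hi u v huv
  have hDi : 0 < 1 / D := by positivity
  have key : ∀ i : ℕ, ∀ C, C = (C0 + 1) * (4 * C1 + 1) ^ i →
      Vr D (Uop D G lam i (yy D G)) (opK D G (Uop D G lam i (yy D G)))
        (fun t => Uop (D * Real.exp (-2 * δ)) (step t G) lam i
          (yy (D * Real.exp (-2 * δ)) (step t G))) (C * η) (C * (1 / D)) C (C * η ^ 2) := by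
    intro i
    induction i with
    | zero =>
      intro C hC
      rw [pow_zero, mul_one] at hC
      subst hC
      have a := mul_le_mul_of_nonneg_left hDη hC0
      refine vr_mono hD.le (h0 n G D δ η hD hδ hM hδD hDη hη hη2 hG) ?_ ?_ (by linarith) ?_
      · nlinarith [mul_nonneg hC0 hη]
      · rw [div_eq_mul_one_div]; nlinarith
      · rw [div_eq_mul_one_div]; nlinarith [sq_nonneg η]
    | succ i ih =>
      intro C hC
      have ih' := ih _ rfl
      set C' := (C0 + 1) * (4 * C1 + 1) ^ i with hC'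
      have hC'0 : 0 ≤ C' := by positivity
      have e : C = C' * (4 * C1 + 1) := by rw [hC, hC', pow_succ]; ring
      have h2 := h1 n G D δ η hD hδ hM hδD hDη hη hη2 hG (lam i) _ _ _ _ _ _ _ (hl i).1 (hl i).2
        (by positivity) (by positivity) hC'0 (by positivity) ih'
      rw [opS_opK] at h2
      have p : 0 ≤ C' * C1 := by positivity
      refine vr_mono hD.le h2 ?_ ?_ ?_ ?_
      · rw [e]; nlinarith [mul_nonneg p hη, mul_nonneg hC'0 hη]
      · rw [e, div_eq_mul_one_div]
        have a1 : C' * C1 * (1 / D) * η ≤ C' * C1 * (1 / D) * 1 :=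
          mul_le_mul_of_nonneg_left (by linarith) (by positivity)
        nlinarith [mul_nonneg p hDi.le, mul_nonneg hC'0 hDi.le]
      · rw [e]
        have a1 : C' * C1 * η ≤ C' * C1 * 1 := mul_le_mul_of_nonneg_left (by linarith) p
        nlinarith
      · rw [e]
        have a1 : C' * C1 * (1 / D) ≤ C' * C1 * η ^ 2 := mul_le_mul_of_nonneg_left hDη p
        have a2 : C' * C1 * (1 / D) * η ≤ C' * C1 * (1 / D) * 1 :=
          mul_le_mul_of_nonneg_left (by linarith) (by positivity)
        nlinarith [mul_nonneg hC'0 (sq_nonneg η)]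
  have hCi : (C0 + 1) * (4 * C1 + 1) ^ i ≤ E :=
    mul_le_mul_of_nonneg_left (pow_le_pow_right₀ hq hi) (by linarith)
  have hV := vr_mono hD.le (key i _ rfl) (mul_le_mul_of_nonneg_right hCi hη)
    (mul_le_mul_of_nonneg_right hCi hDi.le) hCi (mul_le_mul_of_nonneg_right hCi (sq_nonneg η))
  set V := Uop D G lam i (yy D G) with hVdef
  set V' : Finset (Fin n) → Fn n := fun t => Uop (D * Real.exp (-2 * δ)) (step t G) lam i
    (yy (D * Real.exp (-2 * δ)) (step t G)) with hV'
  have eZ : ∀ t, Zinc D δ G lam i u v t = (V' t u v - V u v) + lam i * δ * V u v := fun t => by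
    unfold Zinc; simp only [hV', hVdef]; ring
  have hMp : (0 : ℝ) < (T n).card := by
    by_contra hn
    have : ((T n).card : ℝ) = 0 := le_antisymm (not_lt.1 hn) (Nat.cast_nonneg _)
    rw [this, mul_zero] at hM
    exact hD.ne hM
  have hb : |lam i * δ * V u v| ≤ E * δ := by
    rw [abs_mul, abs_of_nonneg (mul_nonneg (hl i).1 hδ)]
    have a1 : |V u v| ≤ E * η := hV.bd u v huv
    have a2 : lam i * δ ≤ 2 * δ := mul_le_mul_of_nonneg_right (hl i).2 hδ
    have a3 : lam i * δ * |V u v| ≤ 2 * δ * (E * η) :=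
      mul_le_mul a2 a1 (abs_nonneg _) (by positivity)
    have a4 : E * δ * η ≤ E * δ * (1 / 2) := mul_le_mul_of_nonneg_left hη2 (by positivity)
    linarith
  have hj : ∀ t ∈ T n, |Zinc D δ G lam i u v t| ≤ 2 * E * (1 / D) := fun t ht => by
    rw [eZ]
    have a1 := hV.jump t ht u v huv
    have a2 : E * δ ≤ E * (1 / D) := mul_le_mul_of_nonneg_left hδD (by linarith)
    have a3 := abs_add_le (V' t u v - V u v) (lam i * δ * V u v)
    linarith
  have hE2 : E ≤ E ^ 2 := by nlinarith
  refine ⟨fun t ht => (hj t ht).trans ?_, ?_, ?_⟩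
  · rw [div_eq_mul_one_div (4 * E ^ 2)]
    exact mul_le_mul_of_nonneg_right (by linarith) hDi.le
  · have e : (∑ t ∈ T n, Zinc D δ G lam i u v t) / (T n).card +
        δ * Uop D G lam (i + 1) (yy D G) u v =
        (∑ t ∈ T n, (V' t u v - V u v) + D * opK D G V u v) / (T n).card := by
      simp only [eZ]
      rw [sum_add_distrib, sum_const, nsmul_eq_mul]
      show _ + δ * (opK D G V u v - lam i * V u v) = _
      rw [← hM]
      field_simp
      ring
    rw [e, abs_div, abs_of_pos hMp, div_le_iff₀ hMp]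
    refine (hV.drift u v huv).trans ?_
    rw [mul_assoc (4 * E ^ 2 * η ^ 2), hM]
    exact mul_le_mul_of_nonneg_right (mul_le_mul_of_nonneg_right (by linarith) (sq_nonneg η)) hD.le
  · rw [div_le_iff₀ hMp]
    have a1 : ∑ t ∈ T n, Zinc D δ G lam i u v t ^ 2 ≤
        ∑ t ∈ T n, 2 * E * (1 / D) * (|V' t u v - V u v| + E * δ) := by
      refine sum_le_sum fun t ht => ?_
      rw [← sq_abs, pow_two]
      refine mul_le_mul (hj t ht) ?_ (abs_nonneg _) (by positivity)
      rw [eZ]
      have a3 := abs_add_le (V' t u v - V u v) (lam i * δ * V u v)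
      linarith
    refine a1.trans ?_
    rw [← mul_sum, sum_add_distrib, sum_const, nsmul_eq_mul]
    have a2 := hV.tot u v huv
    have a3 : ((T n).card : ℝ) * (E * δ) = E * D := by rw [← hM]; ring
    rw [a3, mul_assoc (4 * E ^ 2 / D), hM]
    calc 2 * E * (1 / D) * (∑ t ∈ T n, |V' t u v - V u v| + E * D)
        ≤ 2 * E * (1 / D) * (E * D + E * D) :=
          mul_le_mul_of_nonneg_left (by linarith) (by positivity)
      _ = 4 * E ^ 2 / D * D := by ring

end Crest.Agent.R30
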