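import Crest.Agent.R30.Basic

/-! Task 30-DR0: drift of the codegrees. -/

set_option autoImplicit false

namespace Crest.Agent.R30

open Crest.CombinatoricsR.TriangleRemoval Finset

namespace DrAux

variable {n : ℕ}

/-- Indicator that `t` destroys the common neighbour `w` of `u`, `v`. -/
noncomputable def kk (G : Gr n) (u v : Fin n) (t : Finset (Fin n)) (w : Fin n) : ℝ :=
  A G u w * A G v w - A (step t G) u w * A (step t G) v w

theorem kk_eq (G : Gr n) (u v : Fin n) (t : Finset (Fin n)) (w : Fin n) :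
    kk G u v t w = A G u w * A G v w *
      (if t ∈ triangles G ∧ w ∈ t ∧ (u ∈ t ∨ v ∈ t) then 1 else 0) := by
  unfold kk A
  simp only [mem_step]
  by_cases h1 : s(u, w) ∈ G <;> by_cases h2 : s(v, w) ∈ G <;> by_cases h3 : t ∈ triangles G <;>
    by_cases h4 : w ∈ t <;> by_cases h5 : u ∈ t <;> by_cases h6 : v ∈ t <;> simp [*]

theorem AA_nonneg (G : Gr n) (u v w : Fin n) : 0 ≤ A G u w * A G v w :=
  mul_nonneg (A_nonneg _ _ _) (A_nonneg _ _ _)

theorem AA_le_one (G : Gr n) (u v w : Fin n) : A G u w * A G v w ≤ 1 :=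
  mul_le_one₀ (A_le_one _ _ _) (A_nonneg _ _ _) (A_le_one _ _ _)

theorem kk_nonneg (G : Gr n) (u v : Fin n) (t : Finset (Fin n)) (w : Fin n) :
    0 ≤ kk G u v t w := by
  rw [kk_eq]
  exact mul_nonneg (AA_nonneg _ _ _ _) (by split_ifs <;> norm_num)

theorem kk_le (G : Gr n) (u v : Fin n) (t : Finset (Fin n)) (w : Fin n) :
    kk G u v t w ≤ A G u w * A G v w := by
  unfold kk
  linarith [AA_nonneg (step t G) u v w]

theorem sum_kk_le (G : Gr n) (u v : Fin n) {t : Finset (Fin n)} (ht : t ∈ T n) :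
    ∑ w, kk G u v t w ≤ 3 := by
  calc ∑ w, kk G u v t w ≤ ∑ w, if w ∈ t then (1 : ℝ) else 0 := by
        refine Finset.sum_le_sum fun w _ => ?_
        rw [kk_eq]
        by_cases h : w ∈ t
        · rw [if_pos h]
          exact mul_le_one₀ (AA_le_one _ _ _ _) (by split_ifs <;> norm_num)
            (by split_ifs <;> norm_num)
        · simp [h]
    _ = 3 := by
        rw [Finset.sum_boole]
        simp [mem_T.mp ht]

theorem sum_tri_ind {G : Gr n} (P : Finset (Fin n) → Prop) [DecidablePred P] :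
    ∑ t ∈ T n, (if t ∈ triangles G ∧ P t then (1 : ℝ) else 0) =
      ((triangles G).filter P).card := by
  rw [Finset.sum_boole]
  congr 2
  ext t
  simp only [Finset.mem_filter]
  exact ⟨fun h => h.2, fun h => ⟨triangles_subset_T G h.1, h⟩⟩

theorem sum_t_kk {G : Gr n} (hG : G ⊆ allEdges n) {u v : Fin n} (huv : u ≠ v) (w : Fin n) :
    ∑ t ∈ T n, kk G u v t w = A G u w * A G v w * (Y G u w + Y G v w - A G u v) := by
  simp only [kk_eq]
  rw [← Finset.mul_sum]
  by_cases h1 : s(u, w) ∈ G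
  swap
  · simp [A_of_not_mem h1]
  by_cases h2 : s(v, w) ∈ G
  swap
  · simp [A_of_not_mem h2]
  congr 1
  have h3 : ∀ t, (if t ∈ triangles G ∧ w ∈ t ∧ (u ∈ t ∨ v ∈ t) then (1 : ℝ) else 0) =
      (if t ∈ triangles G ∧ (u ∈ t ∧ w ∈ t) then 1 else 0) +
      (if t ∈ triangles G ∧ (v ∈ t ∧ w ∈ t) then 1 else 0) -
      (if t ∈ triangles G ∧ t = {u, v, w} then 1 else 0) := by
    intro t
    by_cases h3 : t ∈ triangles G
    swap
    · simp [h3]
    have h4 : t = {u, v, w} ↔ u ∈ t ∧ v ∈ t ∧ w ∈ t := by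
      refine ⟨fun h => by simp [h], fun h => ?_⟩
      refine (Finset.eq_of_subset_of_card_le ?_ ?_).symm
      · intro x hx
        simp only [Finset.mem_insert, Finset.mem_singleton] at hx
        rcases hx with rfl | rfl | rfl
        exacts [h.1, h.2.1, h.2.2]
      · rw [(mem_triangles.mp h3).1, Finset.card_eq_three.mpr
          ⟨u, v, w, huv, ne_of_mem hG h1, ne_of_mem hG h2, rfl⟩]
    simp only [h4]
    by_cases h4 : w ∈ t <;> by_cases h5 : u ∈ t <;> by_cases h6 : v ∈ t <;> simp [*]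
  simp only [h3]
  rw [Finset.sum_sub_distrib, Finset.sum_add_distrib, sum_tri_ind, sum_tri_ind, sum_tri_ind,
    tri_count hG h1, tri_count hG h2, Finset.filter_eq']
  congr 1
  by_cases h4 : s(u, v) ∈ G
  · rw [if_pos (triple_mem_triangles hG h4 h1 h2), A_of_mem h4]
    simp
  · rw [if_neg fun h => h4 ((mem_triangles.mp h).2 u (by simp) v (by simp) huv), A_of_not_mem h4]
    simp

/-- The numerical facts used in both drift computations (`e = exp (2 δ)`). -/
theorem nums {M D δ η : ℝ} (hD : 0 < D) (hδ : 0 ≤ δ) (hM : δ * M = D) (hδD : δ ≤ 1 / D)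
    (hDη : 1 / D ≤ η ^ 2) (hη : 0 ≤ η) (hη2 : η ≤ 1 / 2) :
    1 ≤ Real.exp (2 * δ) ∧ Real.exp (2 * δ) ≤ 2 ∧ (Real.exp (2 * δ) - 1) * D ≤ 3 ∧
      M * (Real.exp (2 * δ) - 1) ≤ 3 * D ∧
      |M * (Real.exp (2 * δ) - 1) - 2 * D * Real.exp (2 * δ)| ≤ 10 := by
  have h1 : δ * D ≤ 1 := by rwa [le_div_iff₀ hD] at hδD
  have h2 : δ ≤ 1 / 4 := by nlinarith
  have h3 := Real.add_one_le_exp (2 * δ)
  have h4 : Real.exp (2 * δ) ≤ 1 + 2 * δ + (2 * δ) ^ 2 := by
    have := Real.abs_exp_sub_one_sub_id_le (x := 2 * δ) (by rw [abs_of_nonneg] <;> linarith)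
    linarith [(abs_le.mp this).2]
  have hM0 : 0 ≤ M := by
    by_contra h
    push Not at h
    nlinarith
  set e := Real.exp (2 * δ)
  have h5 : e - 1 ≤ 3 * δ := by nlinarith
  have h6 : M * (e - 1 - 2 * δ) ≤ 4 * (δ * D) := by
    calc M * (e - 1 - 2 * δ) ≤ M * (2 * δ) ^ 2 := mul_le_mul_of_nonneg_left (by linarith) hM0
      _ = 4 * (δ * D) := by rw [← hM]; ring
  have h7 : 0 ≤ M * (e - 1 - 2 * δ) := mul_nonneg hM0 (by linarith)
  have h8 : (e - 1) * D ≤ 3 := by nlinarith
  have h9 : 0 ≤ (e - 1) * D := mul_nonneg (by linarith) hD.le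
  refine ⟨by linarith, by linarith, h8, by nlinarith, ?_⟩
  have h10 : M * (e - 1) - 2 * D * e = M * (e - 1 - 2 * δ) - 2 * ((e - 1) * D) := by
    rw [← hM]; ring
  rw [h10, abs_le]
  constructor <;> linarith

theorem div_exp (x D δ : ℝ) : x / (D * Real.exp (-2 * δ)) = Real.exp (2 * δ) * x / D := by
  rw [neg_mul, Real.exp_neg]
  field_simp

theorem Y_le_two {G : Gr n} {D η : ℝ} (hD : 0 < D) (hη2 : η ≤ 1 / 2) (h : Reg G D η)
    {u v : Fin n} (huv : u ≠ v) : Y G u v ≤ 2 * D :=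
  (Y_le hD h huv).trans (by nlinarith)

theorem sum_sum_kk {G : Gr n} {D η : ℝ} (hD : 0 < D) (hη2 : η ≤ 1 / 2) (h : Reg G D η)
    {u v : Fin n} (huv : u ≠ v) : ∑ t ∈ T n, ∑ w, kk G u v t w ≤ 8 * D ^ 2 := by
  rw [Finset.sum_comm]
  simp only [sum_t_kk h.1 huv]
  calc ∑ w, A G u w * A G v w * (Y G u w + Y G v w - A G u v)
      ≤ ∑ w, A G u w * A G v w * (4 * D) := by
        refine Finset.sum_le_sum fun w _ => ?_
        by_cases h1 : s(u, w) ∈ G
        swap
        · simp [A_of_not_mem h1]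
        by_cases h2 : s(v, w) ∈ G
        swap
        · simp [A_of_not_mem h2]
        refine mul_le_mul_of_nonneg_left ?_ (AA_nonneg _ _ _ _)
        linarith [Y_le_two hD hη2 h (ne_of_mem h.1 h1), Y_le_two hD hη2 h (ne_of_mem h.1 h2),
          A_nonneg G u v]
    _ = Y G u v * (4 * D) := by rw [← Finset.sum_mul, Y]
    _ ≤ 8 * D ^ 2 := by nlinarith [Y_le_two hD hη2 h huv]

theorem Y_step (G : Gr n) (u v : Fin n) (t : Finset (Fin n)) :
    Y (step t G) u v = Y G u v - ∑ w, kk G u v t w := by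
  simp only [kk, Finset.sum_sub_distrib, Y]
  ring

end DrAux

open DrAux

theorem dr0_proof : Drift0Stmt := by
  refine ⟨30, by norm_num, fun n G D δ η hD hδ hM hδD hDη hη hη2 h => ?_⟩
  obtain ⟨e1, e2, e3, e4, e5⟩ := nums hD hδ hM hδD hDη hη hη2
  set e := Real.exp (2 * δ) with he
  have hd : ∀ t u v, yy (D * Real.exp (-2 * δ)) (step t G) u v - yy D G u v =
      ((e - 1) * Y G u v - e * ∑ w, kk G u v t w) / D := by
    intro t u v
    rw [yy, yy, div_exp, Y_step, ← he]
    ring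
  have hk0 : ∀ t u v, 0 ≤ ∑ w, kk G u v t w := fun t u v =>
    Finset.sum_nonneg fun w _ => kk_nonneg _ _ _ _ _
  have habs : ∀ t u v, |yy (D * Real.exp (-2 * δ)) (step t G) u v - yy D G u v| ≤
      ((e - 1) * Y G u v + 2 * ∑ w, kk G u v t w) / D := by
    intro t u v
    rw [hd, abs_div, abs_of_pos hD]
    refine div_le_div_of_nonneg_right (abs_le.mpr ⟨?_, ?_⟩) hD.le <;>
      nlinarith [hk0 t u v, mul_nonneg (sub_nonneg.mpr e1) (Y_nonneg G u v)]
  refine ⟨h.2, fun t ht u v huv => (habs t u v).trans ?_, fun u v huv => ?_, fun u v huv => ?_⟩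
  · refine div_le_div_of_nonneg_right ?_ hD.le
    have h1 := mul_le_mul_of_nonneg_left (Y_le_two hD hη2 h huv) (sub_nonneg.mpr e1)
    linarith [sum_kk_le G u v ht]
  · refine (Finset.sum_le_sum fun t _ => habs t u v).trans ?_
    rw [← Finset.sum_div, Finset.sum_add_distrib, Finset.sum_const, ← Finset.mul_sum,
      nsmul_eq_mul, div_le_iff₀ hD]
    have h1 := sum_sum_kk hD hη2 h huv
    have h2 := mul_le_mul e4 (Y_le_two hD hη2 h huv) (Y_nonneg G u v) (by positivity)
    nlinarith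
  · simp only [hd]
    rw [← Finset.sum_div, Finset.sum_sub_distrib, Finset.sum_const, ← Finset.mul_sum,
      nsmul_eq_mul, Finset.sum_comm]
    simp only [sum_t_kk h.1 huv]
    have h1 : ∑ w, A G u w * A G v w * (Y G u w + Y G v w - A G u v) =
        2 * D * Y G u v + D * D * opK D G (yy D G) u v - A G u v * Y G u v := by
      have h2 : ∀ w, A G u w * A G v w * (Y G u w + Y G v w - A G u v) =
          2 * D * (A G u w * A G v w) + D * (A G u w * A G v w * yy D G u w) +
            D * (A G u w * A G v w * yy D G w v) - A G u v * (A G u w * A G v w) := by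
        intro w
        rw [Y_eq_yy hD G u w, Y_eq_yy hD G v w, yy_symm D G v w]
        ring
      simp only [h2]
      simp only [Finset.sum_sub_distrib, Finset.sum_add_distrib, ← Finset.mul_sum, opK, opL,
        opR, Y]
      field_simp
      ring
    rw [h1]
    have h2 : ((T n).card * ((e - 1) * Y G u v) - e * (2 * D * Y G u v +
        D * D * opK D G (yy D G) u v - A G u v * Y G u v)) / D + D * opK D G (yy D G) u v =
        ((T n).card * (e - 1) - 2 * D * e) * (Y G u v / D) -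
          (e - 1) * D * opK D G (yy D G) u v + e * A G u v * (Y G u v / D) := by
      field_simp
      ring
    rw [h2, div_mul_cancel₀ _ hD.ne']
    have h3 : Y G u v / D ≤ 2 := by
      rw [div_le_iff₀ hD]
      exact Y_le_two hD hη2 h huv
    have h4 : 0 ≤ Y G u v / D := div_nonneg (Y_nonneg G u v) hD.le
    have h5 : |opK D G (yy D G) u v| ≤ 2 :=
      (Bd_opK hD h hη h.2 u v huv).trans (by nlinarith)
    have h6 : |((T n).card * (e - 1) - 2 * D * e) * (Y G u v / D)| ≤ 10 * 2 := by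
      rw [abs_mul, abs_of_nonneg h4]
      exact mul_le_mul e5 h3 h4 (by norm_num)
    have h7 : |(e - 1) * D * opK D G (yy D G) u v| ≤ 3 * 2 := by
      rw [abs_mul, abs_of_nonneg (mul_nonneg (sub_nonneg.mpr e1) hD.le)]
      exact mul_le_mul e3 h5 (abs_nonneg _) (by norm_num)
    have h8 : e * A G u v * (Y G u v / D) ≤ 2 * 1 * 2 :=
      mul_le_mul (mul_le_mul e2 (A_le_one _ _ _) (A_nonneg _ _ _) (by norm_num)) h3 h4
        (by norm_num)
    have h9 : 0 ≤ e * A G u v * (Y G u v / D) :=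
      mul_nonneg (mul_nonneg (by linarith) (A_nonneg _ _ _)) h4
    rw [abs_le] at h6 h7 ⊢
    constructor <;> linarith [h6.1, h6.2, h7.1, h7.2]

end Crest.Agent.R30
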