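import Crest.Agent.R30.Dr0

/-! Task 30-DR1: drift of `(K - lam) V`. -/

set_option autoImplicit false

namespace Crest.Agent.R30

open Crest.CombinatoricsR.TriangleRemoval Finset

namespace DrAux

variable {n : ℕ}

theorem AA_cases (G : Gr n) (u v w : Fin n) :
    A G u w * A G v w = 0 ∨ (s(u, w) ∈ G ∧ s(v, w) ∈ G) := by
  by_cases h1 : s(u, w) ∈ G
  · by_cases h2 : s(v, w) ∈ G
    · exact Or.inr ⟨h1, h2⟩
    · simp [A_of_not_mem h2]
  · simp [A_of_not_mem h1]

theorem abs_aux {a k e W Δ b d : ℝ} (hk : 0 ≤ k) (hka : k ≤ a) (e1 : 1 ≤ e) (e2 : e ≤ 2)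
    (hW : |W| ≤ b) (hΔ : |Δ| ≤ d) :
    |((e - 1) * a - e * k) * W + e * (a - k) * Δ| ≤ ((e - 1) * a + 2 * k) * b + 2 * a * d := by
  have h1 : |(e - 1) * a - e * k| ≤ (e - 1) * a + 2 * k := by
    have := mul_nonneg (sub_nonneg.mpr e1) (hk.trans hka)
    rw [abs_le]
    constructor <;> nlinarith
  have h2 : |e * (a - k)| ≤ 2 * a := by
    rw [abs_of_nonneg (mul_nonneg (by linarith) (by linarith))]
    nlinarith
  refine (abs_add_le _ _).trans (add_le_add ?_ ?_) <;> rw [abs_mul]
  · exact mul_le_mul h1 hW (abs_nonneg _) ((abs_nonneg _).trans h1)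
  · exact mul_le_mul h2 hΔ (abs_nonneg _) ((abs_nonneg _).trans h2)

theorem core {G : Gr n} {D δ η : ℝ} (hD : 0 < D) (hδ : 0 ≤ δ) (hM : δ * (T n).card = D)
    (hδD : δ ≤ 1 / D) (hDη : 1 / D ≤ η ^ 2) (hη : 0 ≤ η) (hη2 : η ≤ 1 / 2) (h : Reg G D η)
    {u v : Fin n} (huv : u ≠ v) (W Wp : Fin n → ℝ) (W' : Finset (Fin n) → Fin n → ℝ)
    {b β γ ρ : ℝ} (hb : 0 ≤ b) (hβ : 0 ≤ β) (hγ : 0 ≤ γ) (hρ : 0 ≤ ρ)
    (hW : ∀ w, s(u, w) ∈ G → s(v, w) ∈ G → |W w| ≤ b ∧ (∀ t ∈ T n, |W' t w - W w| ≤ β) ∧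
      ∑ t ∈ T n, |W' t w - W w| ≤ γ * D ∧ |∑ t ∈ T n, (W' t w - W w) + D * Wp w| ≤ ρ * D)
    (X' : Finset (Fin n) → ℝ) (X Xp : ℝ)
    (hX' : ∀ t, X' t = (∑ w, A (step t G) u w * A (step t G) v w * W' t w) /
      (D * Real.exp (-2 * δ)))
    (hX : X = (∑ w, A G u w * A G v w * W w) / D)
    (hXp : Xp = (∑ w, A G u w * A G v w * Wp w) / D) :
    (∀ t ∈ T n, |X' t - X| ≤ 12 * (b / D + β)) ∧ ∑ t ∈ T n, |X' t - X| ≤ 22 * (b + γ) * D ∧
      |∑ t ∈ T n, (X' t - X) + D * Xp| ≤ 24 * (b * (η + 1 / D) + ρ + β) * D := by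
  obtain ⟨e1, e2, e3, e4, e5⟩ := nums hD hδ hM hδD hDη hη hη2
  set e := Real.exp (2 * δ) with he
  set a : Fin n → ℝ := fun w => A G u w * A G v w with ha
  have ha0 : ∀ w, 0 ≤ a w := fun w => AA_nonneg G u v w
  have hk0 := kk_nonneg G u v
  have hka : ∀ t w, kk G u v t w ≤ a w := kk_le G u v
  have hY : ∑ w, a w ≤ 2 * D := Y_le_two hD hη2 h huv
  have hY0 : 0 ≤ ∑ w, a w := Finset.sum_nonneg fun w _ => ha0 w
  have hkk := sum_sum_kk hD hη2 h huv
  have hz : ∀ w, a w = 0 → ∀ t, kk G u v t w = 0 := fun w hw t =>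
    le_antisymm (hw ▸ hka t w) (hk0 t w)
  have hd : ∀ t, X' t - X = (∑ w, (((e - 1) * a w - e * kk G u v t w) * W w +
      e * (a w - kk G u v t w) * (W' t w - W w))) / D := by
    intro t
    rw [hX', hX, div_exp, ← he, ← sub_div, Finset.mul_sum, ← Finset.sum_sub_distrib]
    congr 1
    refine Finset.sum_congr rfl fun w _ => ?_
    simp only [kk, ha]
    ring
  have habs : ∀ t, |X' t - X| ≤ (((e - 1) * ∑ w, a w + 2 * ∑ w, kk G u v t w) * b +
      2 * ∑ w, a w * |W' t w - W w|) / D := by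
    intro t
    rw [hd, abs_div, abs_of_pos hD]
    refine div_le_div_of_nonneg_right ((Finset.abs_sum_le_sum_abs _ _).trans ?_) hD.le
    simp only [Finset.mul_sum, Finset.sum_mul, ← Finset.sum_add_distrib]
    refine Finset.sum_le_sum fun w _ => ?_
    rcases AA_cases G u v w with hw | hw
    · have hw' : a w = 0 := hw
      simp [hw', hz w hw']
    · rw [← mul_assoc 2 (a w)]
      exact abs_aux (hk0 t w) (hka t w) e1 e2 (hW w hw.1 hw.2).1 le_rfl
  have hE : (e - 1) * ∑ w, a w ≤ 6 := by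
    nlinarith [mul_le_mul_of_nonneg_left hY (sub_nonneg.mpr e1)]
  have hE2 : (T n).card * ((e - 1) * ∑ w, a w) ≤ 6 * D ^ 2 := by
    nlinarith [mul_le_mul e4 hY hY0 (by positivity)]
  refine ⟨fun t ht => (habs t).trans ?_, ?_, ?_⟩
  · rw [div_le_iff₀ hD]
    have h1 : ∑ w, a w * |W' t w - W w| ≤ ∑ w, a w * β := by
      refine Finset.sum_le_sum fun w _ => ?_
      rcases AA_cases G u v w with hw | hw
      · have hw' : a w = 0 := hw
        simp [hw']
      · exact mul_le_mul_of_nonneg_left ((hW w hw.1 hw.2).2.1 t ht) (ha0 w)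
    rw [← Finset.sum_mul] at h1
    have h2 := mul_le_mul_of_nonneg_right hY hβ
    have h3 : ((e - 1) * ∑ w, a w + 2 * ∑ w, kk G u v t w) * b ≤ 12 * b :=
      mul_le_mul_of_nonneg_right (by linarith [sum_kk_le G u v ht]) hb
    have h4 : 12 * (b / D + β) * D = 12 * b + 12 * (D * β) := by field_simp
    rw [h4]
    nlinarith [mul_nonneg hD.le hβ]
  · refine (Finset.sum_le_sum fun t _ => habs t).trans ?_
    rw [← Finset.sum_div, div_le_iff₀ hD, Finset.sum_add_distrib, ← Finset.sum_mul,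
      Finset.sum_add_distrib, Finset.sum_const, nsmul_eq_mul, ← Finset.mul_sum, ← Finset.mul_sum,
      Finset.sum_comm (f := fun t w => a w * |W' t w - W w|)]
    have h1 : ∑ w, ∑ t ∈ T n, a w * |W' t w - W w| ≤ ∑ w, a w * (γ * D) := by
      refine Finset.sum_le_sum fun w _ => ?_
      rw [← Finset.mul_sum]
      rcases AA_cases G u v w with hw | hw
      · have hw' : a w = 0 := hw
        simp [hw']
      · exact mul_le_mul_of_nonneg_left (hW w hw.1 hw.2).2.2.1 (ha0 w)
    rw [← Finset.sum_mul] at h1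
    have h2 := mul_le_mul_of_nonneg_right hY (mul_nonneg hγ hD.le)
    have h3 : ((T n).card * ((e - 1) * ∑ w, a w) + 2 * ∑ t ∈ T n, ∑ w, kk G u v t w) * b ≤
        22 * D ^ 2 * b := mul_le_mul_of_nonneg_right (by linarith) hb
    nlinarith [mul_nonneg hγ (mul_pos hD hD).le]
  · have h0 : ∑ t ∈ T n, (X' t - X) + D * Xp = (∑ w,
        (((T n).card * (e - 1) * a w - e * ∑ t ∈ T n, kk G u v t w) * W w +
          a w * (∑ t ∈ T n, (W' t w - W w) + D * Wp w) +
          ∑ t ∈ T n, ((e - 1) * a w - e * kk G u v t w) * (W' t w - W w))) / D := by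
      simp only [hd]
      rw [← Finset.sum_div, hXp, ← mul_div_assoc, ← add_div, Finset.sum_comm, Finset.mul_sum,
        ← Finset.sum_add_distrib]
      congr 1
      refine Finset.sum_congr rfl fun w _ => ?_
      have h1 : ∀ t, ((e - 1) * a w - e * kk G u v t w) * W w +
          e * (a w - kk G u v t w) * (W' t w - W w) =
          ((e - 1) * a w * W w - e * W w * kk G u v t w) + a w * (W' t w - W w) +
          ((e - 1) * a w - e * kk G u v t w) * (W' t w - W w) := fun t => by ring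
      simp only [h1]
      rw [Finset.sum_add_distrib, Finset.sum_add_distrib, Finset.sum_sub_distrib,
        Finset.sum_const, nsmul_eq_mul, ← Finset.mul_sum, ← Finset.mul_sum]
      simp only [ha]
      ring
    rw [h0, abs_div, abs_of_pos hD, div_le_iff₀ hD]
    have h1 : ∀ w, |((T n).card * (e - 1) * a w - e * ∑ t ∈ T n, kk G u v t w) * W w +
          a w * (∑ t ∈ T n, (W' t w - W w) + D * Wp w) +
          ∑ t ∈ T n, ((e - 1) * a w - e * kk G u v t w) * (W' t w - W w)| ≤
        a w * ((12 + 4 * η * D) * b + ρ * D) +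
          ((T n).card * ((e - 1) * a w) + 2 * ∑ t ∈ T n, kk G u v t w) * β := by
      intro w
      rcases AA_cases G u v w with hw | hw
      · have hw' : a w = 0 := hw
        simp [hw', hz w hw']
      obtain ⟨w1, w2, -, w4⟩ := hW w hw.1 hw.2
      have hw' : a w = 1 := by simp only [ha, A_of_mem hw.1, A_of_mem hw.2, mul_one]
      have hN := sum_t_kk h.1 huv w
      rw [A_of_mem hw.1, A_of_mem hw.2, mul_one, one_mul] at hN
      have y1 := Y_le hD h (ne_of_mem h.1 hw.1)
      have y2 := Y_ge hD h (ne_of_mem h.1 hw.1)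
      have y3 := Y_le hD h (ne_of_mem h.1 hw.2)
      have y4 := Y_ge hD h (ne_of_mem h.1 hw.2)
      have y5 := A_nonneg G u v
      have y6 := A_le_one G u v
      have h2 : |2 * D - ∑ t ∈ T n, kk G u v t w| ≤ 2 * η * D + 1 := by
        rw [hN, abs_le]
        constructor <;> linarith
      have h3 : |(T n).card * (e - 1) * a w - e * ∑ t ∈ T n, kk G u v t w| ≤ 12 + 4 * η * D := by
        have h4 : (T n).card * (e - 1) * a w - e * ∑ t ∈ T n, kk G u v t w =
            ((T n).card * (e - 1) - 2 * D * e) + e * (2 * D - ∑ t ∈ T n, kk G u v t w) := by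
          rw [hw']; ring
        rw [h4]
        refine (abs_add_le _ _).trans ?_
        rw [abs_mul, abs_of_nonneg (show 0 ≤ e by linarith)]
        have := mul_le_mul e2 h2 (abs_nonneg _) zero_le_two
        linarith
      have h5 : |∑ t ∈ T n, ((e - 1) * a w - e * kk G u v t w) * (W' t w - W w)| ≤
          ((T n).card * ((e - 1) * a w) + 2 * ∑ t ∈ T n, kk G u v t w) * β := by
        refine (Finset.abs_sum_le_sum_abs _ _).trans ?_
        rw [← nsmul_eq_mul, ← Finset.sum_const, Finset.mul_sum, ← Finset.sum_add_distrib,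
          Finset.sum_mul]
        refine Finset.sum_le_sum fun t ht => ?_
        have := abs_aux (Δ := 0) (d := 0) (hk0 t w) (hka t w) e1 e2 (w2 t ht) (by simp)
        simpa using this
      refine (abs_add_le _ _).trans (add_le_add ((abs_add_le _ _).trans ?_) h5)
      rw [abs_mul, abs_mul, hw', abs_one, one_mul, one_mul]
      rw [hw'] at h3
      exact add_le_add (mul_le_mul h3 w1 (abs_nonneg _) ((abs_nonneg _).trans h3)) w4
    refine ((Finset.abs_sum_le_sum_abs _ _).trans (Finset.sum_le_sum fun w _ => h1 w)).trans ?_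
    rw [Finset.sum_add_distrib, ← Finset.sum_mul, ← Finset.sum_mul, Finset.sum_add_distrib,
      ← Finset.mul_sum, ← Finset.mul_sum, ← Finset.mul_sum, Finset.sum_comm]
    have h2 := mul_le_mul_of_nonneg_right hY
      (show 0 ≤ (12 + 4 * η * D) * b + ρ * D by positivity)
    have h3 : ((T n).card * ((e - 1) * ∑ w, a w) + 2 * ∑ t ∈ T n, ∑ w, kk G u v t w) * β ≤
        22 * D ^ 2 * β := mul_le_mul_of_nonneg_right (by linarith) hβ
    have h4 : 24 * (b * (η + 1 / D) + ρ + β) * D * D =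
        24 * (b * η * D ^ 2) + 24 * (b * D) + 24 * (ρ * D ^ 2) + 24 * (β * D ^ 2) := by
      field_simp
    rw [h4]
    have p1 : 0 ≤ b * η * D ^ 2 := by positivity
    have p2 : 0 ≤ ρ * D ^ 2 := by positivity
    have p3 : 0 ≤ β * D ^ 2 := by positivity
    nlinarith

end DrAux

open DrAux

theorem dr1_proof : Drift1Stmt := by
  refine ⟨50, by norm_num, fun n G D δ η hD hδ hM hδD hDη hη hη2 h lam V Vp V' b β γ ρ hl0 hl2
    hb hβ hγ hρ hV => ?_⟩
  have hL : ∀ u v, u ≠ v → _ := fun u v (huv : u ≠ v) =>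
    core hD hδ hM hδD hDη hη hη2 h huv (fun w => V u w) (fun w => Vp u w)
      (fun t w => V' t u w) hb hβ hγ hρ
      (fun w h1 _ => have hne := ne_of_mem h.1 h1
        ⟨hV.bd _ _ hne, fun t ht => hV.jump t ht _ _ hne, hV.tot _ _ hne, hV.drift _ _ hne⟩)
      (fun t => opL (D * Real.exp (-2 * δ)) (step t G) (V' t) u v) (opL D G V u v)
      (opL D G Vp u v) (fun _ => rfl) rfl rfl
  have hR : ∀ u v, u ≠ v → _ := fun u v (huv : u ≠ v) =>
    core hD hδ hM hδD hDη hη hη2 h huv (fun w => V w v) (fun w => Vp w v)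
      (fun t w => V' t w v) hb hβ hγ hρ
      (fun w _ h2 => have hne := (ne_of_mem h.1 h2).symm
        ⟨hV.bd _ _ hne, fun t ht => hV.jump t ht _ _ hne, hV.tot _ _ hne, hV.drift _ _ hne⟩)
      (fun t => opR (D * Real.exp (-2 * δ)) (step t G) (V' t) u v) (opR D G V u v)
      (opR D G Vp u v) (fun _ => rfl) rfl rfl
  have hd : ∀ t u v, opS (D * Real.exp (-2 * δ)) (step t G) lam (V' t) u v - opS D G lam V u v =
      (opL (D * Real.exp (-2 * δ)) (step t G) (V' t) u v - opL D G V u v) +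
      (opR (D * Real.exp (-2 * δ)) (step t G) (V' t) u v - opR D G V u v) -
      lam * (V' t u v - V u v) := by
    intro t u v
    simp only [opS, opK]
    ring
  have tri : ∀ x y z : ℝ, |x + y - lam * z| ≤ |x| + |y| + 2 * |z| := by
    intro x y z
    refine (abs_sub _ _).trans (add_le_add (abs_add_le _ _) ?_)
    rw [abs_mul, abs_of_nonneg hl0]
    exact mul_le_mul_of_nonneg_right hl2 (abs_nonneg _)
  refine ⟨(Bd_opS hD (h.mono (by linarith)) hb hl0 hl2 hV.bd).mono (by linarith),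
    fun t ht u v huv => ?_, fun u v huv => ?_, fun u v huv => ?_⟩
  · rw [hd]
    have h1 := (hL u v huv).1 t ht
    have h2 := (hR u v huv).1 t ht
    have h3 := hV.jump t ht u v huv
    have h4 : 0 ≤ b / D := by positivity
    refine (tri _ _ _).trans ?_
    linarith
  · simp only [hd]
    refine (Finset.sum_le_sum fun t _ => tri _ _ _).trans ?_
    rw [Finset.sum_add_distrib, Finset.sum_add_distrib, ← Finset.mul_sum]
    have h1 := (hL u v huv).2.1
    have h2 := (hR u v huv).2.1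
    have h3 := hV.tot u v huv
    nlinarith [mul_nonneg hb hD.le, mul_nonneg hγ hD.le]
  · have h1 := (hL u v huv).2.2
    have h2 := (hR u v huv).2.2
    have h3 := hV.drift u v huv
    have h4 : ∑ t ∈ T n, (opS (D * Real.exp (-2 * δ)) (step t G) lam (V' t) u v -
        opS D G lam V u v) + D * opS D G lam Vp u v =
        (∑ t ∈ T n, (opL (D * Real.exp (-2 * δ)) (step t G) (V' t) u v - opL D G V u v) +
          D * opL D G Vp u v) +
        (∑ t ∈ T n, (opR (D * Real.exp (-2 * δ)) (step t G) (V' t) u v - opR D G V u v) +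
          D * opR D G Vp u v) -
        lam * (∑ t ∈ T n, (V' t u v - V u v) + D * Vp u v) := by
      simp only [hd]
      rw [Finset.sum_sub_distrib, Finset.sum_add_distrib, ← Finset.mul_sum]
      simp only [opS, opK]
      ring
    rw [h4]
    refine (tri _ _ _).trans ?_
    have p1 : 0 ≤ b * (η + 1 / D) * D := by positivity
    nlinarith [mul_nonneg hβ hD.le, mul_nonneg hρ hD.le]

end Crest.Agent.R30
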