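import Crest.Agent.R30.Pair

/-! # Row 30: the main term and the numerical error terms -/

set_option autoImplicit false

namespace Crest.Agent.R30

open Crest.CombinatoricsR.TriangleRemoval Finset

/-- The constant `1 / (2 √2)`. -/
noncomputable def cc : ℝ := 1 / (2 * Real.sqrt 2)

theorem cc_pos : 0 < cc := by unfold cc; positivity

theorem two_cc_le : 2 * cc ≤ 1 := by
  unfold cc
  have h : (1 : ℝ) ≤ Real.sqrt 2 := Real.one_le_sqrt.2 (by norm_num)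
  rw [← mul_div_assoc, div_le_one (by positivity)]
  linarith

noncomputable def gg (ω : ℝ) : ℝ :=
  (cc * ((1 + ω) * Real.exp ω / (1 - ω)) - cc) ^ 2 +
    (cc * ((1 - ω) ^ 2 * Real.exp (-ω) / (1 + ω) ^ 2) - cc) ^ 2

theorem gg_nonneg (ω : ℝ) : 0 ≤ gg ω := by unfold gg; positivity

theorem gg_tendsto : Filter.Tendsto gg (nhds 0) (nhds 0) := by
  have h : ContinuousAt gg 0 := by
    unfold gg
    refine ContinuousAt.add (ContinuousAt.pow (ContinuousAt.sub (ContinuousAt.mul continuousAt_const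
      (ContinuousAt.div (by fun_prop) (by fun_prop) (by norm_num))) continuousAt_const) 2)
      (ContinuousAt.pow (ContinuousAt.sub (ContinuousAt.mul continuousAt_const
      (ContinuousAt.div (by fun_prop) (by fun_prop) (by norm_num))) continuousAt_const) 2)
  have h0 : gg 0 = 0 := by simp [gg]
  simpa [h0] using h.tendsto

theorem sq_sub_le_of_mem {r lo up c : ℝ} (h1 : lo ≤ r) (h2 : r ≤ up) :
    (r - c) ^ 2 ≤ (up - c) ^ 2 + (lo - c) ^ 2 := by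
  rcases le_total c r with h | h
  · nlinarith [sq_nonneg (lo - c)]
  · nlinarith [sq_nonneg (up - c)]

theorem main_term {n : ℕ} {G : Gr n} {p D η ζ ω s : ℝ} (q : Fn n) (hn : 1 ≤ n) (hp : 0 < p)
    (hD : D = n * p ^ 2) (hω0 : 0 ≤ ω) (hω : ω ≤ 1 / 2) (hR : Reg G D η) (hη : η ≤ ω)
    (hdeg : ∀ u, ∑ w, A G u w ≤ (1 + ω) * n * p) (hnω : 1 / (n : ℝ) ≤ ω) (hζ : ζ ≤ ω)
    (hq : ∀ u v, u ≠ v → Real.exp (-s - ζ) ≤ q u v ∧ q u v ≤ Real.exp (-s + ζ))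
    (hs1 : 2 * D * (1 - ω) ≤ Real.exp (2 * s)) (hs2 : Real.exp (2 * s) ≤ 2 * D * (1 + ω)) :
    ((∑ u, ∑ v, A G u v * q u v) / (2 * (n : ℝ) ^ ((3 : ℝ) / 2)) - cc) ^ 2 ≤ gg ω := by
  have hn' : (1 : ℝ) ≤ n := by exact_mod_cast hn
  have hn0 : (0 : ℝ) < n := by linarith
  have hD0 : 0 < D := by rw [hD]; positivity
  set r : ℝ := Real.sqrt n with hr
  have hr0 : 0 < r := Real.sqrt_pos.2 hn0
  have hrr : r ^ 2 = n := Real.sq_sqrt hn0.le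
  have hW : (n : ℝ) ^ ((3 : ℝ) / 2) = n * r := by
    rw [hr, Real.sqrt_eq_rpow, show (3 : ℝ) / 2 = 1 + 1 / 2 by norm_num, Real.rpow_add hn0,
      Real.rpow_one]
  set t : ℝ := Real.sqrt 2 with ht
  have ht0 : 0 < t := by positivity
  have htt : t ^ 2 = 2 := Real.sq_sqrt (by norm_num)
  set E : ℝ := Real.exp (-s) with hE
  have hE0 : 0 < E := Real.exp_pos _
  have hEE : E ^ 2 * Real.exp (2 * s) = 1 := by
    rw [hE, ← Real.exp_nat_mul, ← Real.exp_add]; simp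
  set z : ℝ := t * r * p * E with hz
  have hz0 : 0 < z := by positivity
  have hzz : z ^ 2 = 2 * D * E ^ 2 := by rw [hz, hD, ← hrr, ← htt]; ring
  have hE2 : 0 < E ^ 2 := by positivity
  have hz1 : z ^ 2 * (1 - ω) ≤ 1 := by rw [hzz]; nlinarith
  have hz2 : 1 ≤ z ^ 2 * (1 + ω) := by rw [hzz]; nlinarith
  have hzu : z ≤ 1 / (1 - ω) := by
    rw [le_div_iff₀ (by linarith)]
    by_contra h
    push Not at h
    have : 1 < z := by nlinarith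
    nlinarith
  have hzl : 1 / (1 + ω) ≤ z := by
    rw [div_le_iff₀ (by linarith)]
    by_contra h
    push Not at h
    have : z < 1 := by nlinarith
    nlinarith
  have hcz : (n : ℝ) ^ 2 * p * E / (2 * (n * r)) = cc * z := by
    unfold cc
    rw [← ht, hz, ← hrr]
    field_simp
  set S0 : ℝ := ∑ u, ∑ v, A G u v with hS0
  have hS0u : S0 ≤ (1 + ω) * ((n : ℝ) ^ 2 * p) := by
    calc S0 ≤ ∑ _u : Fin n, (1 + ω) * n * p := Finset.sum_le_sum fun u _ => hdeg u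
      _ = _ := by simp; ring
  have hS0l : (1 - ω) ^ 2 / (1 + ω) * ((n : ℝ) ^ 2 * p) ≤ S0 := by
    have h1 := sum_A_ge hD0 hR hdeg
    have h2 : (n : ℝ) * (1 - ω) ≤ n - 1 := by
      rw [div_le_iff₀ hn0] at hnω; nlinarith
    have h3 : (n : ℝ) * (n * (1 - ω)) * ((1 - ω) * D) ≤ n * (n - 1) * ((1 - η) * D) := by
      have : 0 ≤ 1 - ω := by linarith
      gcongr
    have h4 : (n : ℝ) * p * ((1 - ω) ^ 2 * ((n : ℝ) ^ 2 * p)) ≤ n * p * ((1 + ω) * S0) := by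
      rw [hD] at h3 h1; nlinarith
    have h5 := le_of_mul_le_mul_left h4 (by positivity)
    rw [div_mul_eq_mul_div, div_le_iff₀ (by linarith)]
    linarith
  have hup : ∑ u, ∑ v, A G u v * q u v ≤ S0 * (E * Real.exp ω) := by
    rw [hS0, Finset.sum_mul]
    refine Finset.sum_le_sum fun u _ => ?_
    rw [Finset.sum_mul]
    refine Finset.sum_le_sum fun v _ => ?_
    by_cases h : s(u, v) ∈ G
    · refine mul_le_mul_of_nonneg_left (((hq u v (ne_of_mem hR.1 h)).2).trans ?_) (A_nonneg _ _ _)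
      rw [hE, ← Real.exp_add]; exact Real.exp_le_exp.2 (by linarith)
    · rw [A_of_not_mem h]; simp
  have hlo : S0 * (E * Real.exp (-ω)) ≤ ∑ u, ∑ v, A G u v * q u v := by
    rw [hS0, Finset.sum_mul]
    refine Finset.sum_le_sum fun u _ => ?_
    rw [Finset.sum_mul]
    refine Finset.sum_le_sum fun v _ => ?_
    by_cases h : s(u, v) ∈ G
    · refine mul_le_mul_of_nonneg_left (le_trans ?_ (hq u v (ne_of_mem hR.1 h)).1) (A_nonneg _ _ _)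
      rw [hE, ← Real.exp_add]; exact Real.exp_le_exp.2 (by linarith)
    · rw [A_of_not_mem h]; simp
  rw [hW]
  have hden : 0 < 2 * ((n : ℝ) * r) := by positivity
  have hc := cc_pos
  have h1ω : 0 < 1 - ω := by linarith
  refine sq_sub_le_of_mem ?_ ?_
  · calc cc * ((1 - ω) ^ 2 * Real.exp (-ω) / (1 + ω) ^ 2)
        = (1 - ω) ^ 2 / (1 + ω) * Real.exp (-ω) * (cc * (1 / (1 + ω))) := by
          field_simp
      _ ≤ (1 - ω) ^ 2 / (1 + ω) * Real.exp (-ω) * (cc * z) := by gcongr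
      _ = (1 - ω) ^ 2 / (1 + ω) * ((n : ℝ) ^ 2 * p) * (E * Real.exp (-ω)) / (2 * (n * r)) := by
          rw [← hcz]; ring
      _ ≤ S0 * (E * Real.exp (-ω)) / (2 * (n * r)) := by gcongr
      _ ≤ _ := by gcongr
  · calc (∑ u, ∑ v, A G u v * q u v) / (2 * (n * r)) ≤ S0 * (E * Real.exp ω) / (2 * (n * r)) := by
          gcongr
      _ ≤ (1 + ω) * ((n : ℝ) ^ 2 * p) * (E * Real.exp ω) / (2 * (n * r)) := by gcongr
      _ = (1 + ω) * Real.exp ω * (cc * z) := by rw [← hcz]; ring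
      _ ≤ (1 + ω) * Real.exp ω * (cc * (1 / (1 - ω))) := by gcongr
      _ = _ := by field_simp

/-- The constant in the collision bound. -/
noncomputable def K1 : ℝ := 50000 * 3 ^ 48 * 2 ^ 53

theorem K1_pos : 0 < K1 := by unfold K1; positivity

theorem M0_le {x D s : ℝ} (hD1 : 1 ≤ D) (hD : D ≤ 2 * x ^ 8)
    (hs : Real.exp (2 * s) ≤ 3 * D) :
    50000 * D ^ 5 * Real.exp (24 * D * (4 * s / D)) ≤ K1 * x ^ 424 := by
  have hD0 : 0 < D := by linarith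
  have h1 : Real.exp (24 * D * (4 * s / D)) = Real.exp (2 * s) ^ 48 := by
    rw [← Real.exp_nat_mul]; congr 1; field_simp; push_cast; ring
  rw [h1]
  calc 50000 * D ^ 5 * Real.exp (2 * s) ^ 48 ≤ 50000 * D ^ 5 * (3 * D) ^ 48 := by gcongr
    _ = 50000 * 3 ^ 48 * D ^ 53 := by ring
    _ ≤ 50000 * 3 ^ 48 * (2 * x ^ 8) ^ 53 := by gcongr
    _ = _ := by unfold K1; ring

theorem p_le {x D p : ℝ} (hx : 1 ≤ x) (hp : 0 < p) (hD : D = x ^ 1000 * p ^ 2)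
    (hD2 : D ≤ 2 * x ^ 8) : p ≤ 2 / x ^ 496 := by
  have hx0 : 0 < x := by linarith
  rw [le_div_iff₀ (by positivity)]
  have h1 : (p * x ^ 496) ^ 2 * x ^ 8 ≤ 2 ^ 2 * x ^ 8 := by
    calc (p * x ^ 496) ^ 2 * x ^ 8 = x ^ 1000 * p ^ 2 := by ring
      _ ≤ 2 * x ^ 8 := hD ▸ hD2
      _ ≤ _ := by gcongr; norm_num
  have h2 := le_of_mul_le_mul_right h1 (by positivity)
  exact le_of_sq_le_sq h2 (by norm_num)

theorem err2 {x p T M : ℝ} (hx : 1 ≤ x) (hp0 : 0 ≤ p) (hp : p ≤ 2 / x ^ 496) (_hT0 : 0 ≤ T)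
    (hT : T ≤ 1 / x ^ 1425) (hM0 : 0 ≤ M) (hM : M ≤ K1 * x ^ 424) :
    (3 * 2 * (5 / 4 * p) ^ 3 + T) * (x ^ 1000) ^ 4 * M / (4 * (x ^ 1000) ^ 3) ≤ 25 * K1 / x := by
  have hx0 : 0 < x := by linarith
  have hK := K1_pos
  calc (3 * 2 * (5 / 4 * p) ^ 3 + T) * (x ^ 1000) ^ 4 * M / (4 * (x ^ 1000) ^ 3)
      ≤ (3 * 2 * (5 / 4 * (2 / x ^ 496)) ^ 3 + 1 / x ^ 1425) * (x ^ 1000) ^ 4 * (K1 * x ^ 424) /
          (4 * (x ^ 1000) ^ 3) := by gcongr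
    _ = 375 / 16 * K1 / x ^ 64 + 1 / 4 * K1 / x := by field_simp; ring
    _ ≤ 24 * K1 / x + 1 * K1 / x := by
        have : x ≤ x ^ 64 := le_self_pow₀ hx (by norm_num)
        gcongr <;> norm_num
    _ = _ := by ring

theorem err4 {x p T M : ℝ} (hx : 1 ≤ x) (hp0 : 0 ≤ p) (hp : p ≤ 2 / x ^ 496) (hT0 : 0 ≤ T)
    (hT : T ≤ 1 / x ^ 1425) (hM0 : 0 ≤ M) (hM : M ≤ K1 * x ^ 424) :
    2 * cc * ((3 * 2 * (5 / 4 * p) ^ 2 + T) * (x ^ 1000) ^ 4 * M) / ((x ^ 1000) ^ 2 * x ^ 1500) ≤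
      39 * K1 / x := by
  have hx0 : 0 < x := by linarith
  have hK := K1_pos
  have hc := two_cc_le
  calc 2 * cc * ((3 * 2 * (5 / 4 * p) ^ 2 + T) * (x ^ 1000) ^ 4 * M) / ((x ^ 1000) ^ 2 * x ^ 1500)
      ≤ 1 * ((3 * 2 * (5 / 4 * (2 / x ^ 496)) ^ 2 + 1 / x ^ 1425) * (x ^ 1000) ^ 4 *
          (K1 * x ^ 424)) / ((x ^ 1000) ^ 2 * x ^ 1500) := by gcongr
    _ = 75 / 2 * K1 / x ^ 68 + 1 * K1 / x ^ 501 := by field_simp; ring
    _ ≤ 38 * K1 / x + 1 * K1 / x := by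
        have : x ≤ x ^ 68 := le_self_pow₀ hx (by norm_num)
        have : x ≤ x ^ 501 := le_self_pow₀ hx (by norm_num)
        gcongr; norm_num
    _ = _ := by ring

theorem err1 {n : ℕ} (hn : 720 ≤ n) :
    (1 - 1 / ((n ^ 20 : ℕ) : ℝ)) ^ (n ^ 21) ≤ 1 / (n : ℝ) ^ 5 ∧
    (n : ℝ) * (((n ^ 21 : ℕ) : ℝ) * (n : ℝ) ^ 6 / ((n ^ 20 : ℕ) : ℝ) ^ 2 +
      (n : ℝ) ^ 3 * (1 - 1 / ((n ^ 20 : ℕ) : ℝ)) ^ (n ^ 21)) ≤ 2 / n := by
  have hn' : (720 : ℝ) ≤ n := by exact_mod_cast hn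
  have hn0 : (0 : ℝ) < n := by linarith
  have hn1 : (1 : ℝ) ≤ n := by linarith
  have h1 : (1 - 1 / ((n ^ 20 : ℕ) : ℝ)) ^ (n ^ 21) ≤ 1 / (n : ℝ) ^ 5 := by
    have hQ : (1 : ℝ) ≤ ((n ^ 20 : ℕ) : ℝ) := by push_cast; exact one_le_pow₀ hn1
    have h0 : 0 ≤ 1 - 1 / ((n ^ 20 : ℕ) : ℝ) := by
      rw [sub_nonneg, div_le_one (by linarith)]; exact hQ
    have h2 : 1 - 1 / ((n ^ 20 : ℕ) : ℝ) ≤ Real.exp (-(1 / ((n ^ 20 : ℕ) : ℝ))) := by
      have := Real.add_one_le_exp (-(1 / ((n ^ 20 : ℕ) : ℝ))); linarith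
    calc (1 - 1 / ((n ^ 20 : ℕ) : ℝ)) ^ (n ^ 21)
        ≤ Real.exp (-(1 / ((n ^ 20 : ℕ) : ℝ))) ^ (n ^ 21) := pow_le_pow_left₀ h0 h2 _
      _ = Real.exp (-(n : ℝ)) := by
          rw [← Real.exp_nat_mul]; congr 1; push_cast; field_simp
      _ ≤ 1 / (n : ℝ) ^ 5 := by
          rw [Real.exp_neg, ← one_div]
          refine one_div_le_one_div_of_le (by positivity) ?_
          have h3 := Real.pow_div_factorial_le_exp (n : ℝ) hn0.le 6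
          refine le_trans ?_ h3
          rw [le_div_iff₀ (by positivity)]
          have : ((Nat.factorial 6 : ℕ) : ℝ) = 720 := by norm_num [Nat.factorial]
          rw [this, pow_succ (n : ℝ) 5]
          gcongr
  refine ⟨h1, ?_⟩
  calc (n : ℝ) * (((n ^ 21 : ℕ) : ℝ) * (n : ℝ) ^ 6 / ((n ^ 20 : ℕ) : ℝ) ^ 2 +
      (n : ℝ) ^ 3 * (1 - 1 / ((n ^ 20 : ℕ) : ℝ)) ^ (n ^ 21))
      ≤ (n : ℝ) * (((n ^ 21 : ℕ) : ℝ) * (n : ℝ) ^ 6 / ((n ^ 20 : ℕ) : ℝ) ^ 2 +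
        (n : ℝ) ^ 3 * (1 / (n : ℝ) ^ 5)) := by gcongr
    _ = 1 / (n : ℝ) ^ 12 + 1 / n := by push_cast; field_simp
    _ ≤ 1 / n + 1 / n := by
        have : (n : ℝ) ≤ (n : ℝ) ^ 12 := le_self_pow₀ hn1 (by norm_num)
        gcongr
    _ = _ := by ring

end Crest.Agent.R30
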