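import Crest.Agent.R30.FinA

/-! # Row 30: final assembly -/

set_option autoImplicit false

namespace Crest.Agent.R30

open Crest.CombinatoricsR.TriangleRemoval Finset

/-- The test function. -/
noncomputable def ph (n : ℕ) (e : ℕ) : ℝ := ((e : ℝ) / (n : ℝ) ^ ((3 : ℝ) / 2) - cc) ^ 2

theorem ph_bounds {n : ℕ} (hn : 1 ≤ n) : ∀ e ≤ n ^ 2, 0 ≤ ph n e ∧ ph n e ≤ n := by
  intro e he
  refine ⟨sq_nonneg _, ?_⟩
  have hn' : (1 : ℝ) ≤ n := by exact_mod_cast hn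
  have hn0 : (0 : ℝ) < n := by linarith
  set r : ℝ := Real.sqrt n with hr
  have hr1 : 1 ≤ r := Real.one_le_sqrt.2 hn'
  have hrr : r ^ 2 = n := Real.sq_sqrt hn0.le
  have hW : (n : ℝ) ^ ((3 : ℝ) / 2) = n * r := by
    rw [hr, Real.sqrt_eq_rpow, show (3 : ℝ) / 2 = 1 + 1 / 2 by norm_num, Real.rpow_add hn0,
      Real.rpow_one]
  unfold ph
  rw [hW]
  have he' : (e : ℝ) ≤ (n : ℝ) ^ 2 := by exact_mod_cast he
  have h1 : (e : ℝ) / (n * r) ≤ r := by
    rw [div_le_iff₀ (by positivity)]; nlinarith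
  have h2 : 0 ≤ (e : ℝ) / (n * r) := by positivity
  have h3 := cc_pos
  have h4 := two_cc_le
  rw [← hrr]
  exact sq_le_sq' (by rw [hrr]; linarith) (by rw [hrr]; linarith)

theorem colB_nonneg {α τ : Type} [Finite α] (ok : List α → α → Prop) (π : List α → τ) {lam : ℝ}
    (h : 0 ≤ lam) (N : ℕ) : 0 ≤ colB ok π lam N := by
  unfold colB wt
  exact Finset.sum_nonneg fun _ _ => Finset.sum_nonneg fun _ _ => Finset.sum_nonneg fun _ _ => by
    positivity

set_option maxHeartbeats 1600000 in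
theorem fixed_bound (hRound : RoundStmt) (hC : CoupStmt) (hP : ProdStmt) (hCo : ColpStmt)
    (hL : LinkStmt) (hSums : SumsStmt) (hFix : FixStmt) {J : ℕ} {lam : ℕ → ℝ} {C1 C2 : ℝ}
    (hlam : ∀ i, 0 ≤ lam i ∧ lam i ≤ 2) (hC1 : 1 ≤ C1)
    (hRec : ∀ (lam : ℕ → ℝ) (n : ℕ) (G : Gr n) (D η ε ζ S : ℝ) (a : ℕ → ℝ)
      (N : ℕ), (∀ i, 0 ≤ lam i ∧ lam i ≤ 2) → 0 < D → Reg G D η →
      (∀ (δ : Fn n) (b : ℝ), 0 ≤ b → Bd δ b → Bd (Uop D G lam J δ) (ε * b)) →
      (∀ i < N, 0 ≤ a i ∧ D * a i ≤ 1 / 2) → sq D a N ≤ S → 1 ≤ S → 0 < ζ → η ≤ ζ ^ 2 → ε ≤ ζ →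
      S ^ 2 / D ≤ ζ ^ 2 → C2 * S ^ (J + 1) * ζ ≤ 1 → ∀ k ≤ N,
        (∀ x y o, x ≠ y → Real.exp (-sq D a k - ζ) ≤ qq G a k x y o ∧
          qq G a k x y o ≤ Real.exp (-sq D a k + ζ)) ∧
        ∀ x y w, x ≠ w → w ≠ y → uu G a k x y w ≤ 1 / 2)
    {n : ℕ} {x : ℝ} (hnx : (n : ℝ) = x ^ 1000) (h1 : 4 * C1 ≤ x) (h2 : 1 ≤ 10 * Real.log x)
    (h3 : (10 * Real.log x) ^ 2 ≤ x ^ 6) (h4 : C2 * (10 * Real.log x) ^ (J + 1) * C1 ≤ x)
    (h5 : x ^ 1425 ≤ 2 ^ ⌊x⌋₊) (hS : S1Out J lam C1 n x) :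
    hh (ph n) (allEdges n) ≤ gg (C1 / x) + (64 * K1 + 11) / x := by
  classical
  obtain ⟨p, D, ν, hp, hD, hD1, hD2, hν0, hν1, hgood, hsurv, hhh⟩ := hS
  have hx4 : 4 ≤ x := by linarith
  have hx1 : 1 ≤ x := by linarith
  have hx0 : 0 < x := by linarith
  have hxn : x ≤ n := by rw [hnx]; exact le_self_pow₀ hx1 (by norm_num)
  have hn720 : 720 ≤ n := by
    have : (720 : ℝ) ≤ n := by
      rw [hnx]
      calc (720 : ℝ) ≤ 4 ^ 5 := by norm_num
        _ ≤ x ^ 5 := by gcongr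
        _ ≤ x ^ 1000 := pow_le_pow_right₀ hx1 (by norm_num)
    exact_mod_cast this
  have hn0 : (0 : ℝ) < n := by linarith
  have hn1 : (1 : ℝ) ≤ n := by linarith
  have hx8 : 1 ≤ x ^ 8 := one_le_pow₀ hx1
  have hD0 : 0 < D := by linarith
  set ω : ℝ := C1 / x with hω
  have hω1 : 1 / x ≤ ω := by rw [hω]; gcongr
  have hω4 : ω ≤ 1 / 4 := by rw [hω, div_le_iff₀ hx0]; linarith
  have hω0 : 0 < ω := by positivity
  have hxinv : 1 / x ≤ 1 := by rw [div_le_one hx0]; exact hx1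
  have hninv : 1 / (n : ℝ) ≤ 1 / x := by gcongr
  have hη : 1 / x ^ 2 ≤ ω ^ 2 := by
    calc 1 / x ^ 2 = (1 / x) ^ 2 := by ring
      _ ≤ _ := by gcongr
  have hηω : 1 / x ^ 2 ≤ ω := hη.trans (by
    rw [pow_two]; exact mul_le_of_le_one_left hω0.le (by linarith))
  have hpu : p ≤ 2 / x ^ 496 := p_le hx1 hp (by rw [hD, hnx]) hD2
  have hpx : p ≤ 2 / x ^ 2 := hpu.trans (by
    have : x ^ 2 ≤ x ^ 496 := pow_le_pow_right₀ hx1 (by norm_num)
    gcongr)
  have hp8 : p ≤ 1 / 8 := hpx.trans (by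
    rw [div_le_iff₀ (by positivity)]
    have : (4 : ℝ) ^ 2 ≤ x ^ 2 := by gcongr
    linarith)
  have hp2 : 4 * p ^ 2 ≤ 8 / x := by
    have : 2 / x ^ 2 ≤ 2 / x := by
      have : x ≤ x ^ 2 := le_self_pow₀ hx1 (by norm_num)
      gcongr
    have h' : 8 / x = 4 * (2 / x) := by ring
    have h'' : p ^ 2 ≤ p := by rw [pow_two]; exact mul_le_of_le_one_left hp.le (by linarith)
    linarith
  set Q : ℕ := n ^ 20 with hQ
  set N : ℕ := n ^ 21 with hN
  have hQ1 : 1 ≤ Q := Nat.one_le_pow _ _ (by omega)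
  have hQn : x ^ 18 ≤ (Q : ℝ) := by
    rw [hQ]; push_cast
    calc x ^ 18 ≤ x ^ 1000 := pow_le_pow_right₀ hx1 (by norm_num)
      _ = n := hnx.symm
      _ ≤ _ := le_self_pow₀ hn1 (by norm_num)
  have hQ0 : (0 : ℝ) < Q := by exact_mod_cast hQ1
  have hDQ : 4 * D ^ 2 * (1 / Q) ≤ 1 := by
    rw [mul_one_div, div_le_one hQ0]
    calc 4 * D ^ 2 ≤ 4 * (2 * x ^ 8) ^ 2 := by gcongr
      _ = 4 ^ 2 * x ^ 16 := by ring
      _ ≤ x ^ 2 * x ^ 16 := by gcongr
      _ = x ^ 18 := by ring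
      _ ≤ _ := hQn
  have hDQ' : D * (1 / Q) ≤ 1 / 2 := by
    have h6 : D * (1 / Q) * 1 ≤ D * (1 / Q) * D :=
      mul_le_mul_of_nonneg_left (by linarith) (by positivity)
    have h7 : D * (1 / Q) * D = 1 / 4 * (4 * D ^ 2 * (1 / Q)) := by ring
    linarith
  have : Nonempty (Fin Q) := ⟨⟨0, hQ1⟩⟩
  set a : ℕ → ℝ := fun i => pr fun z : Fin N → Fin Q => clk z = i with ha
  obtain ⟨⟨hR1, hR2⟩, hR3⟩ : ((∀ i < N, a i ≤ 1 / Q) ∧
      ∑ i ∈ range N, a i = 1 - (1 - 1 / (Q : ℝ)) ^ N) ∧ _ := ⟨hRound.1 N Q hQ1, hRound.2⟩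
  have ha0 : ∀ i, 0 ≤ a i := fun i => pr_nonneg _
  obtain ⟨hs0, hs1, hs2, hs3⟩ := hSums.2 D (1 / Q) a N hD0 hDQ' fun i hi => ⟨ha0 i, hR1 i hi⟩
  obtain ⟨he1, he2⟩ := err1 hn720
  rw [← hQ, ← hN] at he1 he2
  set s : ℝ := sq D a N with hs
  set t : ℝ := ∑ i ∈ range N, a i with ht
  have ht1 : t ≤ 1 := by
    rw [hR2]
    have : 0 ≤ (1 - 1 / (Q : ℝ)) ^ N := pow_nonneg (by
      rw [sub_nonneg, div_le_one hQ0]; exact_mod_cast hQ1) _
    linarith
  have ht2 : 1 - ω ≤ t := by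
    rw [hR2]
    have : 1 / (n : ℝ) ^ 5 ≤ 1 / n := by
      have : (n : ℝ) ≤ (n : ℝ) ^ 5 := le_self_pow₀ hn1 (by norm_num)
      gcongr
    linarith
  have hes1 : 2 * D * (1 - ω) ≤ Real.exp (2 * s) := by
    have := mul_le_mul_of_nonneg_left ht2 (show 0 ≤ 2 * D by linarith)
    linarith
  have hes2 : Real.exp (2 * s) ≤ 2 * D * (1 + ω) := by
    have h6 : 2 * D * (1 + 2 * D * (1 / Q)) * t ≤ 2 * D * (1 + 2 * D * (1 / Q)) * 1 := by gcongr
    have h7 : 1 ≤ D * ω := by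
      calc (1 : ℝ) = x * (1 / x) := by field_simp
        _ ≤ D * ω := by
          have : x ≤ x ^ 8 := le_self_pow₀ hx1 (by norm_num)
          gcongr; linarith
    have h8 : 2 * D * (1 + 2 * D * (1 / Q)) * 1 = 2 * D + 4 * D ^ 2 * (1 / Q) := by ring
    have h9 : 2 * D * (1 + ω) = 2 * D + 2 * (D * ω) := by ring
    linarith
  have hes3 : Real.exp (2 * s) ≤ 3 * D := by
    have := mul_le_mul_of_nonneg_left (show 1 + ω ≤ 3 / 2 by linarith) (show 0 ≤ 2 * D by linarith)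
    linarith
  have hsS : s ≤ 10 * Real.log x := by
    have h6 : Real.exp (2 * s) ≤ Real.exp (20 * Real.log x) := by
      have : Real.exp (20 * Real.log x) = x ^ 20 := by
        rw [show (20 : ℝ) = ((20 : ℕ) : ℝ) by norm_num, Real.exp_nat_mul, Real.exp_log hx0]
      rw [this]
      calc Real.exp (2 * s) ≤ 3 * (2 * x ^ 8) := by linarith
        _ ≤ x ^ 12 * x ^ 8 := by
          have : (6 : ℝ) ≤ x ^ 12 := by
            calc (6 : ℝ) ≤ 4 ^ 12 := by norm_num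
              _ ≤ _ := by gcongr
          have := mul_le_mul_of_nonneg_right this (show 0 ≤ x ^ 8 by positivity)
          linarith
        _ = _ := by ring
    have := Real.exp_le_exp.1 h6
    linarith
  have hexp : Real.exp (2 * ω) ≤ 2 := by
    have h6 : Real.exp (2 * ω) ≤ Real.exp (Real.log 2) :=
      Real.exp_le_exp.2 (by have := Real.log_two_gt_d9; linarith)
    rwa [Real.exp_log (by norm_num)] at h6
  have hlam0 : 0 ≤ 4 * s / D := by positivity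
  -- the bound for a fixed good graph
  have hG : ∀ G, ν G ≠ 0 → hh (ph n) G ≤ gg ω + 8 / x + 2 / x +
      rsum G true (fun u v u' v' =>
        colB (okG G (root u v u' v')) (piT (root u v u' v')) (4 * s / D) N) / (4 * (n : ℝ) ^ 3) +
      2 * cc * rsum G false (fun u v u' v' =>
        colB (okG G (root u v u' v')) (piT (root u v u' v')) (4 * s / D) N) /
          ((n : ℝ) ^ 2 * (n : ℝ) ^ ((3 : ℝ) / 2)) := by
    intro G hGν
    obtain ⟨hReg, hdeg, hann⟩ := hgood G hGν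
    have hrec := hRec lam n G D (1 / x ^ 2) ω ω (10 * Real.log x) a N hlam hD0 hReg hann
      (fun i hi => ⟨ha0 i, (mul_le_mul_of_nonneg_left (hR1 i hi) hD0.le).trans hDQ'⟩) hsS h2 hω0
      hη le_rfl (by
        refine le_trans ?_ hη
        rw [div_le_div_iff₀ hD0 (by positivity)]
        calc (10 * Real.log x) ^ 2 * x ^ 2 ≤ x ^ 6 * x ^ 2 := by gcongr
          _ = x ^ 8 := by ring
          _ ≤ _ := by linarith)
      (by rw [hω, ← mul_div_assoc, div_le_one hx0]; exact h4)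
    have hdeg' : ∀ u, ∑ w, A G u w ≤ (1 + ω) * n * p := fun u => (hdeg u).trans (by gcongr)
    have hround := hR3 n N Q G (ph n) n (by omega) hQ1 hReg.1 (ph_bounds (by omega))
    have hfix := hFix n G (Finset (Fin n) → Fin N → Fin Q)
      (fun ξ u v => al G (fun t => clk (ξ t)) N u v) (fun ξ => (fin G (fun t => clk (ξ t)) N).card)
      (fun u v => qq G a N u v none)
      (fun u v u' v' => colB (okG G (root u v u' v')) (piT (root u v u' v')) (4 * s / D) N) p cc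
      (by omega) hReg.1 hp.le hp8 cc_pos.le
      (fun u => (hdeg' u).trans (by gcongr; linarith))
      (fun u v huv => (Real.exp_pos _).le.trans ((hrec N le_rfl).1 u v none (ne_of_mem hReg.1 huv)).1)
      (fun u v u' v' => colB_nonneg _ _ hlam0 _)
      (fun ξ => by convert two_card_fin hReg.1 (fun t => clk (ξ t)) N)
      (fun u v u' v' _ => by
        convert pair_bound hC hP hCo hL hQ1 G hReg.1 hD0 hexp a ha hs1 hrec u v u' v')
    have hmain := main_term (G := G) (s := s) (fun u v => qq G a N u v none) (by omega) hp hD hω0.le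
      (by linarith) hReg hηω hdeg' (hninv.trans hω1) le_rfl
      (fun u v huv => (hrec N le_rfl).1 u v none huv) hes1 hes2
    have h2n : 2 / (n : ℝ) ≤ 2 / x := by gcongr
    unfold ph at hround ⊢
    linarith
  have hsum : ∀ fl : Bool, ∑ G, ν G * rsum G fl (fun u v u' v' =>
        colB (okG G (root u v u' v')) (piT (root u v u' v')) (4 * s / D) N) ≤
      (3 * 2 * (5 / 4 * p) ^ (if fl then 3 else 2) + 1 / 2 ^ ⌊x⌋₊) * (n : ℝ) ^ 4 *
        (50000 * D ^ 5 * Real.exp (24 * D * (4 * s / D))) := fun fl =>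
    hSums.1 n ν D 2 (5 / 4 * p) (4 * s / D) fl N ⌊x⌋₊ (by linarith) (by norm_num) (by positivity)
      hlam0 (by
        have : (n : ℝ) * (5 / 4 * p) ^ 2 = 25 / 16 * D := by rw [hD]; ring
        linarith) hν0 hν1
      (fun G hGν => (hgood G hGν).1.mono (by linarith))
      (fun F hF => hsurv F (by
        have h6 : (F.card : ℝ) ≤ 2 * ⌊x⌋₊ + 3 := by exact_mod_cast hF
        have h7 : (⌊x⌋₊ : ℝ) ≤ x := Nat.floor_le hx0.le
        have h8 : 4 ^ 2 * x ≤ x ^ 2 * x := by gcongr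
        have h9 : x ^ 2 * x = x ^ 3 := by ring
        linarith))
  have hM := M0_le (x := x) (by linarith) hD2 hes3
  have hT : (1 : ℝ) / 2 ^ ⌊x⌋₊ ≤ 1 / x ^ 1425 := by gcongr
  have hW : (n : ℝ) ^ ((3 : ℝ) / 2) = x ^ 1500 := by
    rw [hnx, ← Real.rpow_natCast, ← Real.rpow_mul hx0.le, ← Real.rpow_natCast]
    norm_num
  have hE2 := err2 hx1 hp.le hpu (by positivity) hT (by positivity) hM
  have hE4 := err4 hx1 hp.le hpu (by positivity) hT (by positivity) hM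
  rw [← hnx] at hE2 hE4
  rw [← hW] at hE4
  have hs_t := hsum true
  have hs_f := hsum false
  simp only [if_true, Bool.false_eq_true, if_false] at hs_t hs_f
  have hfin := hhh (ph n) n (ph_bounds (by omega))
  have hnn : (n : ℝ) / (n : ℝ) ^ 2 ≤ 1 / x := by
    refine le_trans (le_of_eq ?_) hninv
    field_simp
  have hg0 := gg_nonneg ω
  have hcc := cc_pos
  have hWpos : 0 < (n : ℝ) ^ 2 * (n : ℝ) ^ ((3 : ℝ) / 2) := by positivity
  have hsumG : ∑ G, ν G * hh (ph n) G ≤ (∑ G, ν G) * (gg ω + 8 / x + 2 / x) +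
      (∑ G, ν G * rsum G true (fun u v u' v' =>
        colB (okG G (root u v u' v')) (piT (root u v u' v')) (4 * s / D) N)) / (4 * (n : ℝ) ^ 3) +
      2 * cc * (∑ G, ν G * rsum G false (fun u v u' v' =>
        colB (okG G (root u v u' v')) (piT (root u v u' v')) (4 * s / D) N)) /
          ((n : ℝ) ^ 2 * (n : ℝ) ^ ((3 : ℝ) / 2)) := by
    rw [Finset.sum_mul, Finset.sum_div, Finset.mul_sum, Finset.sum_div, ← Finset.sum_add_distrib,
      ← Finset.sum_add_distrib]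
    refine Finset.sum_le_sum fun G _ => ?_
    by_cases hGν : ν G = 0
    · simp [hGν]
    · refine (mul_le_mul_of_nonneg_left (hG G hGν) (hν0 G)).trans (le_of_eq ?_)
      ring
  have hA : (∑ G, ν G) * (gg ω + 8 / x + 2 / x) ≤ 1 * (gg ω + 8 / x + 2 / x) := by gcongr
  have hB := (div_le_div_of_nonneg_right hs_t (by positivity : 0 ≤ 4 * (n : ℝ) ^ 3)).trans hE2
  have hC' := (div_le_div_of_nonneg_right (mul_le_mul_of_nonneg_left hs_f
    (by positivity : 0 ≤ 2 * cc)) hWpos.le).trans hE4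
  have hlast : (64 * K1 + 11) / x = 8 / x + 2 / x + 25 * K1 / x + 39 * K1 / x + 1 / x := by ring
  linarith

theorem numeric_eventually (J : ℕ) {C1 C2 : ℝ} (hC1 : 1 ≤ C1) (hC2 : 0 < C2) :
    ∀ᶠ x : ℝ in Filter.atTop, 4 * C1 ≤ x ∧ 1 ≤ 10 * Real.log x ∧ (10 * Real.log x) ^ 2 ≤ x ^ 6 ∧
      C2 * (10 * Real.log x) ^ (J + 1) * C1 ≤ x ∧ x ^ 1425 ≤ 2 ^ ⌊x⌋₊ := by
  have hlog : ∀ (m : ℕ) (c : ℝ), 0 < c → ∀ᶠ x : ℝ in Filter.atTop, c * Real.log x ^ m ≤ x := by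
    intro m c hc
    have h := (Real.isLittleO_pow_log_id_atTop (n := m)).bound (c := 1 / c) (by positivity)
    filter_upwards [h, Filter.eventually_ge_atTop (0 : ℝ)] with x hx hx0
    simp only [id, Real.norm_eq_abs, abs_of_nonneg hx0] at hx
    have := (le_abs_self _).trans hx
    rw [one_div, ← div_eq_inv_mul, le_div_iff₀ hc] at this
    linarith
  filter_upwards [Filter.eventually_ge_atTop (4 * C1), Filter.eventually_ge_atTop (3 : ℝ),
    hlog 2 100 (by norm_num), hlog (J + 1) (C2 * 10 ^ (J + 1) * C1) (by positivity),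
    hlog 1 6000 (by norm_num)] with x h1 h2 h3 h4 h5
  have hx0 : 0 < x := by linarith
  have hx1 : 1 ≤ x := by linarith
  have hl : 1 ≤ Real.log x := by
    rw [Real.le_log_iff_exp_le hx0]
    have := Real.exp_one_lt_d9
    linarith
  refine ⟨h1, by linarith, ?_, ?_, ?_⟩
  · have : x ≤ x ^ 6 := le_self_pow₀ hx1 (by norm_num)
    nlinarith
  · rw [mul_pow]; linarith
  · have h6 : x - 1 ≤ (⌊x⌋₊ : ℝ) := (Nat.sub_one_lt_floor x).le
    have h7 : x ^ 1425 = Real.exp (1425 * Real.log x) := by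
      rw [show (1425 : ℝ) = ((1425 : ℕ) : ℝ) by norm_num, Real.exp_nat_mul, Real.exp_log hx0]
    have h8 : (2 : ℝ) ^ ⌊x⌋₊ = Real.exp (⌊x⌋₊ * Real.log 2) := by
      rw [Real.exp_nat_mul, Real.exp_log (by norm_num)]
    rw [h7, h8]
    refine Real.exp_le_exp.2 ?_
    have h9 := Real.log_two_gt_d9
    have h10 : (x - 1) * (1 / 2) ≤ (⌊x⌋₊ : ℝ) * Real.log 2 :=
      mul_le_mul h6 (by linarith) (by norm_num) (by positivity)
    simp only [pow_one] at h5
    linarith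

theorem final (hS1 : Stage1Stmt) (hRound : RoundStmt) (hC : CoupStmt) (hP : ProdStmt)
    (hCo : ColpStmt) (hL : LinkStmt) (hRec : RecStmt) (hSums : SumsStmt) (hFix : FixStmt) :
    Filter.Tendsto (fun n : ℕ =>
      expectFinal
        (fun e : ℕ => ((e : ℝ) / (n : ℝ) ^ ((3 : ℝ) / 2) - 1 / (2 * Real.sqrt 2)) ^ 2)
        (n ^ 2) (allEdges n))
      Filter.atTop (nhds 0) := by
  obtain ⟨J, lam, C1, hJ, hlam, hC1, hev⟩ := hS1
  obtain ⟨C2, hC2, hRec⟩ := hRec J hJ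
  have hx : Filter.Tendsto (fun n : ℕ => (n : ℝ) ^ ((1 : ℝ) / 1000)) Filter.atTop Filter.atTop :=
    (tendsto_rpow_atTop (by norm_num)).comp tendsto_natCast_atTop_atTop
  have hup : Filter.Tendsto (fun n : ℕ => gg (C1 / (n : ℝ) ^ ((1 : ℝ) / 1000)) +
      (64 * K1 + 11) / (n : ℝ) ^ ((1 : ℝ) / 1000)) Filter.atTop (nhds 0) := by
    have h1 := gg_tendsto.comp (hx.const_div_atTop C1)
    have h2 := hx.const_div_atTop (64 * K1 + 11)
    simpa using h1.add h2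
  refine tendsto_of_tendsto_of_tendsto_of_le_of_le' tendsto_const_nhds hup ?_ ?_
  · filter_upwards [Filter.eventually_ge_atTop 1] with n hn
    exact (hh_bounds (ph_bounds hn) (allEdges n)).1
  · filter_upwards [hev, hx.eventually (numeric_eventually J hC1 hC2)] with n hS h
    have hnx : (n : ℝ) = ((n : ℝ) ^ ((1 : ℝ) / 1000)) ^ 1000 := by
      rw [← Real.rpow_natCast, ← Real.rpow_mul (Nat.cast_nonneg n)]
      norm_num
    exact fixed_bound hRound hC hP hCo hL hSums hFix hlam hC1 hRec hnx h.1 h.2.1 h.2.2.1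
      h.2.2.2.1 h.2.2.2.2 hS

end Crest.Agent.R30
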