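import Crest.Agent.R30.Basic

/-! # Row 30, task FIX -/

set_option autoImplicit false

namespace Crest.Agent.R30

open Crest.CombinatoricsR.TriangleRemoval Finset

namespace FixA

variable {n : ℕ}

theorem sq_deg {G : Gr n} {p : ℝ} (hd : ∀ u, ∑ w, A G u w ≤ 2 * n * p) :
    ∑ u, (∑ v, A G u v) * (∑ v, A G u v) ≤ 4 * (n : ℝ) ^ 3 * p ^ 2 := by
  have h : ∀ u ∈ (univ : Finset (Fin n)),
      (∑ v, A G u v) * (∑ v, A G u v) ≤ (2 * n * p) * (2 * n * p) := fun u _ =>
    mul_self_le_mul_self (sum_nonneg fun _ _ => A_nonneg _ _ _) (hd u)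
  refine (sum_le_sum h).trans (le_of_eq ?_)
  rw [sum_const, card_univ, Fintype.card_fin, nsmul_eq_mul]
  ring

theorem share {G : Gr n} {p : ℝ} (hd : ∀ u, ∑ w, A G u w ≤ 2 * n * p) :
    ∑ u, ∑ v, ∑ u', ∑ v', A G u v * A G u' v' * ((if u' = u then 1 else 0) +
      (if v' = u then 1 else 0) + (if u' = v then 1 else 0) + (if v' = v then 1 else 0)) ≤
      16 * (n : ℝ) ^ 3 * p ^ 2 := by
  have h0 := sq_deg hd
  have h1 : ∀ u v z : Fin n, ∑ u', ∑ v', A G u v * A G u' v' * (if u' = z then 1 else 0) =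
      A G u v * ∑ w, A G z w := by
    intro u v z
    rw [sum_eq_single z (fun b _ hb => by simp [hb]) (by simp)]
    simp [mul_sum]
  have h2 : ∀ u v z : Fin n, ∑ u', ∑ v', A G u v * A G u' v' * (if v' = z then 1 else 0) =
      A G u v * ∑ w, A G z w := by
    intro u v z
    rw [sum_comm, sum_eq_single z (fun b _ hb => by simp [hb]) (by simp)]
    simp [mul_sum, A_symm G z]
  simp only [mul_add, sum_add_distrib, h1, h2]
  have h3 : ∑ u, ∑ v, A G u v * ∑ w, A G u w = ∑ u, (∑ v, A G u v) * (∑ v, A G u v) := by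
    simp only [sum_mul]
  have h4 : ∑ u, ∑ v, A G u v * ∑ w, A G v w = ∑ u, (∑ v, A G u v) * (∑ v, A G u v) := by
    rw [sum_comm, ← h3]
    exact sum_congr rfl fun u _ => sum_congr rfl fun v _ => by rw [A_symm]
  rw [h3, h4]
  linarith

open Classical in
theorem many {G : Gr n} {p : ℝ} (hn : 20 ≤ n) (hp : p ≤ 1 / 8)
    (hd : ∀ u, ∑ w, A G u w ≤ 2 * n * p) {u v : Fin n} (huv : u ≠ v) :
    (n : ℝ) ^ 2 / 2 ≤ ∑ u', ∑ v', if Dist4 u v u' v' ∧ s(u', v') ∉ G then (1 : ℝ) else 0 := by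
  have h1 : ∀ u' v' : Fin n, (1 : ℝ) ≤ (if Dist4 u v u' v' ∧ s(u', v') ∉ G then (1 : ℝ) else 0) +
      ((if u' = u then 1 else 0) + (if u' = v then 1 else 0) + (if v' = u then 1 else 0) +
        (if v' = v then 1 else 0) + (if v' = u' then 1 else 0) + A G u' v') := by
    intro u' v'
    have a0 := A_nonneg G u' v'
    by_cases hG : s(u', v') ∈ G
    · rw [A_of_mem hG]
      split_ifs <;> norm_num
    by_cases hD : Dist4 u v u' v'
    · rw [if_pos ⟨hD, hG⟩]
      split_ifs <;> linarith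
    rw [if_neg fun h => hD h.1]
    split_ifs with c1 c2 c3 c4 c5 <;> first
      | linarith
      | exact absurd ⟨huv, by tauto, by tauto, by tauto, by tauto, by tauto⟩ hD
  have h2 := sum_le_sum fun u' (_ : u' ∈ (univ : Finset (Fin n))) =>
    sum_le_sum fun v' (_ : v' ∈ (univ : Finset (Fin n))) => h1 u' v'
  have h3 : ∑ u', ∑ v', A G u' v' ≤ n * (2 * n * p) := by
    refine (sum_le_sum fun u' _ => hd u').trans (le_of_eq ?_)
    rw [sum_const, card_univ, Fintype.card_fin, nsmul_eq_mul]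
  simp only [sum_add_distrib, sum_ite_eq', mem_univ, if_true, sum_const, card_univ,
    Fintype.card_fin, nsmul_eq_mul, mul_one, mul_ite, mul_zero] at h2
  have h4 : (20 : ℝ) ≤ n := by exact_mod_cast hn
  have h5 : (n : ℝ) * (2 * n * p) ≤ n * (2 * n * (1 / 8)) := by gcongr
  nlinarith

open Classical in
theorem rsum_true (G : Gr n) (f : Fin n → Fin n → Fin n → Fin n → ℝ) :
    rsum G true f = ∑ u, ∑ v, ∑ u', ∑ v',
      if Dist4 u v u' v' ∧ s(u, v) ∈ G ∧ s(u', v') ∈ G then f u v u' v' else 0 := by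
  simp [rsum]

open Classical in
theorem rsum_false (G : Gr n) (f : Fin n → Fin n → Fin n → Fin n → ℝ) :
    rsum G false f = ∑ u, ∑ v, ∑ u', ∑ v',
      if Dist4 u v u' v' ∧ s(u, v) ∈ G then f u v u' v' else 0 := by
  simp [rsum]

end FixA

open FixA in
theorem fix_proof : FixStmt := by
  classical
  intro n G Ω _ _ Al F q cb p c hn hG hp0 hp hc hd hq hcb hF hpr
  have hn0 : (0 : ℝ) < n := by
    have : 0 < n := by omega
    exact_mod_cast this
  set X : Ω → ℝ := fun ω => ∑ u, ∑ v, if s(u, v) ∈ G ∧ Al ω u v then 1 else 0 with hX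
  set S : ℝ := ∑ u, ∑ v, A G u v * q u v with hS
  have hAq : ∀ u v, 0 ≤ A G u v * q u v := by
    intro u v
    by_cases h : s(u, v) ∈ G
    · exact mul_nonneg (A_nonneg _ _ _) (hq u v h)
    · rw [A_of_not_mem h, zero_mul]
  -- second moment
  have h2 : av (fun ω => X ω ^ 2) ≤ S ^ 2 + rsum G true cb + 16 * (n : ℝ) ^ 3 * p ^ 2 := by
    have e1 : av (fun ω => X ω ^ 2) = ∑ u, ∑ v, ∑ u', ∑ v',
        pr fun ω => (s(u, v) ∈ G ∧ Al ω u v) ∧ (s(u', v') ∈ G ∧ Al ω u' v') := by
      simp only [pr, ← av_sum]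
      congr 1
      funext ω
      simp only [hX]
      rw [pow_two, sum_mul_sum]
      refine sum_congr rfl fun u _ => ?_
      simp only [sum_mul_sum]
      rw [sum_comm]
      refine sum_congr rfl fun v _ => sum_congr rfl fun u' _ => sum_congr rfl fun v' _ => ?_
      by_cases h1 : s(u, v) ∈ G ∧ Al ω u v <;> by_cases h2 : s(u', v') ∈ G ∧ Al ω u' v' <;>
        simp only [h1, h2, if_true, if_false, and_self, and_false, false_and, mul_one, mul_zero]
    have e2 : S ^ 2 = ∑ u, ∑ v, ∑ u', ∑ v', (A G u v * q u v) * (A G u' v' * q u' v') := by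
      rw [pow_two, hS, sum_mul_sum]
      refine sum_congr rfl fun u _ => ?_
      simp only [sum_mul_sum]
      rw [sum_comm]
    refine le_trans ?_ (add_le_add le_rfl (share hd))
    rw [e1, e2, rsum_true]
    simp only [← sum_add_distrib]
    refine sum_le_sum fun u _ => sum_le_sum fun v _ => sum_le_sum fun u' _ =>
      sum_le_sum fun v' _ => ?_
    have b1 := mul_nonneg (hAq u v) (hAq u' v')
    have b2 : 0 ≤ (if Dist4 u v u' v' ∧ s(u, v) ∈ G ∧ s(u', v') ∈ G
        then cb u v u' v' else 0) := by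
      split_ifs
      · exact hcb _ _ _ _
      · exact le_rfl
    have b3 : (0 : ℝ) ≤ (if u' = u then 1 else 0) + (if v' = u then 1 else 0) +
        (if u' = v then 1 else 0) + (if v' = v then 1 else 0) := by
      split_ifs <;> norm_num
    have b4 := mul_nonneg (mul_nonneg (A_nonneg G u v) (A_nonneg G u' v')) b3
    by_cases c1 : s(u, v) ∈ G
    swap
    · rw [pr_false fun ω h => c1 h.1.1]
      linarith
    by_cases c2 : s(u', v') ∈ G
    swap
    · rw [pr_false fun ω h => c2 h.2.1]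
      linarith
    by_cases c3 : Dist4 u v u' v'
    · have := (abs_le.1 (hpr u v u' v' c3)).2
      rw [if_pos c1, if_pos c2] at this
      rw [if_pos ⟨c3, c1, c2⟩]
      rw [A_of_mem c1, A_of_mem c2] at *
      rw [pr_congr (Q := fun ω => (s(u, v) ∈ G → Al ω u v) ∧ (s(u', v') ∈ G → Al ω u' v'))
        fun ω => by tauto]
      linarith
    · have b5 : (1 : ℝ) ≤ (if u' = u then 1 else 0) + (if v' = u then 1 else 0) +
          (if u' = v then 1 else 0) + (if v' = v then 1 else 0) := by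
        have d1 := ne_of_mem hG c1
        have d2 := ne_of_mem hG c2
        split_ifs <;> first
          | norm_num; done
          | exact absurd ⟨d1, by tauto, by tauto, by tauto, by tauto, d2⟩ c3
      have b6 := pr_le_one fun ω => (s(u, v) ∈ G ∧ Al ω u v) ∧ (s(u', v') ∈ G ∧ Al ω u' v')
      rw [A_of_mem c1, A_of_mem c2] at *
      linarith
  -- first moment
  have h1 : S - 2 / (n : ℝ) ^ 2 * rsum G false cb ≤ av X := by
    have e1 : av X = ∑ u, ∑ v, pr fun ω => s(u, v) ∈ G ∧ Al ω u v := by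
      simp only [pr, ← av_sum]
      congr 1
      funext ω
      simp only [hX]
      refine sum_congr rfl fun u _ => sum_congr rfl fun v _ => ?_
      congr
    rw [e1, hS, rsum_false, mul_sum, ← sum_sub_distrib]
    refine sum_le_sum fun u _ => ?_
    rw [mul_sum, ← sum_sub_distrib]
    refine sum_le_sum fun v _ => ?_
    set R : ℝ := ∑ u', ∑ v', if Dist4 u v u' v' ∧ s(u, v) ∈ G
      then cb u v u' v' else 0 with hR
    have hR0 : 0 ≤ R := sum_nonneg fun u' _ => sum_nonneg fun v' _ => by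
      split_ifs
      · exact hcb _ _ _ _
      · exact le_rfl
    have hR1 : 0 ≤ 2 / (n : ℝ) ^ 2 * R := by positivity
    have hP0 := pr_nonneg fun ω => s(u, v) ∈ G ∧ Al ω u v
    by_cases c1 : s(u, v) ∈ G
    swap
    · rw [A_of_not_mem c1]
      linarith
    rw [A_of_mem c1, one_mul]
    set P : ℝ := pr fun ω => s(u, v) ∈ G ∧ Al ω u v with hP
    rcases le_or_gt (q u v) P with c2 | c2
    · linarith
    have b1 := mul_le_mul_of_nonneg_right (many hn hp hd (ne_of_mem hG c1)) (sub_pos.2 c2).le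
    have b2 : (∑ u', ∑ v', if Dist4 u v u' v' ∧ s(u', v') ∉ G then (1 : ℝ) else 0) *
        (q u v - P) ≤ R := by
      rw [hR, sum_mul]
      refine sum_le_sum fun u' _ => ?_
      rw [sum_mul]
      refine sum_le_sum fun v' _ => ?_
      by_cases c3 : Dist4 u v u' v' ∧ s(u', v') ∉ G
      · have := (abs_le.1 (hpr u v u' v' c3.1)).1
        rw [if_pos c1, if_neg c3.2, pr_congr (Q := fun ω => s(u, v) ∈ G ∧ Al ω u v)
          fun ω => by tauto] at this
        rw [if_pos c3, if_pos ⟨c3.1, c1⟩]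
        linarith
      · rw [if_neg c3, zero_mul]
        split_ifs
        · exact hcb _ _ _ _
        · exact le_rfl
    have b3 : q u v - P ≤ 2 / (n : ℝ) ^ 2 * R := by
      rw [div_mul_eq_mul_div, le_div_iff₀ (by positivity)]
      linarith
    linarith
  set m : ℝ := (n : ℝ) ^ ((3 : ℝ) / 2) with hm
  have hm0 : 0 < m := Real.rpow_pos_of_pos hn0 _
  have hm2 : m ^ 2 = (n : ℝ) ^ 3 := by
    rw [hm, ← Real.rpow_natCast, ← Real.rpow_mul hn0.le]
    norm_num
  have e : av (fun ω => ((F ω : ℝ) / m - c) ^ 2) =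
      1 / (4 * m ^ 2) * av (fun ω => X ω ^ 2) - c / m * av X + c ^ 2 := by
    rw [← av_const_mul, ← av_const_mul, ← av_sub, ← av_const (X := Ω) (c ^ 2), ← av_add]
    congr 1
    funext ω
    have : X ω = 2 * F ω := (hF ω).symm
    rw [this]
    field_simp
    ring
  rw [e]
  have b1 := mul_le_mul_of_nonneg_left h2 (show 0 ≤ 1 / (4 * m ^ 2) by positivity)
  have b2 := mul_le_mul_of_nonneg_left h1 (show 0 ≤ c / m by positivity)
  have e2 : (S / (2 * m) - c) ^ 2 + rsum G true cb / (4 * (n : ℝ) ^ 3) + 4 * p ^ 2 +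
      2 * c * rsum G false cb / ((n : ℝ) ^ 2 * m) =
      1 / (4 * m ^ 2) * (S ^ 2 + rsum G true cb + 16 * (n : ℝ) ^ 3 * p ^ 2) -
        c / m * (S - 2 / (n : ℝ) ^ 2 * rsum G false cb) + c ^ 2 := by
    rw [← hm2]
    field_simp
    ring
  rw [e2]
  linarith

end Crest.Agent.R30
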