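import Crest.Agent.R30.Basic

/-! # Row 30, task GEOA -/

set_option autoImplicit false

namespace Crest.Agent.R30

open Crest.CombinatoricsR.TriangleRemoval Finset

namespace GeoA

/-- Abstract data of the exploration: letter `j` has node `nd j`, side `sd j`, pair
`(a j, a' j)`, back vertex `bk j` and new vertex `w j`. -/
structure Dat (V N : Type) (Λ : ℕ) (u v u' v' : V) where
  a : ℕ → V
  a' : ℕ → V
  w : ℕ → V
  bk : ℕ → Option V
  sd : ℕ → Bool
  nd : ℕ → N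
  rt : N
  ch : ℕ → N
  par : ∀ j < Λ, (nd j = rt ∧ ((sd j = true ∧ a j = u ∧ a' j = v) ∨
      (sd j = false ∧ a j = u' ∧ a' j = v'))) ∨
    ∃ k < j, nd j = ch k ∧ ((sd j = true ∧ a j = a k ∧ a' j = w k ∧ bk j = some (a' k)) ∨
      (sd j = false ∧ a j = w k ∧ a' j = a' k ∧ bk j = some (a k)))
  ne : ∀ j < Λ, a j ≠ a' j ∧ a j ≠ w j ∧ a' j ≠ w j ∧ some (w j) ≠ bk j
  sib : ∀ j k, j < k → k < Λ → nd j = nd k → sd j = sd k → w j ≠ w k

variable {V N : Type} {Λ : ℕ} {u v u' v' : V} (d : Dat V N Λ u v u' v')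

namespace Dat

def Old (j : ℕ) (z : V) : Prop := z = u ∨ z = v ∨ z = u' ∨ z = v' ∨ ∃ k < j, d.w k = z

def Fresh (i : ℕ) : Prop := ∀ j < i, ¬ d.Old j (d.w j)

noncomputable def ag (z : V) : ℕ := sInf {j | d.Old j z}

variable {d}

theorem Old.mono {j k : ℕ} {z : V} (h : d.Old j z) (hjk : j ≤ k) : d.Old k z := by
  rcases h with h | h | h | h | ⟨i, hi, h⟩
  · exact Or.inl h
  · exact Or.inr (Or.inl h)
  · exact Or.inr (Or.inr (Or.inl h))
  · exact Or.inr (Or.inr (Or.inr (Or.inl h)))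
  · exact Or.inr (Or.inr (Or.inr (Or.inr ⟨i, by omega, h⟩)))

theorem old_w {j k : ℕ} (h : k < j) : d.Old j (d.w k) :=
  Or.inr (Or.inr (Or.inr (Or.inr ⟨k, h, rfl⟩)))

theorem old_a (j : ℕ) (hj : j < Λ) : d.Old j (d.a j) ∧ d.Old j (d.a' j) := by
  induction j using Nat.strong_induction_on with
  | _ j ih =>
    rcases d.par j hj with ⟨-, ⟨-, h1, h2⟩ | ⟨-, h1, h2⟩⟩ | ⟨k, hk, -, ⟨-, h1, h2, -⟩ | ⟨-, h1, h2, -⟩⟩
    · rw [h1, h2]; exact ⟨Or.inl rfl, Or.inr (Or.inl rfl)⟩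
    · rw [h1, h2]; exact ⟨Or.inr (Or.inr (Or.inl rfl)), Or.inr (Or.inr (Or.inr (Or.inl rfl)))⟩
    · rw [h1, h2]; exact ⟨(ih k hk (by omega)).1.mono hk.le, old_w hk⟩
    · rw [h1, h2]; exact ⟨old_w hk, (ih k hk (by omega)).2.mono hk.le⟩

theorem Old.ag_le {j : ℕ} {z : V} (h : d.Old j z) : d.ag z ≤ j := Nat.sInf_le h

theorem ag_a {j : ℕ} (hj : j < Λ) : d.ag (d.a j) ≤ j ∧ d.ag (d.a' j) ≤ j :=
  ⟨(old_a j hj).1.ag_le, (old_a j hj).2.ag_le⟩

theorem ag_root : d.ag u = 0 ∧ d.ag v = 0 ∧ d.ag u' = 0 ∧ d.ag v' = 0 :=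
  ⟨Nat.le_zero.1 (Old.ag_le (Or.inl rfl)), Nat.le_zero.1 (Old.ag_le (Or.inr (Or.inl rfl))),
    Nat.le_zero.1 (Old.ag_le (Or.inr (Or.inr (Or.inl rfl)))),
    Nat.le_zero.1 (Old.ag_le (Or.inr (Or.inr (Or.inr (Or.inl rfl)))))⟩

theorem Fresh.ag_w {i j : ℕ} (h : d.Fresh i) (hj : j < i) : d.ag (d.w j) = j + 1 := by
  refine le_antisymm (old_w (Nat.lt_succ_self j)).ag_le ?_
  by_contra hc
  have : d.Old (d.ag (d.w j)) (d.w j) :=
    Nat.sInf_mem (s := {k | d.Old k (d.w j)}) ⟨j + 1, old_w (Nat.lt_succ_self j)⟩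
  exact h j hj (this.mono (by omega))

/-- if all letters are fresh, different letters have different triangles -/
theorem tri_ne (h : d.Fresh Λ) {j k : ℕ} (hjk : j < k) (hk : k < Λ) :
    ¬ (d.w k = d.a j ∨ d.w k = d.a' j ∨ d.w k = d.w j) := by
  have h1 := h.ag_w hk
  have h2 := h.ag_w (hjk.trans hk)
  have h3 := ag_a (d := d) (hjk.trans hk)
  rintro (e | e | e) <;> rw [e] at h1 <;> omega

variable [DecidableEq V]

variable (d) in
/-- edges created by the first `i` letters -/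
def mk' (i : ℕ) : Finset (Sym2 V) :=
  (range i).biUnion fun j => {s(d.a j, d.w j), s(d.a' j, d.w j)}

variable (d) in
/-- membership in the graph built by the first `i` letters -/
def InH (i : ℕ) (e : Sym2 V) : Prop := e = s(u, v) ∨ e = s(u', v') ∨ e ∈ d.mk' i

theorem inH_cases {i : ℕ} (h : d.Fresh i) (hi : i ≤ Λ) {y z : V} (he : d.InH i s(y, z))
    (hyz : d.ag y ≤ d.ag z) :
    (d.ag z = 0 ∧ (s(y, z) = s(u, v) ∨ s(y, z) = s(u', v'))) ∨
      ∃ j < i, z = d.w j ∧ (y = d.a j ∨ y = d.a' j) := by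
  have hr := ag_root (d := d)
  rcases he with he | he | he
  · refine Or.inl ⟨?_, Or.inl he⟩
    rcases Sym2.eq_iff.1 he with ⟨-, h2⟩ | ⟨-, h2⟩ <;> rw [h2] <;> tauto
  · refine Or.inl ⟨?_, Or.inr he⟩
    rcases Sym2.eq_iff.1 he with ⟨-, h2⟩ | ⟨-, h2⟩ <;> rw [h2] <;> tauto
  · right
    simp only [mk', mem_biUnion, mem_range, mem_insert, mem_singleton] at he
    obtain ⟨j, hj, he⟩ := he
    have h1 := h.ag_w hj
    have h2 := ag_a (d := d) (show j < Λ by omega)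
    refine ⟨j, hj, ?_⟩
    rcases he with he | he <;> rcases Sym2.eq_iff.1 he with ⟨e1, e2⟩ | ⟨e1, e2⟩
    · exact ⟨e2, Or.inl e1⟩
    · rw [e1, e2] at hyz; omega
    · exact ⟨e2, Or.inr e1⟩
    · rw [e1, e2] at hyz; omega

theorem apex {i : ℕ} (h : d.Fresh i) (hi : i ≤ Λ)
    (hD : u ≠ v ∧ u ≠ u' ∧ u ≠ v' ∧ v ≠ u' ∧ v ≠ v' ∧ u' ≠ v') {y y' z : V} (hne : y ≠ y')
    (he : d.InH i s(y, z)) (he' : d.InH i s(y', z)) (hyz : d.ag y ≤ d.ag z)
    (hyz' : d.ag y' ≤ d.ag z) :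
    ∃ j < i, z = d.w j ∧ ((y = d.a j ∧ y' = d.a' j) ∨ (y = d.a' j ∧ y' = d.a j)) := by
  rcases inH_cases h hi he hyz with ⟨h0, h1⟩ | ⟨j, hj, e1, h1⟩ <;>
    rcases inH_cases h hi he' hyz' with ⟨h0', h2⟩ | ⟨k, hk, e2, h2⟩
  · exfalso
    obtain ⟨d1, d2, d3, d4, d5, d6⟩ := hD
    simp only [Sym2.eq_iff] at h1 h2
    rcases h1 with (⟨rfl, rfl⟩ | ⟨rfl, rfl⟩) | (⟨rfl, rfl⟩ | ⟨rfl, rfl⟩) <;> tauto
  · have := h.ag_w hk
    rw [← e2] at this
    omega
  · have := h.ag_w hj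
    rw [← e1] at this
    omega
  · have e3 := h.ag_w hj
    have e4 := h.ag_w hk
    rw [← e1] at e3
    rw [← e2] at e4
    obtain rfl : j = k := by omega
    refine ⟨j, hj, e1, ?_⟩
    rcases h1 with h1 | h1 <;> rcases h2 with h2 | h2
    · exact absurd (h1.trans h2.symm) hne
    · exact Or.inl ⟨h1, h2⟩
    · exact Or.inr ⟨h1, h2⟩
    · exact absurd (h1.trans h2.symm) hne

theorem mem_mk' {i j : ℕ} (hj : j < i) :
    s(d.a j, d.w j) ∈ d.mk' i ∧ s(d.a' j, d.w j) ∈ d.mk' i := by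
  simp only [mk', mem_biUnion, mem_range, mem_insert, mem_singleton]
  exact ⟨⟨j, hj, Or.inl rfl⟩, ⟨j, hj, Or.inr rfl⟩⟩

theorem pair_inH {i : ℕ} (hi : i < Λ) : d.InH i s(d.a i, d.a' i) := by
  rcases d.par i hi with ⟨-, ⟨-, h1, h2⟩ | ⟨-, h1, h2⟩⟩ | ⟨k, hk, -, ⟨-, h1, h2, -⟩ | ⟨-, h1, h2, -⟩⟩
  · rw [h1, h2]; exact Or.inl rfl
  · rw [h1, h2]; exact Or.inr (Or.inl rfl)
  · rw [h1, h2]; exact Or.inr (Or.inr (mem_mk' hk).1)
  · rw [h1, h2, Sym2.eq_swap]; exact Or.inr (Or.inr (mem_mk' hk).2)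

omit [DecidableEq V] in
theorem same_pair {i j : ℕ} (h : d.Fresh i) (hi : i < Λ) (hj : j < i)
    (hD : u ≠ v ∧ u ≠ u' ∧ u ≠ v' ∧ v ≠ u' ∧ v ≠ v' ∧ u' ≠ v')
    (he : (d.a i = d.a j ∧ d.a' i = d.a' j) ∨ (d.a i = d.a' j ∧ d.a' i = d.a j)) :
    d.nd j = d.nd i ∧ d.sd j = d.sd i := by
  obtain ⟨r1, r2, r3, r4⟩ := ag_root (d := d)
  obtain ⟨d1, d2, d3, d4, d5, d6⟩ := hD
  have hag : (d.ag (d.a i) = d.ag (d.a j) ∧ d.ag (d.a' i) = d.ag (d.a' j)) ∨
      (d.ag (d.a i) = d.ag (d.a' j) ∧ d.ag (d.a' i) = d.ag (d.a j)) := by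
    rcases he with ⟨e1, e2⟩ | ⟨e1, e2⟩
    · left; rw [e1, e2]; exact ⟨rfl, rfl⟩
    · right; rw [e1, e2]; exact ⟨rfl, rfl⟩
  rcases d.par i hi with ⟨n1, p1⟩ | ⟨k, hk, n1, p1⟩ <;>
    rcases d.par j (by omega) with ⟨n2, p2⟩ | ⟨l, hl, n2, p2⟩
  · refine ⟨n2.trans n1.symm, ?_⟩
    rcases p1 with ⟨s1, e1, e2⟩ | ⟨s1, e1, e2⟩ <;> rcases p2 with ⟨s2, e3, e4⟩ | ⟨s2, e3, e4⟩
    · rw [s1, s2]
    · rw [e1, e2, e3, e4] at he; tauto
    · rw [e1, e2, e3, e4] at he; tauto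
    · rw [s1, s2]
  · exfalso
    have := h.ag_w (show l < i by omega)
    rcases p1 with ⟨-, e1, e2⟩ | ⟨-, e1, e2⟩ <;>
      rcases p2 with ⟨-, e3, e4, -⟩ | ⟨-, e3, e4, -⟩ <;> rw [e1, e2, e3, e4] at hag <;> omega
  · exfalso
    have := h.ag_w hk
    rcases p1 with ⟨-, e1, e2, -⟩ | ⟨-, e1, e2, -⟩ <;>
      rcases p2 with ⟨-, e3, e4⟩ | ⟨-, e3, e4⟩ <;> rw [e1, e2, e3, e4] at hag <;> omega
  · have a1 := h.ag_w hk
    have a2 := h.ag_w (show l < i by omega)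
    have a3 := ag_a (d := d) (show k < Λ by omega)
    have a4 := ag_a (d := d) (show l < Λ by omega)
    have hkl : k = l := by
      rcases p1 with ⟨-, e1, e2, -⟩ | ⟨-, e1, e2, -⟩ <;>
        rcases p2 with ⟨-, e3, e4, -⟩ | ⟨-, e3, e4, -⟩ <;> rw [e1, e2, e3, e4] at hag <;> omega
    subst hkl
    refine ⟨n2.trans n1.symm, ?_⟩
    obtain ⟨q1, q2, q3, -⟩ := d.ne k (by omega)
    rcases p1 with ⟨s1, e1, e2, -⟩ | ⟨s1, e1, e2, -⟩ <;>
      rcases p2 with ⟨s2, e3, e4, -⟩ | ⟨s2, e3, e4, -⟩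
    · rw [s1, s2]
    · rw [e1, e2, e3, e4] at he; tauto
    · rw [e1, e2, e3, e4] at he; tauto
    · rw [s1, s2]

theorem new_edge {i : ℕ} (h : d.Fresh i) (hi : i < Λ)
    (hD : u ≠ v ∧ u ≠ u' ∧ u ≠ v' ∧ v ≠ u' ∧ v ≠ v' ∧ u' ≠ v') :
    ¬ d.InH i s(d.a i, d.w i) ∨ ¬ d.InH i s(d.a' i, d.w i) := by
  by_contra hc
  rw [not_or, not_not, not_not] at hc
  obtain ⟨h1, h2⟩ := hc
  have h3 := pair_inH (d := d) hi
  obtain ⟨q1, q2, q3, q4⟩ := d.ne i hi
  obtain ⟨r1, r2, r3, r4⟩ := ag_root (d := d)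
  by_cases c1 : d.ag (d.a i) ≤ d.ag (d.w i) ∧ d.ag (d.a' i) ≤ d.ag (d.w i)
  · obtain ⟨j, hj, e1, e2⟩ := apex h hi.le hD q1 h1 h2 c1.1 c1.2
    obtain ⟨e3, e4⟩ := same_pair h hi hj hD e2
    exact d.sib j i hj hi e3 e4 e1.symm
  by_cases c2 : d.ag (d.a' i) ≤ d.ag (d.a i)
  · rw [Sym2.eq_swap] at h1 h3
    obtain ⟨j, hj, e1, e2⟩ := apex h hi.le hD q3 h3 h1 c2 (by omega)
    have a1 := h.ag_w hj
    rw [← e1] at a1
    obtain ⟨t1, t2, t3, -⟩ := d.ne j (by omega)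
    rcases d.par i hi with ⟨-, ⟨-, e3, e4⟩ | ⟨-, e3, e4⟩⟩ | ⟨k, hk, -, ⟨-, e3, e4, e5⟩ | ⟨-, e3, e4, e5⟩⟩
    · rw [e3] at a1; omega
    · rw [e3] at a1; omega
    · have a2 := h.ag_w hk
      have a3 := ag_a (d := d) (show k < Λ by omega)
      rw [e3, e4] at c2
      omega
    · have a2 := h.ag_w hk
      rw [← e3] at a2
      obtain rfl : j = k := by omega
      rcases e2 with ⟨e6, -⟩ | ⟨-, e6⟩
      · exact t1 (e6.symm.trans e4)
      · exact q4 (by rw [e5, e6])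
  · rw [Sym2.eq_swap] at h2
    obtain ⟨j, hj, e1, e2⟩ := apex h hi.le hD q2 h3 h2 (by omega) (by omega)
    have a1 := h.ag_w hj
    rw [← e1] at a1
    obtain ⟨t1, t2, t3, -⟩ := d.ne j (by omega)
    rcases d.par i hi with ⟨-, ⟨-, e3, e4⟩ | ⟨-, e3, e4⟩⟩ | ⟨k, hk, -, ⟨-, e3, e4, e5⟩ | ⟨-, e3, e4, e5⟩⟩
    · rw [e4] at a1; omega
    · rw [e4] at a1; omega
    · have a2 := h.ag_w hk
      rw [← e4] at a2
      obtain rfl : j = k := by omega
      rcases e2 with ⟨-, e6⟩ | ⟨e6, -⟩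
      · exact q4 (by rw [e5, e6])
      · exact t1 (e3.symm.trans e6)
    · have a2 := h.ag_w hk
      have a3 := ag_a (d := d) (show k < Λ by omega)
      rw [e3, e4] at c2
      omega

theorem mk'_succ (i : ℕ) :
    d.mk' (i + 1) = insert s(d.a i, d.w i) (insert s(d.a' i, d.w i) (d.mk' i)) := by
  simp only [mk', range_add_one, biUnion_insert, insert_union, singleton_union]

theorem not_inH {i : ℕ} {e : Sym2 V} (h : ¬ d.InH i e) :
    e ∉ ({s(u, v), s(u', v')} : Finset (Sym2 V)) ∧ e ∉ d.mk' i := by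
  simp only [InH, not_or] at h
  simp only [mem_insert, mem_singleton, not_or]
  tauto

theorem card_ge {i : ℕ} (h : d.Fresh i) (hi : i ≤ Λ) :
    2 * i ≤ (d.mk' i \ {s(u, v), s(u', v')}).card := by
  induction i with
  | zero => simp
  | succ i ih =>
    have h' : d.Fresh i := fun j hj => h j (by omega)
    have ih := ih h' (by omega)
    have a1 := h.ag_w (Nat.lt_succ_self i)
    have a2 := ag_a (d := d) (show i < Λ by omega)
    have key : ∀ y, d.ag y ≤ i → ¬ d.InH i s(y, d.w i) := by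
      intro y hy he
      rcases inH_cases h' (by omega) he (by omega) with ⟨h0, -⟩ | ⟨j, hj, e, -⟩
      · omega
      · have := h'.ag_w hj
        rw [← e] at this
        omega
    obtain ⟨b1, b2⟩ := not_inH (key _ a2.1)
    obtain ⟨b3, b4⟩ := not_inH (key _ a2.2)
    obtain ⟨q1, q2, q3, -⟩ := d.ne i (by omega)
    rw [mk'_succ, insert_sdiff_of_notMem _ b1, insert_sdiff_of_notMem _ b3,
      card_insert_of_notMem, card_insert_of_notMem]
    · omega
    · exact fun hh => b4 (mem_sdiff.1 hh).1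
    · rw [mem_insert, not_or]
      refine ⟨fun he => ?_, fun hh => b2 (mem_sdiff.1 hh).1⟩
      rcases Sym2.eq_iff.1 he with ⟨e, -⟩ | ⟨e, -⟩
      · exact q1 e
      · exact q2 e

theorem card_ge' {i : ℕ} (h : d.Fresh i) (hi : i < Λ)
    (hD : u ≠ v ∧ u ≠ u' ∧ u ≠ v' ∧ v ≠ u' ∧ v ≠ v' ∧ u' ≠ v') :
    2 * i + 1 ≤ (d.mk' (i + 1) \ {s(u, v), s(u', v')}).card := by
  have h1 := card_ge h hi.le
  obtain ⟨e, he, he'⟩ : ∃ e ∈ d.mk' (i + 1), ¬ d.InH i e := by
    rcases new_edge h hi hD with h2 | h2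
    · exact ⟨_, (mem_mk' (Nat.lt_succ_self i)).1, h2⟩
    · exact ⟨_, (mem_mk' (Nat.lt_succ_self i)).2, h2⟩
  obtain ⟨b1, b2⟩ := not_inH he'
  have h2 : insert e (d.mk' i \ {s(u, v), s(u', v')}) ⊆ d.mk' (i + 1) \ {s(u, v), s(u', v')} := by
    refine insert_subset (mem_sdiff.2 ⟨he, b1⟩) (sdiff_subset_sdiff ?_ le_rfl)
    rw [mk'_succ]
    exact (subset_insert _ _).trans (subset_insert _ _)
  have h3 := card_le_card h2
  rw [card_insert_of_notMem fun hh => b2 (mem_sdiff.1 hh).1] at h3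
  omega

end Dat

section lists
variable {α : Type}

theorem Val_get (ok : List α → α → Prop) : ∀ (γ δ : List α), Val ok δ γ →
    ∀ (m : ℕ) (y : α), γ[m]? = some y → ok (δ ++ γ.take m) y := by
  intro γ
  induction γ with
  | nil => intro δ _ m y h; simp at h
  | cons a γ ih =>
    intro δ h m y hy
    cases m with
    | zero =>
      simp only [List.getElem?_cons_zero, Option.some.injEq] at hy
      subst hy
      simpa using h.1
    | succ m =>
      have := ih _ h.2 m y (by simpa using hy)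
      simpa using this

theorem nodeAt_lt (β ρ₁ ρ₂ : List α) {j : ℕ} (hj : j < β.length + ρ₁.length) :
    nodeAt β.length ρ₁.length (β ++ ρ₁ ++ ρ₂) j = (β ++ ρ₁).take j ∧
      (β ++ ρ₁ ++ ρ₂)[j]? = (β ++ ρ₁)[j]? := by
  have : j < (β ++ ρ₁).length := by simpa using hj
  exact ⟨by rw [nodeAt, if_pos hj, List.take_append_of_le_length this.le],
    List.getElem?_append_left this⟩

theorem nodeAt_ge (β ρ₁ ρ₂ : List α) (m : ℕ) :
    nodeAt β.length ρ₁.length (β ++ ρ₁ ++ ρ₂) (β.length + ρ₁.length + m) =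
      (β ++ ρ₂).take (β.length + m) ∧
      (β ++ ρ₁ ++ ρ₂)[β.length + ρ₁.length + m]? = (β ++ ρ₂)[β.length + m]? := by
  constructor
  · rw [nodeAt, if_neg (by omega), List.take_length_add_append, ← List.length_append,
      List.take_length_add_append, List.drop_left, List.append_assoc, List.take_left]
  · rw [List.getElem?_append_right (by simp), List.getElem?_append_right (by simp)]
    congr 1
    simp

theorem nodeAt_take (b l : ℕ) (σ : List α) {i j : ℕ} (hj : j ≤ i) :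
    nodeAt b l (σ.take i) j = nodeAt b l σ j := by
  unfold nodeAt
  rw [List.take_take, min_eq_left hj]
  split_ifs with h
  · rfl
  · rw [List.take_take, min_eq_left (by omega)]

theorem take_succ_of {γ : List α} {k : ℕ} {y : α} (h : γ[k]? = some y) :
    γ.take (k + 1) = γ.take k ++ [y] := by
  rw [List.take_add_one, h]
  rfl

/-- parent structure -/
theorem nodeAt_par (β ρ₁ ρ₂ : List α) (x : ℕ → α)
    (hx : ∀ j < (β ++ ρ₁ ++ ρ₂).length, (β ++ ρ₁ ++ ρ₂)[j]? = some (x j)) {j : ℕ}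
    (hj : j ≤ (β ++ ρ₁ ++ ρ₂).length) :
    nodeAt β.length ρ₁.length (β ++ ρ₁ ++ ρ₂) j = [] ∨
      ∃ k < j, nodeAt β.length ρ₁.length (β ++ ρ₁ ++ ρ₂) j =
        nodeAt β.length ρ₁.length (β ++ ρ₁ ++ ρ₂) k ++ [x k] := by
  have hlen : (β ++ ρ₁ ++ ρ₂).length = β.length + ρ₁.length + ρ₂.length := by simp [add_assoc]
  have low : ∀ k, k < β.length + ρ₁.length → (β ++ ρ₁).take (k + 1) =
      nodeAt β.length ρ₁.length (β ++ ρ₁ ++ ρ₂) k ++ [x k] := by
    intro k hk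
    obtain ⟨e1, e2⟩ := nodeAt_lt β ρ₁ ρ₂ hk
    rw [e1]
    exact take_succ_of (e2.symm.trans (hx k (by omega)))
  by_cases h : j < β.length + ρ₁.length
  · rw [(nodeAt_lt β ρ₁ ρ₂ h).1]
    cases j with
    | zero => left; simp
    | succ k => exact Or.inr ⟨k, by omega, low k (by omega)⟩
  · obtain ⟨m, rfl⟩ : ∃ m, j = β.length + ρ₁.length + m := ⟨j - (β.length + ρ₁.length), by omega⟩
    rw [(nodeAt_ge β ρ₁ ρ₂ m).1]
    cases m with
    | zero =>
      rw [add_zero, List.take_left]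
      rcases Nat.eq_zero_or_pos β.length with h0 | h0
      · exact Or.inl (List.length_eq_zero_iff.1 h0)
      · refine Or.inr ⟨β.length - 1, by omega, ?_⟩
        rw [← low _ (by omega), Nat.sub_add_cancel h0, List.take_left]
    | succ m =>
      refine Or.inr ⟨β.length + ρ₁.length + m, by omega, ?_⟩
      obtain ⟨e1, e2⟩ := nodeAt_ge β ρ₁ ρ₂ m
      rw [e1]
      exact take_succ_of (e2.symm.trans (hx _ (by omega)))

theorem nodeAt_sib (β ρ₁ ρ₂ : List α) (hh : ρ₁.head? ≠ ρ₂.head?) {j k : ℕ} (hjk : j < k)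
    (hk : k < (β ++ ρ₁ ++ ρ₂).length)
    (he : nodeAt β.length ρ₁.length (β ++ ρ₁ ++ ρ₂) j =
      nodeAt β.length ρ₁.length (β ++ ρ₁ ++ ρ₂) k) :
    (β ++ ρ₁ ++ ρ₂)[j]? ≠ (β ++ ρ₁ ++ ρ₂)[k]? := by
  have hlen : (β ++ ρ₁ ++ ρ₂).length = β.length + ρ₁.length + ρ₂.length := by simp [add_assoc]
  by_cases h2 : k < β.length + ρ₁.length
  · rw [(nodeAt_lt β ρ₁ ρ₂ h2).1, (nodeAt_lt β ρ₁ ρ₂ (hjk.trans h2)).1] at he
    have := congrArg List.length he
    simp only [List.length_take, List.length_append] at this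
    omega
  obtain ⟨m, rfl⟩ : ∃ m, k = β.length + ρ₁.length + m := ⟨k - (β.length + ρ₁.length), by omega⟩
  obtain ⟨e1, e2⟩ := nodeAt_ge β ρ₁ ρ₂ m
  rw [e1] at he
  rw [e2]
  by_cases h1 : j < β.length + ρ₁.length
  · obtain ⟨e3, e4⟩ := nodeAt_lt β ρ₁ ρ₂ h1
    rw [e3] at he
    rw [e4]
    have hl := congrArg List.length he
    simp only [List.length_take, List.length_append] at hl
    obtain rfl : j = β.length + m := by omega
    rw [List.take_length_add_append, List.take_length_add_append, List.append_cancel_left_eq] at he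
    cases m with
    | zero =>
      rw [List.getElem?_append_right (by simp), List.getElem?_append_right (by simp)]
      simpa [List.head?_eq_getElem?] using hh
    | succ m =>
      have := congrArg List.head? he
      rw [List.head?_take, List.head?_take, if_neg (by omega), if_neg (by omega)] at this
      exact absurd this hh
  · obtain ⟨m', rfl⟩ : ∃ m, j = β.length + ρ₁.length + m :=
      ⟨j - (β.length + ρ₁.length), by omega⟩
    rw [(nodeAt_ge β ρ₁ ρ₂ m').1] at he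
    have := congrArg List.length he
    simp only [List.length_take, List.length_append] at this
    omega

theorem nodeAt_ok (ok : List α → α → Prop) (β ρ₁ ρ₂ : List α) (h1 : Val ok [] (β ++ ρ₁))
    (h2 : Val ok [] (β ++ ρ₂)) (j : ℕ) (y : α) (hy : (β ++ ρ₁ ++ ρ₂)[j]? = some y) :
    ok (nodeAt β.length ρ₁.length (β ++ ρ₁ ++ ρ₂) j) y := by
  by_cases h : j < β.length + ρ₁.length
  · obtain ⟨e1, e2⟩ := nodeAt_lt β ρ₁ ρ₂ h
    rw [e1]
    simpa using Val_get ok _ _ h1 j y (e2.symm.trans hy)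
  · obtain ⟨m, rfl⟩ : ∃ m, j = β.length + ρ₁.length + m := ⟨j - (β.length + ρ₁.length), by omega⟩
    obtain ⟨e1, e2⟩ := nodeAt_ge β ρ₁ ρ₂ m
    rw [e1]
    simpa using Val_get ok _ _ h2 _ y (e2.symm.trans hy)

/-- the two end nodes are children through two different letters -/
theorem ends (β ρ₁ ρ₂ : List α) (x : ℕ → α)
    (hx : ∀ j < (β ++ ρ₁ ++ ρ₂).length, (β ++ ρ₁ ++ ρ₂)[j]? = some (x j))
    (hh : ρ₁.head? ≠ ρ₂.head?) (h1 : β ++ ρ₁ ≠ []) (h2 : β ++ ρ₂ ≠ []) :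
    ∃ j k, j ≠ k ∧ j < (β ++ ρ₁ ++ ρ₂).length ∧ k < (β ++ ρ₁ ++ ρ₂).length ∧
      β ++ ρ₁ = nodeAt β.length ρ₁.length (β ++ ρ₁ ++ ρ₂) j ++ [x j] ∧
      β ++ ρ₂ = nodeAt β.length ρ₁.length (β ++ ρ₁ ++ ρ₂) k ++ [x k] := by
  have hlen : (β ++ ρ₁ ++ ρ₂).length = β.length + ρ₁.length + ρ₂.length := by simp [add_assoc]
  have low : ∀ k, k < β.length + ρ₁.length → (β ++ ρ₁).take (k + 1) =
      nodeAt β.length ρ₁.length (β ++ ρ₁ ++ ρ₂) k ++ [x k] := by
    intro k hk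
    obtain ⟨e1, e2⟩ := nodeAt_lt β ρ₁ ρ₂ hk
    rw [e1]
    exact take_succ_of (e2.symm.trans (hx k (by omega)))
  have l1 : 0 < β.length + ρ₁.length := by
    rw [← List.length_append]; exact List.length_pos_iff.2 h1
  have l2 : 0 < β.length + ρ₂.length := by
    rw [← List.length_append]; exact List.length_pos_iff.2 h2
  have f1 : β ++ ρ₁ = nodeAt β.length ρ₁.length (β ++ ρ₁ ++ ρ₂) (β.length + ρ₁.length - 1) ++
      [x (β.length + ρ₁.length - 1)] := by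
    rw [← low _ (by omega), List.take_of_length_le (by simp; omega)]
  rcases Nat.eq_zero_or_pos ρ₂.length with h0 | h0
  · have l3 : 0 < ρ₁.length := by
      rcases Nat.eq_zero_or_pos ρ₁.length with h3 | h3
      · rw [List.length_eq_zero_iff] at h0 h3
        rw [h0, h3] at hh
        exact absurd rfl hh
      · exact h3
    refine ⟨_, β.length - 1, by omega, by omega, by omega, f1, ?_⟩
    rw [← low _ (by omega), Nat.sub_add_cancel (by omega), List.take_left,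
      List.length_eq_zero_iff.1 h0, List.append_nil]
  · refine ⟨_, β.length + ρ₁.length + (ρ₂.length - 1), by omega, by omega, by omega, f1, ?_⟩
    obtain ⟨e1, e2⟩ := nodeAt_ge β ρ₁ ρ₂ (ρ₂.length - 1)
    rw [e1, ← take_succ_of (e2.symm.trans (hx _ (by omega))),
      List.take_of_length_le (by simp; omega)]

end lists

theorem mem_piT {n : ℕ} (s0 : St n) (γ : List (Bool × Fin n)) (x : Bool × Fin n) (z : Fin n) :
    z ∈ piT s0 (γ ++ [x]) ↔ z = (run s0 γ x.1).1 ∨ z = (run s0 γ x.1).2.1 ∨ z = x.2 := by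
  simp only [piT, run_snoc, nxt, if_true, mem_insert, Option.toFinset_some, mem_singleton]
  tauto

end GeoA

open GeoA in
theorem geoa_proof : GeoAStmt := by
  classical
  intro n G u v u' v' β ρ₁ ρ₂ hG hD h1 h2 hh hn1 hn2 hpi
  set σ := β ++ ρ₁ ++ ρ₂ with hσ
  set s0 := root u v u' v' with hs0
  let x : ℕ → Bool × Fin n := fun j => (σ[j]?).getD (true, u)
  have hx : ∀ j < σ.length, σ[j]? = some (x j) := by
    intro j hj
    simp only [x, List.getElem?_eq_getElem hj, Option.getD_some]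
  let nd : ℕ → List (Bool × Fin n) := nodeAt β.length ρ₁.length σ
  have hok : ∀ j < σ.length, okG G s0 (nd j) (x j) := fun j hj =>
    nodeAt_ok _ β ρ₁ ρ₂ h1 h2 j _ (hx j hj)
  let d : Dat (Fin n) (List (Bool × Fin n)) σ.length u v u' v' :=
    { a := fun j => (run s0 (nd j) (x j).1).1
      a' := fun j => (run s0 (nd j) (x j).1).2.1
      w := fun j => (x j).2
      bk := fun j => (run s0 (nd j) (x j).1).2.2
      sd := fun j => (x j).1
      nd := nd
      rt := []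
      ch := fun k => nd k ++ [x k]
      par := by
        intro j hj
        rcases nodeAt_par β ρ₁ ρ₂ x hx hj.le with h | ⟨k, hk, h⟩
        · refine Or.inl ⟨h, ?_⟩
          have h' : nd j = [] := h
          rw [h']
          cases (x j).1
          · exact Or.inr ⟨rfl, rfl, rfl⟩
          · exact Or.inl ⟨rfl, rfl, rfl⟩
        · refine Or.inr ⟨k, hk, h, ?_⟩
          have h' : nd j = nd k ++ [x k] := h
          rw [h', run_snoc]
          cases (x j).1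
          · exact Or.inr ⟨rfl, rfl, rfl, rfl⟩
          · exact Or.inl ⟨rfl, rfl, rfl, rfl⟩
      ne := by
        intro j hj
        obtain ⟨e1, e2, e3, e4⟩ := hok j hj
        exact ⟨ne_of_mem hG e1, ne_of_mem hG e2, ne_of_mem hG e3, e4⟩
      sib := by
        intro j k hjk hk he hs hw
        refine nodeAt_sib β ρ₁ ρ₂ hh hjk hk he ?_
        rw [hx j (hjk.trans hk), hx k hk, Prod.ext hs hw] }
  have hex : ∃ i, i < σ.length ∧ d.Old i (d.w i) := by
    by_contra hc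
    have hF : d.Fresh σ.length := fun j hj ho => hc ⟨j, hj, ho⟩
    obtain ⟨j, k, hjk, hj, hk, e1, e2⟩ := ends β ρ₁ ρ₂ x hx hh hn1 hn2
    rw [e1, e2] at hpi
    rcases lt_or_gt_of_ne hjk with h | h
    · refine Dat.tri_ne hF h hk ((mem_piT s0 _ _ _).1 ?_)
      rw [hpi, mem_piT]
      exact Or.inr (Or.inr rfl)
    · refine Dat.tri_ne hF h hj ((mem_piT s0 _ _ _).1 ?_)
      rw [← hpi, mem_piT]
      exact Or.inr (Or.inr rfl)
  obtain ⟨hi, hold⟩ := Nat.find_spec hex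
  set i := Nat.find hex with hidef
  have hF : d.Fresh i := fun j hj ho => Nat.find_min hex hj ⟨hj.trans hi, ho⟩
  refine ⟨i, x i, hx i hi, ?_, ?_⟩
  · rcases hold with h | h | h | h | ⟨k, hk, h⟩
    · exact Or.inl h
    · exact Or.inr (Or.inl h)
    · exact Or.inr (Or.inr (Or.inl h))
    · exact Or.inr (Or.inr (Or.inr (Or.inl h)))
    · refine Or.inr (Or.inr (Or.inr (Or.inr ⟨x k, ?_, h⟩)))
      exact List.mem_iff_getElem?.2 ⟨k, by rw [List.getElem?_take_of_lt hk, hx k (hk.trans hi)]⟩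
  · refine (Dat.card_ge' hF hi hD).trans (card_le_card (sdiff_subset_sdiff ?_ le_rfl))
    intro e he
    simp only [Dat.mk', mem_biUnion, mem_range] at he
    obtain ⟨j, hj, he⟩ := he
    have hjl : j < (σ.take (i + 1)).length := by
      rw [List.length_take]; omega
    refine mem_biUnion.2 ⟨⟨j, hjl⟩, mem_univ _, ?_⟩
    have e1 : (σ.take (i + 1)).get ⟨j, hjl⟩ = x j := by
      have := List.getElem?_take_of_lt (l := σ) hj
      rw [hx j (by omega), List.getElem?_eq_getElem hjl] at this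
      exact Option.some.inj this
    rw [e1, nodeAt_take _ _ _ hj.le]
    exact he

end Crest.Agent.R30
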