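import Crest.Agent.R30.Basic

/-! # Row 30, task GEO: counting colliding pairs of nodes -/

set_option autoImplicit false

namespace Crest.Agent.R30

open Crest.CombinatoricsR.TriangleRemoval Finset

namespace GeoB

section Lists

variable {α : Type}

/-- Admissibility along the concatenation `β ++ ρ₁ ++ ρ₂`. -/
def okp (ok : List α → α → Prop) (b l₁ : ℕ) : List α → α → Prop :=
  fun τ x => ok (nodeAt b l₁ τ τ.length) x

theorem val_first (ok : List α → α → Prop) (b l₁ : ℕ) : ∀ (ρ γ : List α),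
    γ.length + ρ.length ≤ b + l₁ → Val ok γ ρ → Val (okp ok b l₁) γ ρ := by
  intro ρ
  induction ρ with
  | nil => intro γ _ _; trivial
  | cons a ρ ih =>
    intro γ h hv
    simp only [List.length_cons] at h
    refine ⟨?_, ih _ (by simp; omega) hv.2⟩
    unfold okp nodeAt
    rw [if_pos (by omega), List.take_length]
    exact hv.1

theorem val_second (ok : List α → α → Prop) (β ρ₁ : List α) : ∀ (ρ ρ' : List α),
    Val ok (β ++ ρ') ρ → Val (okp ok β.length ρ₁.length) (β ++ ρ₁ ++ ρ') ρ := by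
  intro ρ
  induction ρ with
  | nil => intro γ _; trivial
  | cons a ρ ih =>
    intro ρ' hv
    refine ⟨?_, ?_⟩
    · unfold okp nodeAt
      rw [if_neg (by simp), List.take_length]
      have h1 : (β ++ ρ₁ ++ ρ').take β.length = β := by
        rw [List.append_assoc, List.take_left]
      have h2 : (β ++ ρ₁ ++ ρ').drop (β.length + ρ₁.length) = ρ' := by
        rw [← List.length_append, List.drop_left]
      rw [h1, h2]
      exact hv.1
    · have := ih (ρ' ++ [a]) (by rw [← List.append_assoc]; exact hv.2)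
      rwa [← List.append_assoc] at this

theorem val_cat (ok : List α → α → Prop) (β ρ₁ ρ₂ : List α) (h1 : Val ok [] (β ++ ρ₁))
    (h2 : Val ok [] (β ++ ρ₂)) : Val (okp ok β.length ρ₁.length) [] (β ++ ρ₁ ++ ρ₂) := by
  rw [Val_append]
  refine ⟨val_first ok _ _ _ _ (by simp) h1, ?_⟩
  have h3 := ((Val_append ok β ρ₂ []).1 h2).2
  have := val_second ok β ρ₁ ρ₂ [] (by simpa using h3)
  simpa using this

theorem val_get (ok : List α → α → Prop) : ∀ (ρ γ : List α), Val ok γ ρ →
    ∀ i : Fin ρ.length, ok (γ ++ ρ.take i) (ρ.get i) := by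
  intro ρ
  induction ρ with
  | nil => intro γ _ i; exact i.elim0
  | cons a ρ ih =>
    intro γ hv i
    refine Fin.cases ?_ (fun i => ?_) i
    · simpa using hv.1
    · have := ih _ hv.2 i
      simpa using this

theorem nodeAt_take (b l₁ : ℕ) (σ : List α) (i : ℕ) (hi : i ≤ σ.length) :
    nodeAt b l₁ (σ.take i) (σ.take i).length = nodeAt b l₁ σ i := by
  have h : (σ.take i).length = i := by simp [hi]
  rw [h]
  unfold nodeAt
  split_ifs with h1
  · rw [List.take_take, min_self]
  · rw [List.take_take, List.take_take, min_self, min_eq_left (by omega)]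

open Classical in
theorem cnt_val [Fintype α] (ok : List α → α → Prop) (m : ℝ) (hm : 0 ≤ m)
    (h : ∀ τ, ∑ x, (if ok τ x then (1 : ℝ) else 0) ≤ m) (k : ℕ) : ∀ τ : List α,
    ∑ ρ ∈ LL α k, (if Val ok τ ρ then (1 : ℝ) else 0) ≤ m ^ k := by
  induction k with
  | zero =>
    intro τ
    rw [LL_zero, Finset.sum_singleton, pow_zero]
    split_ifs <;> norm_num
  | succ k ih =>
    intro τ
    rw [sum_LL_succ]
    calc ∑ a, ∑ σ ∈ LL α k, (if Val ok τ (a :: σ) then (1 : ℝ) else 0)
        ≤ ∑ a, (if ok τ a then (1 : ℝ) else 0) * m ^ k := by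
          refine Finset.sum_le_sum fun a _ => ?_
          by_cases ha : ok τ a
          · rw [if_pos ha, one_mul]
            refine le_trans (le_of_eq ?_) (ih (τ ++ [a]))
            refine Finset.sum_congr rfl fun σ _ => ?_
            simp [Val, ha]
          · simp [Val, ha]
      _ ≤ m * m ^ k := by
          rw [← Finset.sum_mul]
          exact mul_le_mul_of_nonneg_right (h τ) (by positivity)
      _ = m ^ (k + 1) := by ring

theorem sum_LL_add [Fintype α] (k l : ℕ) (f : List α → ℝ) :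
    ∑ σ ∈ LL α (k + l), f σ = ∑ τ ∈ LL α k, ∑ ρ ∈ LL α l, f (τ ++ ρ) := by
  induction l generalizing f with
  | zero => simp [LL_zero]
  | succ l ih =>
    rw [← add_assoc, sum_LL_succ_snoc, ih]
    refine Finset.sum_congr rfl fun τ _ => ?_
    rw [sum_LL_succ_snoc]
    simp only [List.append_assoc]

open Classical in
theorem cntT_le [Fintype α] {τ : Type} (ok : List α → α → Prop) (π : List α → τ) (b l₁ l₂ : ℕ)
    (P : List α → Prop)
    (hP : ∀ β ρ₁ ρ₂ : List α, β.length = b → ρ₁.length = l₁ → Val ok [] (β ++ ρ₁) →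
      Val ok [] (β ++ ρ₂) → ρ₁.head? ≠ ρ₂.head? → β ++ ρ₁ ≠ [] → β ++ ρ₂ ≠ [] →
      π (β ++ ρ₁) = π (β ++ ρ₂) → P (β ++ ρ₁ ++ ρ₂)) :
    (cntT ok π b l₁ l₂ : ℝ) ≤
      ∑ σ ∈ LL α (b + l₁ + l₂), (if Val (okp ok b l₁) [] σ ∧ P σ then (1 : ℝ) else 0) := by
  rw [sum_LL_add, sum_LL_add, cntT, Finset.card_filter]
  push_cast
  rw [Finset.sum_product]
  refine Finset.sum_le_sum fun β hβ => ?_
  rw [Finset.sum_product]
  refine Finset.sum_le_sum fun ρ₁ hρ₁ => Finset.sum_le_sum fun ρ₂ _ => ?_
  rw [mem_LL] at hβ hρ₁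
  dsimp only
  split_ifs with h1 h2
  · exact le_rfl
  · exfalso
    apply h2
    obtain ⟨a1, a2, a3, a4, a5, a6⟩ := h1
    refine ⟨?_, hP β ρ₁ ρ₂ hβ hρ₁ a1 a2 a3 a4 a5 a6⟩
    rw [← hβ, ← hρ₁]
    exact val_cat ok β ρ₁ ρ₂ a1 a2
  · norm_num
  · exact le_rfl

end Lists

variable {n : ℕ}

open Classical in
theorem adm_le {G : Gr n} {D : ℝ} (hD : 0 < D) (hG : Reg G D 1) (s0 : St n)
    (γ : List (Bool × Fin n)) : ∑ x, (if okG G s0 γ x then (1 : ℝ) else 0) ≤ 4 * D := by
  have key : ∀ e : Ed n, ∑ w, (if okE G e w then (1 : ℝ) else 0) ≤ 2 * D := by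
    intro e
    by_cases he : s(e.1, e.2.1) ∈ G
    · have h1 := Y_le hD hG (ne_of_mem hG.1 he)
      refine le_trans ?_ (h1.trans (le_of_eq (by ring)))
      refine Finset.sum_le_sum fun w _ => ?_
      split_ifs with h
      · rw [A_of_mem h.2.1, A_of_mem h.2.2.1]; norm_num
      · exact mul_nonneg (A_nonneg _ _ _) (A_nonneg _ _ _)
    · have : ∀ w, ¬ okE G e w := fun w h => he h.1
      simp only [this, if_false, Finset.sum_const_zero]
      linarith
  rw [Fintype.sum_prod_type, Fintype.sum_bool]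
  have h1 := key (run s0 γ true)
  have h2 := key (run s0 γ false)
  unfold okG
  dsimp only
  linarith

theorem made_sub {G : Gr n} (s0 : St n) (b l₁ : ℕ) (σ : List (Bool × Fin n))
    (h : Val (okp (okG G s0) b l₁) [] σ) : madeE s0 b l₁ σ ⊆ G := by
  unfold madeE
  refine Finset.biUnion_subset.2 fun i _ => ?_
  have h1 := val_get _ σ [] h i
  unfold okp at h1
  rw [List.nil_append, nodeAt_take b l₁ σ i i.2.le] at h1
  intro e he
  simp only [Finset.mem_insert, Finset.mem_singleton] at he
  rcases he with rfl | rfl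
  · exact h1.2.1
  · exact h1.2.2.1

/-- The last vertex of the prefix is old. -/
def old (u v u' v' : Fin n) (i : ℕ) (τ : List (Bool × Fin n)) : Prop :=
  ∃ x, τ[i]? = some x ∧
    (x.2 = u ∨ x.2 = v ∨ x.2 = u' ∨ x.2 = v' ∨ ∃ y ∈ τ.take i, y.2 = x.2)

/-- Good prefixes (independent of the graph). -/
def gd (u v u' v' : Fin n) (b l₁ i : ℕ) (τ : List (Bool × Fin n)) : Prop :=
  old u v u' v' i τ ∧
    2 * i + 1 ≤ (madeE (root u v u' v') b l₁ τ \ {s(u, v), s(u', v')}).card

open Classical in
theorem cnt_old (u v u' v' : Fin n) (i : ℕ) :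
    ∑ τ ∈ LL (Bool × Fin n) (i + 1), (if old u v u' v' i τ then (1 : ℝ) else 0) ≤
      (2 * n) ^ i * (2 * (i + 4)) := by
  rw [sum_LL_succ_snoc]
  have key : ∀ τ ∈ LL (Bool × Fin n) i,
      ∑ x, (if old u v u' v' i (τ ++ [x]) then (1 : ℝ) else 0) ≤ 2 * (i + 4) := by
    intro τ hτ
    rw [mem_LL] at hτ
    set S : Finset (Fin n) := (u :: v :: u' :: v' :: τ.map Prod.snd).toFinset with hS
    have hc : (S.card : ℝ) ≤ i + 4 := by
      have := List.toFinset_card_le (u :: v :: u' :: v' :: τ.map Prod.snd)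
      simp only [List.length_cons, List.length_map, hτ] at this
      have h2 : S.card ≤ i + 4 := by rw [hS]; omega
      exact_mod_cast h2
    calc ∑ x, (if old u v u' v' i (τ ++ [x]) then (1 : ℝ) else 0)
        ≤ ∑ x : Bool × Fin n, (if x.2 ∈ S then (1 : ℝ) else 0) := by
          refine Finset.sum_le_sum fun x _ => ?_
          split_ifs with h1 h2
          · exact le_rfl
          · exfalso
            apply h2
            obtain ⟨y, hy, h⟩ := h1
            have e1 : (τ ++ [x])[i]? = some x := by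
              rw [← hτ]; simp
            have e2 : (τ ++ [x]).take i = τ := by
              rw [← hτ, List.take_left]
            rw [e1] at hy
            obtain rfl : x = y := Option.some.inj hy
            rw [e2] at h
            rw [hS]
            simp only [List.toFinset_cons, Finset.mem_insert, List.mem_toFinset, List.mem_map]
            exact h
          · norm_num
          · exact le_rfl
      _ = 2 * S.card := by
          rw [Fintype.sum_prod_type, Fintype.sum_bool]
          simp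
          ring
      _ ≤ 2 * (i + 4) := by linarith
  calc _ ≤ ∑ _τ ∈ LL (Bool × Fin n) i, (2 * ((i : ℝ) + 4)) := Finset.sum_le_sum key
    _ = _ := by
        rw [Finset.sum_const, card_LL, nsmul_eq_mul]
        simp

open Classical in
theorem cnt_main (hA : GeoAStmt) {G : Gr n} {D : ℝ} (hD : 0 < D) (hG : Reg G D 1)
    {u v u' v' : Fin n} (h4 : Dist4 u v u' v') (b l₁ l₂ : ℕ) :
    (cntT (okG G (root u v u' v')) (piT (root u v u' v')) b l₁ l₂ : ℝ) ≤
      ∑ i ∈ range (b + l₁ + l₂), ∑ τ ∈ LL (Bool × Fin n) (i + 1),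
        (if gd u v u' v' b l₁ i τ ∧ madeE (root u v u' v') b l₁ τ ⊆ G then (1 : ℝ) else 0) *
          (4 * D) ^ (b + l₁ + l₂ - (i + 1)) := by
  refine (cntT_le _ _ b l₁ l₂ (fun σ => ∃ i < σ.length, gd u v u' v' b l₁ i (σ.take (i + 1)))
    ?_).trans ?_
  · intro β ρ₁ ρ₂ hβ hρ a1 a2 a3 a4 a5 a6
    obtain ⟨i, x, hx, ho, hc⟩ := hA n G u v u' v' β ρ₁ ρ₂ hG.1 h4 a1 a2 a3 a4 a5 a6
    have hi : i < (β ++ ρ₁ ++ ρ₂).length := by
      by_contra hcon
      rw [List.getElem?_eq_none (by omega)] at hx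
      cases hx
    refine ⟨i, hi, ⟨x, ?_, ?_⟩, ?_⟩
    · rw [List.getElem?_take, if_pos (Nat.lt_succ_self i), hx]
    · rw [List.take_take, min_eq_left (Nat.le_succ i)]
      exact ho
    · rw [← hβ, ← hρ]
      exact hc
  set Λ := b + l₁ + l₂ with hΛ
  set ok' := okp (okG G (root u v u' v')) b l₁ with hok
  calc _ ≤ ∑ σ ∈ LL (Bool × Fin n) Λ, ∑ i ∈ range Λ,
          (if Val ok' [] σ ∧ gd u v u' v' b l₁ i (σ.take (i + 1)) then (1 : ℝ) else 0) := by
        refine Finset.sum_le_sum fun σ hσ => ?_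
        rw [mem_LL] at hσ
        have hnn : ∀ i ∈ range Λ, (0 : ℝ) ≤
            (if Val ok' [] σ ∧ gd u v u' v' b l₁ i (σ.take (i + 1)) then (1 : ℝ) else 0) := by
          intro i _
          split_ifs <;> norm_num
        split_ifs with h
        · obtain ⟨hv, i, hi, hg⟩ := h
          have := Finset.single_le_sum hnn (Finset.mem_range.2 (hσ ▸ hi))
          rwa [if_pos ⟨hv, hg⟩] at this
        · exact Finset.sum_nonneg hnn
    _ = ∑ i ∈ range Λ, ∑ σ ∈ LL (Bool × Fin n) Λ,
          (if Val ok' [] σ ∧ gd u v u' v' b l₁ i (σ.take (i + 1)) then (1 : ℝ) else 0) :=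
        Finset.sum_comm
    _ ≤ _ := by
        refine Finset.sum_le_sum fun i hi => ?_
        have hi' := Finset.mem_range.1 hi
        have e : Λ = (i + 1) + (Λ - (i + 1)) := by omega
        conv_lhs => rw [e]
        rw [sum_LL_add]
        refine Finset.sum_le_sum fun τ hτ => ?_
        rw [mem_LL] at hτ
        have hcv := cnt_val ok' (4 * D) (by positivity)
          (fun τ => adm_le hD hG (root u v u' v') _) (Λ - (i + 1)) τ
        have e2 : ∀ ρ : List (Bool × Fin n), (τ ++ ρ).take (i + 1) = τ := by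
          intro ρ; rw [← hτ, List.take_left]
        simp only [e2]
        split_ifs with h
        · rw [one_mul]
          refine le_trans (Finset.sum_le_sum fun ρ _ => ?_) hcv
          split_ifs with h1 h2
          · exact le_rfl
          · exact absurd ((Val_append ok' τ ρ []).1 h1.1).2 (by simpa using h2)
          · norm_num
          · exact le_rfl
        · rw [zero_mul]
          refine le_of_eq (Finset.sum_eq_zero fun ρ _ => ?_)
          rw [if_neg]
          rintro ⟨h1, h2⟩
          exact h ⟨h2, made_sub _ b l₁ τ ((Val_append ok' τ ρ []).1 h1).1⟩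

open Classical in
theorem surv {ν : Gr n → ℝ} {κ pt : ℝ} {fl : Bool} {Λ : ℕ} (hν : ∀ G, 0 ≤ ν G)
    (hF : ∀ F : Gr n, F.card ≤ 2 * Λ + 3 →
      ∑ G, ν G * (if F ⊆ G then 1 else 0) ≤ κ * pt ^ F.card)
    {u v u' v' : Fin n} (h4 : Dist4 u v u' v') (b l₁ i : ℕ) (hi : i < Λ)
    (τ : List (Bool × Fin n)) (hg : gd u v u' v' b l₁ i τ) :
    ∑ G, ν G * (if (s(u, v) ∈ G ∧ (fl = true → s(u', v') ∈ G)) ∧
        madeE (root u v u' v') b l₁ τ ⊆ G then (1 : ℝ) else 0) ≤
      κ * (pt ^ (2 * i) * pt ^ (if fl then 3 else 2)) := by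
  obtain ⟨F0, hF0, hc0⟩ := Finset.exists_subset_card_eq hg.2
  have hne : s(u, v) ≠ s(u', v') := by
    intro h
    rcases Sym2.eq_iff.1 h with h | h
    · exact h4.2.1 h.1
    · exact h4.2.2.1 h.1
  have n1 : s(u, v) ∉ F0 := fun h => by simpa using (Finset.mem_sdiff.1 (hF0 h)).2
  have n2 : s(u', v') ∉ F0 := fun h => by simpa using (Finset.mem_sdiff.1 (hF0 h)).2
  have hsub : F0 ⊆ madeE (root u v u' v') b l₁ τ := hF0.trans Finset.sdiff_subset
  obtain ⟨F, hc, hFs⟩ : ∃ F : Gr n, F.card = 2 * i + (if fl then 3 else 2) ∧ ∀ G : Gr n,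
      (s(u, v) ∈ G ∧ (fl = true → s(u', v') ∈ G)) ∧ madeE (root u v u' v') b l₁ τ ⊆ G →
        F ⊆ G := by
    cases fl
    · refine ⟨insert s(u, v) F0, by rw [Finset.card_insert_of_notMem n1, hc0]; simp, ?_⟩
      intro G h
      exact Finset.insert_subset h.1.1 (hsub.trans h.2)
    · refine ⟨insert s(u, v) (insert s(u', v') F0), ?_, ?_⟩
      · rw [Finset.card_insert_of_notMem (by simp [hne, n1]), Finset.card_insert_of_notMem n2,
          hc0]
        simp
      · intro G h
        exact Finset.insert_subset h.1.1 (Finset.insert_subset (h.1.2 rfl) (hsub.trans h.2))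
  have h1 := hF F (by rw [hc]; split_ifs <;> omega)
  rw [hc, pow_add] at h1
  refine le_trans (Finset.sum_le_sum fun G _ => mul_le_mul_of_nonneg_left ?_ (hν G)) h1
  split_ifs with a1 a2
  · exact le_rfl
  · exact absurd (hFs G a1) a2
  · norm_num
  · exact le_rfl

end GeoB

open GeoB Classical in
theorem geo_proof (hA : GeoAStmt) : GeoStmt := by
  refine ⟨?_, ?_⟩
  · intro n G D s0 b l₁ l₂ hD hG
    refine (cntT_le _ _ b l₁ l₂ (fun _ => True) (fun _ _ _ _ _ _ _ _ _ _ _ => trivial)).trans ?_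
    simp only [and_true]
    exact cnt_val _ (4 * D) (by positivity) (fun τ => adm_le hD hG s0 _) _ []
  intro n ν D κ pt fl b l₁ l₂ hD hκ hpt hnp hν hreg hF
  have hD0 : 0 < D := by linarith
  set Λ := b + l₁ + l₂ with hΛ
  set c : ℝ := κ * pt ^ (if fl then 3 else 2) * (4 * D) ^ Λ * ((Λ : ℝ) * ((Λ : ℝ) + 4)) with hc
  have hc0 : 0 ≤ c := by positivity
  have key : ∀ u v u' v' : Fin n, ∑ G, ν G *
      (if Dist4 u v u' v' ∧ s(u, v) ∈ G ∧ (fl = true → s(u', v') ∈ G) then
        (cntT (okG G (root u v u' v')) (piT (root u v u' v')) b l₁ l₂ : ℝ) else 0) ≤ c := by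
    intro u v u' v'
    by_cases h4 : Dist4 u v u' v'
    swap
    · simpa [h4] using hc0
    calc _ ≤ ∑ G, ∑ i ∈ range Λ, ∑ τ ∈ LL (Bool × Fin n) (i + 1),
          (if gd u v u' v' b l₁ i τ then (1 : ℝ) else 0) * (4 * D) ^ (Λ - (i + 1)) *
            (ν G * (if (s(u, v) ∈ G ∧ (fl = true → s(u', v') ∈ G)) ∧
              madeE (root u v u' v') b l₁ τ ⊆ G then (1 : ℝ) else 0)) := by
          refine Finset.sum_le_sum fun G _ => ?_
          by_cases h0 : ν G = 0
          · simp [h0]
          by_cases h1 : s(u, v) ∈ G ∧ (fl = true → s(u', v') ∈ G)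
          · rw [if_pos ⟨h4, h1⟩]
            refine (mul_le_mul_of_nonneg_left (cnt_main hA hD0 (hreg G h0) h4 b l₁ l₂)
              (hν G)).trans (le_of_eq ?_)
            rw [Finset.mul_sum]
            refine Finset.sum_congr rfl fun i _ => ?_
            rw [Finset.mul_sum]
            refine Finset.sum_congr rfl fun τ _ => ?_
            by_cases a2 : madeE (root u v u' v') b l₁ τ ⊆ G
            · rw [if_pos (And.intro h1 a2)]
              by_cases a1 : gd u v u' v' b l₁ i τ <;> simp [a1, a2, mul_comm, hΛ]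
            · simp [a2]
          · rw [if_neg (fun h => h1 h.2)]
            simp [h1]
      _ = ∑ i ∈ range Λ, ∑ τ ∈ LL (Bool × Fin n) (i + 1),
          (if gd u v u' v' b l₁ i τ then (1 : ℝ) else 0) * (4 * D) ^ (Λ - (i + 1)) *
            ∑ G, (ν G * (if (s(u, v) ∈ G ∧ (fl = true → s(u', v') ∈ G)) ∧
              madeE (root u v u' v') b l₁ τ ⊆ G then (1 : ℝ) else 0)) := by
          rw [Finset.sum_comm]
          refine Finset.sum_congr rfl fun i _ => ?_
          rw [Finset.sum_comm]
          refine Finset.sum_congr rfl fun τ _ => ?_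
          rw [Finset.mul_sum]
      _ ≤ ∑ i ∈ range Λ, ∑ τ ∈ LL (Bool × Fin n) (i + 1),
          (if old u v u' v' i τ then (1 : ℝ) else 0) * ((4 * D) ^ (Λ - (i + 1)) *
            (κ * (pt ^ (2 * i) * pt ^ (if fl then 3 else 2)))) := by
          refine Finset.sum_le_sum fun i hi => Finset.sum_le_sum fun τ _ => ?_
          by_cases a1 : gd u v u' v' b l₁ i τ
          · rw [if_pos a1, if_pos a1.1, one_mul, one_mul]
            exact mul_le_mul_of_nonneg_left
              (surv hν hF h4 b l₁ i (Finset.mem_range.1 hi) τ a1) (by positivity)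
          · rw [if_neg a1, zero_mul, zero_mul]
            refine mul_nonneg ?_ (by positivity)
            split_ifs <;> norm_num
      _ ≤ ∑ _i ∈ range Λ, κ * pt ^ (if fl then 3 else 2) * (4 * D) ^ Λ * ((Λ : ℝ) + 4) := by
          refine Finset.sum_le_sum fun i hi => ?_
          have hi' := Finset.mem_range.1 hi
          rw [← Finset.sum_mul]
          refine (mul_le_mul_of_nonneg_right (cnt_old u v u' v' i) (by positivity)).trans ?_
          have e1 : (4 * D) ^ Λ = (4 * D) ^ i * (4 * D) * (4 * D) ^ (Λ - (i + 1)) := by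
            rw [← pow_succ, ← pow_add]; congr 1; omega
          have e2 : (2 * (n : ℝ)) ^ i * pt ^ (2 * i) ≤ (4 * D) ^ i := by
            rw [pow_mul, ← mul_pow]
            exact pow_le_pow_left₀ (by positivity) (by linarith) i
          have e3 : 2 * ((i : ℝ) + 4) ≤ 4 * D * ((Λ : ℝ) + 4) := by
            have : (i : ℝ) ≤ Λ := by exact_mod_cast hi'.le
            have h0 : (0 : ℝ) ≤ i := Nat.cast_nonneg i
            nlinarith
          calc (2 * (n : ℝ)) ^ i * (2 * (i + 4)) * ((4 * D) ^ (Λ - (i + 1)) *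
                (κ * (pt ^ (2 * i) * pt ^ (if fl then 3 else 2))))
              = ((2 * (n : ℝ)) ^ i * pt ^ (2 * i)) * (2 * (i + 4)) * ((4 * D) ^ (Λ - (i + 1)) *
                (κ * pt ^ (if fl then 3 else 2))) := by ring
            _ ≤ (4 * D) ^ i * (4 * D * ((Λ : ℝ) + 4)) * ((4 * D) ^ (Λ - (i + 1)) *
                (κ * pt ^ (if fl then 3 else 2))) :=
                mul_le_mul_of_nonneg_right (mul_le_mul e2 e3 (by positivity) (by positivity))
                  (by positivity)
            _ = _ := by rw [e1]; ring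
      _ = c := by
          rw [Finset.sum_const, Finset.card_range, nsmul_eq_mul, hc]; ring
  calc _ = ∑ u, ∑ v, ∑ u', ∑ v', ∑ G, ν G *
        (if Dist4 u v u' v' ∧ s(u, v) ∈ G ∧ (fl = true → s(u', v') ∈ G) then
          (cntT (okG G (root u v u' v')) (piT (root u v u' v')) b l₁ l₂ : ℝ) else 0) := by
        simp only [rsum, Finset.mul_sum]
        rw [Finset.sum_comm]
        refine Finset.sum_congr rfl fun u _ => ?_
        rw [Finset.sum_comm]
        refine Finset.sum_congr rfl fun v _ => ?_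
        rw [Finset.sum_comm]
        refine Finset.sum_congr rfl fun u' _ => ?_
        rw [Finset.sum_comm]
    _ ≤ ∑ _u : Fin n, ∑ _v : Fin n, ∑ _u' : Fin n, ∑ _v' : Fin n, c :=
        Finset.sum_le_sum fun u _ => Finset.sum_le_sum fun v _ => Finset.sum_le_sum fun u' _ =>
          Finset.sum_le_sum fun v' _ => key u v u' v'
    _ = _ := by
        simp only [Finset.sum_const, Finset.card_univ, Fintype.card_fin, nsmul_eq_mul, hc]
        ring

end Crest.Agent.R30
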