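import Crest.Agent.R30.Basic

/-! # R30 LINK: the exploration tree and the survival of edges -/

set_option autoImplicit false

namespace Crest.Agent.R30

open Finset

namespace LinkA

variable {n : ℕ} {G : Gr n} {s0 : St n}

theorem run_true (γ : List (Bool × Fin n)) (x : Bool × Fin n) :
    run s0 (γ ++ [x]) true = ((run s0 γ x.1).1, x.2, some (run s0 γ x.1).2.1) := by
  rw [run_snoc]; rfl

theorem run_false (γ : List (Bool × Fin n)) (x : Bool × Fin n) :
    run s0 (γ ++ [x]) false = (x.2, (run s0 γ x.1).2.1, some (run s0 γ x.1).1) := by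
  rw [run_snoc]; rfl

theorem piT_snoc (γ : List (Bool × Fin n)) (x : Bool × Fin n) :
    piT s0 (γ ++ [x]) = {(run s0 γ x.1).1, (run s0 γ x.1).2.1, x.2} := by
  rw [piT, run_true, pair_comm _ x.2]; rfl

theorem ja (c : Finset (Fin n) → ℕ) (k : ℕ) : ∀ γ : List (Bool × Fin n),
    (∀ b z, (run s0 γ b).2.2 = some z → k ≤ c {(run s0 γ b).1, (run s0 γ b).2.1, z}) →
    (JA (okG G s0) (fun l => c (piT s0 l)) k γ ↔
      ∀ b, s((run s0 γ b).1, (run s0 γ b).2.1) ∈ G → al G c k (run s0 γ b).1 (run s0 γ b).2.1) := by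
  induction k with
  | zero => exact fun _ _ => ⟨fun _ _ _ => trivial, fun _ => trivial⟩
  | succ k ih =>
    intro γ h
    have key : ∀ x : Bool × Fin n, s((run s0 γ x.1).1, x.2) ∈ G → s((run s0 γ x.1).2.1, x.2) ∈ G →
        c {(run s0 γ x.1).1, (run s0 γ x.1).2.1, x.2} = k →
        (JA (okG G s0) (fun l => c (piT s0 l)) k (γ ++ [x]) ↔
          al G c k (run s0 γ x.1).1 x.2 ∧ al G c k x.2 (run s0 γ x.1).2.1) := by
      intro x h1 h2 h3
      rw [ih, Bool.forall_bool, run_true, run_false, and_comm]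
      · rw [Sym2.eq_swap] at h2
        simp only [h1, h2, true_imp_iff]
      · rw [Bool.forall_bool, run_true, run_false]
        simp only [Option.some.injEq, forall_eq']
        rw [← h3]
        constructor <;> refine le_of_eq (congrArg c ?_) <;> ext z <;> simp <;> tauto
    rw [JA, ih γ fun b z e => (Nat.le_succ k).trans (h b z e)]
    constructor
    · rintro ⟨h1, h2⟩ b hb
      refine ⟨h1 b hb, fun w a1 a2 a3 => ?_⟩
      rw [← key (b, w) a1 a2 a3]
      refine h2 (b, w) ⟨hb, a1, a2, fun e => ?_⟩ (by rw [piT_snoc]; exact a3)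
      have := h b w e.symm
      omega
    · refine fun H => ⟨fun b hb => (H b hb).1, fun x hx e => ?_⟩
      rw [piT_snoc] at e
      rw [key x hx.2.1 hx.2.2.1 e]
      exact (H x.1 hx.1).2 x.2 hx.2.1 hx.2.2.1 e

theorem qf {a : ℕ → ℝ} {k : ℕ} (H : ∀ γ x, okG G s0 γ x →
      Uf (okG G s0) a k (γ ++ [x]) = uu G a k (run s0 γ x.1).1 (run s0 γ x.1).2.1 x.2)
    (γ : List (Bool × Fin n)) :
    Qf (okG G s0) a k γ = ∏ b, if s((run s0 γ b).1, (run s0 γ b).2.1) ∈ G then
      qq G a k (run s0 γ b).1 (run s0 γ b).2.1 (run s0 γ b).2.2 else 1 := by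
  classical
  unfold Qf
  rw [prod_congr rfl fun x hx => by rw [H γ x (mem_filter.1 hx).2], prod_filter,
    Fintype.prod_prod_type]
  refine prod_congr rfl fun b _ => ?_
  split_ifs with h
  · rw [qq, cn, prod_filter]
    refine prod_congr rfl fun z _ => if_congr ?_ rfl rfl
    simp only [okG, okE, h, true_and]
  · exact prod_eq_one fun z _ => if_neg fun e => h e.1

theorem qf' {a : ℕ → ℝ} {k : ℕ} (H : ∀ γ x, okG G s0 γ x →
      Uf (okG G s0) a k (γ ++ [x]) = uu G a k (run s0 γ x.1).1 (run s0 γ x.1).2.1 x.2)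
    {γ : List (Bool × Fin n)} {x : Bool × Fin n} (hx : okG G s0 γ x) :
    Qf (okG G s0) a k (γ ++ [x]) = qq G a k (run s0 γ x.1).1 x.2 (some (run s0 γ x.1).2.1) *
      qq G a k x.2 (run s0 γ x.1).2.1 (some (run s0 γ x.1).1) := by
  rw [qf H, Fintype.prod_bool, run_true, run_false, if_pos hx.2.1,
    if_pos (Sym2.eq_swap ▸ hx.2.2.1)]

theorem uf (a : ℕ → ℝ) (k : ℕ) : ∀ γ x, okG G s0 γ x →
    Uf (okG G s0) a k (γ ++ [x]) = uu G a k (run s0 γ x.1).1 (run s0 γ x.1).2.1 x.2 := by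
  induction k with
  | zero => exact fun _ _ _ => rfl
  | succ k ih =>
    intro γ x hx
    show Uf _ a k _ + a k * Qf _ a k _ = _
    rw [qf' ih hx, ih γ x hx]
    rfl

end LinkA

open LinkA in
theorem link_proof : LinkStmt := by
  intro n G u v u' v'
  refine ⟨fun c N => ?_, fun a => ⟨fun k => ?_, fun γ hγ hv => ?_⟩⟩
  · rw [ja c N [] (by intro b z h; cases b <;> simp [run, root] at h), Bool.forall_bool, and_comm]
    rfl
  · rw [qf (uf a k), Fintype.prod_bool]
    congr
  · obtain ⟨δ, x, rfl⟩ : ∃ δ x, γ = δ ++ [x] :=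
      ⟨γ.dropLast, γ.getLast hγ, (List.dropLast_append_getLast hγ).symm⟩
    have hx := ((Val_snoc _ δ [] x).1 hv).2
    rw [List.nil_append] at hx
    exact ⟨_, _, x.2, hx.2.1, Sym2.eq_swap ▸ hx.2.2.1, fun k => ⟨uf a k δ x hx, qf' (uf a k) hx⟩⟩

end Crest.Agent.R30
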