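import Crest.Agent.R30.Defs

/-! # Row 30, task MIX -/

set_option autoImplicit false

namespace Crest.Agent.R30

open Crest.CombinatoricsR.TriangleRemoval Finset

namespace Mix

variable {n : ℕ}

theorem A_nn (G : Gr n) (u v : Fin n) : 0 ≤ A G u v := by
  unfold A; split_ifs <;> norm_num

theorem A_le (G : Gr n) (u v : Fin n) : A G u v ≤ 1 := by
  unfold A; split_ifs <;> norm_num

theorem mem_of_A {G : Gr n} {u v : Fin n} (h : A G u v ≠ 0) : s(u, v) ∈ G := by
  unfold A at h
  by_contra h'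
  exact h (if_neg h')

theorem A_of_mem {G : Gr n} {u v : Fin n} (h : s(u, v) ∈ G) : A G u v = 1 := if_pos h

theorem ne_of_mem {G : Gr n} (hG : G ⊆ allEdges n) {u v : Fin n} (h : s(u, v) ∈ G) : u ≠ v := by
  have := hG h
  simp only [allEdges, mem_filter, mem_univ, true_and, Sym2.mk_isDiag_iff] at this
  exact this

theorem cur_le (w : ℕ → Bool) (i : ℕ) : (cur w i).1 ≤ i + 1 ∧ (cur w i).2 ≤ i + 1 := by
  induction i with
  | zero => simp [cur]
  | succ i ih =>
    simp only [cur]
    split_ifs <;> constructor <;> simp only <;> omega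

theorem cur_ne (w : ℕ → Bool) (i : ℕ) : (cur w i).1 ≠ (cur w i).2 := by
  cases i with
  | zero => simp [cur]
  | succ i =>
    have := cur_le w i
    simp only [cur]
    split_ifs <;> simp only <;> omega

/-- extension of a labelling to all of `ℕ` -/
def ex {j : ℕ} (ψ : Fin (j + 2) → Fin n) (z : ℕ) : Fin n :=
  if h : z < j + 2 then ψ ⟨z, h⟩ else ψ 0

theorem ex_lt {j : ℕ} (ψ : Fin (j + 2) → Fin n) {z : ℕ} (h : z < j + 2) : ex ψ z = ψ ⟨z, h⟩ :=
  dif_pos h

theorem ex_val {j : ℕ} (ψ : Fin (j + 2) → Fin n) (z : Fin (j + 2)) : ex ψ z.1 = ψ z :=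
  dif_pos z.2

theorem ex_snoc {j : ℕ} (ψ : Fin (j + 2) → Fin n) (x : Fin n) :
    ex (j := j + 1) (Fin.snoc (α := fun _ => Fin n) ψ x) = Function.update (ex ψ) (j + 2) x := by
  funext z
  rcases lt_trichotomy z (j + 2) with h | h | h
  · rw [Function.update_of_ne h.ne, ex_lt _ (show z < j + 1 + 2 by omega), ex_lt _ h]
    exact Fin.snoc_castSucc (α := fun _ => Fin n) x ψ ⟨z, h⟩
  · subst h
    rw [Function.update_self, ex_lt _ (show j + 2 < j + 1 + 2 by omega)]
    exact Fin.snoc_last (α := fun _ => Fin n) x ψ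
  · rw [Function.update_of_ne h.ne']
    unfold ex
    rw [dif_neg (by omega), dif_neg (by omega)]
    exact Fin.snoc_castSucc (α := fun _ => Fin n) x ψ 0

/-- product of the created adjacencies -/
noncomputable def wt (G : Gr n) (w : ℕ → Bool) (j : ℕ) (f : ℕ → Fin n) : ℝ :=
  ∏ i ∈ range j, A G (f (cur w i).1) (f (i + 2)) * A G (f (cur w i).2) (f (i + 2))

theorem wt_nn (G : Gr n) (w : ℕ → Bool) (j : ℕ) (f : ℕ → Fin n) : 0 ≤ wt G w j f :=
  prod_nonneg fun _ _ => mul_nonneg (A_nn _ _ _) (A_nn _ _ _)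

theorem wt_le (G : Gr n) (w : ℕ → Bool) (j : ℕ) (f : ℕ → Fin n) : wt G w j f ≤ 1 :=
  prod_le_one (fun _ _ => mul_nonneg (A_nn _ _ _) (A_nn _ _ _))
    fun _ _ => mul_le_one₀ (A_le _ _ _) (A_nn _ _ _) (A_le _ _ _)

theorem wt_update (G : Gr n) (w : ℕ → Bool) (j : ℕ) (f : ℕ → Fin n) (x : Fin n) :
    wt G w (j + 1) (Function.update f (j + 2) x) =
      wt G w j f * (A G (f (cur w j).1) x * A G (f (cur w j).2) x) := by
  unfold wt
  rw [prod_range_succ]
  congr 1
  · refine prod_congr rfl fun i hi => ?_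
    have := cur_le w i
    have hi := mem_range.1 hi
    rw [Function.update_of_ne (by omega), Function.update_of_ne (by omega),
      Function.update_of_ne (by omega)]
  · have := cur_le w j
    rw [Function.update_of_ne (by omega), Function.update_self, Function.update_of_ne (by omega)]

theorem edges_of_wt {G : Gr n} {w : ℕ → Bool} {j : ℕ} {f : ℕ → Fin n} (h : wt G w j f ≠ 0)
    {i : ℕ} (hi : i < j) :
    s(f (cur w i).1, f (i + 2)) ∈ G ∧ s(f (cur w i).2, f (i + 2)) ∈ G := by
  have := prod_ne_zero_iff.1 h i (mem_range.2 hi)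
  exact ⟨mem_of_A (left_ne_zero_of_mul this), mem_of_A (right_ne_zero_of_mul this)⟩

theorem cur_mem {G : Gr n} {w : ℕ → Bool} {j : ℕ} {f : ℕ → Fin n} (h : wt G w (j + 1) f ≠ 0) :
    s(f (cur w (j + 1)).1, f (cur w (j + 1)).2) ∈ G := by
  have := edges_of_wt h (Nat.lt_succ_self j)
  simp only [cur]
  split_ifs
  · exact this.1
  · rw [Sym2.eq_swap]; exact this.2

/-- the (unnormalised) path functional -/
noncomputable def W (G : Gr n) (w : ℕ → Bool) (u v : Fin n) (j : ℕ) (F : (ℕ → Fin n) → ℝ) : ℝ :=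
  ∑ ψ : Fin (j + 2) → Fin n, if ex ψ 0 = u ∧ ex ψ 1 = v then wt G w j (ex ψ) * F (ex ψ) else 0

section W
variable {G : Gr n} {w : ℕ → Bool} {u v : Fin n}

theorem W_zero (F : (ℕ → Fin n) → ℝ) : W G w u v 0 F = F (ex (j := 0) ![u, v]) := by
  unfold W
  rw [Finset.sum_eq_single ![u, v]]
  · rw [if_pos ⟨rfl, rfl⟩]
    simp [wt]
  · intro ψ _ hψ
    rw [if_neg]
    rintro ⟨h0, h1⟩
    apply hψ
    funext z
    fin_cases z
    · exact h0
    · exact h1
  · simp

theorem W_succ (j : ℕ) (F : (ℕ → Fin n) → ℝ) :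
    W G w u v (j + 1) F = W G w u v j fun f =>
      ∑ x, A G (f (cur w j).1) x * A G (f (cur w j).2) x * F (Function.update f (j + 2) x) := by
  unfold W
  rw [← (Fin.snocEquiv fun _ : Fin (j + 2 + 1) => Fin n).sum_comp, Fintype.sum_prod_type_right]
  refine sum_congr rfl fun ψ _ => ?_
  have h : ∀ x, ex (j := j + 1) ((Fin.snocEquiv fun _ : Fin (j + 2 + 1) => Fin n) (x, ψ)) =
      Function.update (ex ψ) (j + 2) x := fun x => ex_snoc ψ x
  simp only [h, wt_update]
  have h0 : ∀ x, Function.update (ex ψ) (j + 2) x 0 = ex ψ 0 := fun x =>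
    Function.update_of_ne (by omega) _ _
  have h1 : ∀ x, Function.update (ex ψ) (j + 2) x 1 = ex ψ 1 := fun x =>
    Function.update_of_ne (by omega) _ _
  simp only [h0, h1]
  split_ifs
  · rw [mul_sum]
    exact sum_congr rfl fun x _ => by ring
  · simp

theorem W_mono {j : ℕ} {F F' : (ℕ → Fin n) → ℝ}
    (h : ∀ f, f 0 = u → f 1 = v → wt G w j f ≠ 0 → F f ≤ F' f) :
    W G w u v j F ≤ W G w u v j F' := by
  refine sum_le_sum fun ψ _ => ?_
  split_ifs with hψ
  · by_cases h0 : wt G w j (ex ψ) = 0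
    · simp [h0]
    · exact mul_le_mul_of_nonneg_left (h _ hψ.1 hψ.2 h0) (wt_nn _ _ _ _)
  · exact le_rfl

theorem W_add (j : ℕ) (F F' : (ℕ → Fin n) → ℝ) :
    W G w u v j (fun f => F f + F' f) = W G w u v j F + W G w u v j F' := by
  unfold W
  rw [← sum_add_distrib]
  refine sum_congr rfl fun ψ _ => ?_
  split_ifs <;> ring

theorem W_mul (j : ℕ) (c : ℝ) (F : (ℕ → Fin n) → ℝ) :
    W G w u v j (fun f => c * F f) = c * W G w u v j F := by
  unfold W
  rw [mul_sum]
  refine sum_congr rfl fun ψ _ => ?_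
  split_ifs <;> ring

theorem W_sum {ι : Type*} (s : Finset ι) (j : ℕ) (F : ι → (ℕ → Fin n) → ℝ) :
    W G w u v j (fun f => ∑ i ∈ s, F i f) = ∑ i ∈ s, W G w u v j (F i) := by
  unfold W
  rw [sum_comm]
  refine sum_congr rfl fun ψ _ => ?_
  split_ifs
  · rw [mul_sum]
  · simp

theorem W_nn {j : ℕ} {F : (ℕ → Fin n) → ℝ} (h : ∀ f, 0 ≤ F f) : 0 ≤ W G w u v j F := by
  refine sum_nonneg fun ψ _ => ?_
  split_ifs
  · exact mul_nonneg (wt_nn _ _ _ _) (h _)
  · exact le_rfl

theorem opW_eq {D : ℝ} (hD : D ≠ 0) (j : ℕ) (δ : Fn n) :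
    D ^ j * opW D G w j δ u v = W G w u v j fun f => δ (f (cur w j).1) (f (cur w j).2) := by
  induction j generalizing δ with
  | zero =>
    rw [W_zero]
    simp only [pow_zero, one_mul, opW]
    rfl
  | succ j ih =>
    have hc := cur_le w j
    rw [W_succ, pow_succ', mul_assoc]
    simp only [opW]
    rw [ih, ← W_mul]
    congr 1
    funext f
    simp only [cur]
    split_ifs with hw
    · simp only [opL]
      rw [mul_div_cancel₀ _ hD]
      refine sum_congr rfl fun x _ => ?_
      rw [Function.update_of_ne (by omega), Function.update_self]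
    · simp only [opR]
      rw [mul_div_cancel₀ _ hD]
      refine sum_congr rfl fun x _ => ?_
      rw [Function.update_self, Function.update_of_ne (by omega)]

theorem cur_ne_of (hG : G ⊆ allEdges n) (huv : u ≠ v) {j : ℕ} {f : ℕ → Fin n} (h0 : f 0 = u)
    (h1 : f 1 = v) (h : wt G w j f ≠ 0) : f (cur w j).1 ≠ f (cur w j).2 := by
  cases j with
  | zero => simpa [cur, h0, h1] using huv
  | succ j => exact ne_of_mem hG (cur_mem h)

theorem Y_bounds {D η : ℝ} (hD : 0 < D) (hR : Reg G D η) {a b : Fin n} (hab : a ≠ b) :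
    (1 - η) * D ≤ Y G a b ∧ Y G a b ≤ (1 + η) * D := by
  have := abs_le.1 (hR.2 a b hab)
  unfold yy at this
  constructor
  · rw [← le_div_iff₀ hD]; linarith [this.1]
  · rw [← div_le_iff₀ hD]; linarith [this.2]

theorem W_one_ge {D η : ℝ} (hD : 0 < D) (hη : η ≤ 1) (hR : Reg G D η) (huv : u ≠ v) (j : ℕ) :
    ((1 - η) * D) ^ j ≤ W G w u v j fun _ => 1 := by
  induction j with
  | zero => rw [W_zero]; simp
  | succ j ih =>
    rw [W_succ, pow_succ']
    refine (mul_le_mul_of_nonneg_left ih (mul_nonneg (by linarith) hD.le)).trans ?_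
    rw [← W_mul]
    refine W_mono fun f h0 h1 h => ?_
    simp only [mul_one]
    exact (Y_bounds hD hR (cur_ne_of hR.1 huv h0 h1 h)).1

theorem W_one_le {D η : ℝ} (hD : 0 < D) (hη : η ≤ 1) (hR : Reg G D η) (huv : u ≠ v) (j : ℕ) :
    (W G w u v j fun _ => 1) ≤ (2 * D) ^ j := by
  induction j with
  | zero => rw [W_zero]; simp
  | succ j ih =>
    rw [W_succ, pow_succ']
    refine le_trans ?_ (mul_le_mul_of_nonneg_left ih (by positivity))
    rw [← W_mul]
    refine W_mono fun f h0 h1 h => ?_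
    simp only [mul_one]
    have := (Y_bounds hD hR (cur_ne_of hR.1 huv h0 h1 h)).2
    exact this.trans (mul_le_mul_of_nonneg_right (by linarith) hD.le)

/-- injectivity on the first `j + 2` labels -/
def Inj (j : ℕ) (f : ℕ → Fin n) : Prop := ∀ y < j + 2, ∀ z < j + 2, f y = f z → y = z

theorem inj_update {j : ℕ} {f : ℕ → Fin n} (h : Inj j f) {x : Fin n}
    (hx : x ∉ (range (j + 2)).image f) : Inj (j + 1) (Function.update f (j + 2) x) := by
  have hx' : ∀ y < j + 2, f y ≠ x := fun y hy he =>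
    hx (mem_image.2 ⟨y, mem_range.2 hy, he⟩)
  intro y hy z hz he
  by_cases h1 : y = j + 2 <;> by_cases h2 : z = j + 2
  · omega
  · rw [h1, Function.update_self, Function.update_of_ne h2] at he
    exact absurd he.symm (hx' z (by omega))
  · rw [h2, Function.update_self, Function.update_of_ne h1] at he
    exact absurd he (hx' y (by omega))
  · rw [Function.update_of_ne h1, Function.update_of_ne h2] at he
    exact h y (by omega) z (by omega) he

open Classical in
theorem W_ninj {D η : ℝ} (hD : 0 < D) (hη : η ≤ 1) (hR : Reg G D η) (huv : u ≠ v) (j : ℕ) :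
    2 * D * (W G w u v j fun f => if Inj j f then 0 else 1) ≤ j * (j + 2) * (2 * D) ^ j := by
  induction j with
  | zero =>
    rw [W_zero, if_pos]
    · simp
    · intro y hy z hz he
      have h0 : ex (j := 0) ![u, v] 0 = u := rfl
      have h1 : ex (j := 0) ![u, v] 1 = v := rfl
      interval_cases y <;> interval_cases z
      · rfl
      · exact absurd (h0.symm.trans (he.trans h1)) huv
      · exact absurd (h0.symm.trans (he.symm.trans h1)) huv
      · rfl
  | succ j ih =>
    have h1 : (W G w u v (j + 1) fun f => if Inj (j + 1) f then 0 else 1) ≤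
        2 * D * (W G w u v j fun f => if Inj j f then 0 else 1) +
          (j + 2) * W G w u v j fun _ => 1 := by
      rw [W_succ, ← W_mul, ← W_mul, ← W_add]
      refine W_mono fun f h0 h1 h => ?_
      have hY := (Y_bounds hD hR (cur_ne_of hR.1 huv h0 h1 h)).2
      by_cases hf : Inj j f
      · rw [if_pos hf, mul_zero, zero_add, mul_one]
        calc _ ≤ ∑ x, (if x ∈ (range (j + 2)).image f then (1 : ℝ) else 0) := by
              refine sum_le_sum fun x _ => ?_
              by_cases hx : x ∈ (range (j + 2)).image f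
              · rw [if_pos hx]
                refine mul_le_one₀ (mul_le_one₀ (A_le _ _ _) (A_nn _ _ _) (A_le _ _ _)) ?_ ?_ <;>
                  split_ifs <;> norm_num
              · rw [if_neg hx, if_pos (inj_update hf hx), mul_zero]
          _ = ((range (j + 2)).image f).card := by
              rw [sum_boole, filter_mem_eq_inter, univ_inter]
          _ ≤ _ := by
              have := card_image_le (s := range (j + 2)) (f := f)
              rw [card_range] at this
              exact_mod_cast this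
      · rw [if_neg hf, mul_one, mul_one]
        calc _ ≤ Y G (f (cur w j).1) (f (cur w j).2) := by
              refine sum_le_sum fun x _ => ?_
              refine mul_le_of_le_one_right (mul_nonneg (A_nn _ _ _) (A_nn _ _ _)) ?_
              split_ifs <;> norm_num
          _ ≤ _ := by
              have : (0 : ℝ) ≤ j := Nat.cast_nonneg _
              nlinarith
    have h2 := W_one_le (w := w) hD hη hR huv j
    have h3 : (0 : ℝ) ≤ j := Nat.cast_nonneg _
    have h4 : 0 < (2 * D) ^ j := by positivity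
    have h5 := mul_le_mul_of_nonneg_left h2 (show (0 : ℝ) ≤ j + 2 by positivity)
    have h6 := mul_le_mul_of_nonneg_left (h1.trans (add_le_add ih h5))
      (show (0 : ℝ) ≤ 2 * D by positivity)
    refine h6.trans ?_
    push_cast
    rw [pow_succ]
    have h7 : 0 < (2 * D) ^ j * (2 * D) := by positivity
    nlinarith

/-- placement of the roots -/
def rootP (w : ℕ → Bool) (j : ℕ) (u v a b : Fin n) : Fin (j + 2) → Fin n := fun z =>
  if z.1 = 0 then u else if z.1 = 1 then v else if z.1 = (cur w j).1 then a else b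

open Classical in
theorem W_pair_le (j : ℕ) (a b : Fin n) :
    (W G w u v (j + 1) fun f => if Inj (j + 1) f ∧ f (cur w (j + 1)).1 = a ∧
      f (cur w (j + 1)).2 = b then 1 else 0) ≤
      A G a b * Cnt G (Rw w (j + 1)) (Ew w (j + 1)) (rootP w (j + 1) u v a b) := by
  unfold W Cnt
  rw [card_filter]
  push_cast
  rw [mul_sum]
  refine sum_le_sum fun ψ _ => ?_
  have hnn : 0 ≤ A G a b * (if Function.Injective ψ ∧
      (∀ i ∈ Rw w (j + 1), ψ i = rootP w (j + 1) u v a b i) ∧
      ∀ e ∈ Ew w (j + 1), s(ψ e.1, ψ e.2) ∈ G then (1 : ℝ) else 0) := by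
    refine mul_nonneg (A_nn _ _ _) ?_
    split_ifs <;> norm_num
  by_cases h0 : ex ψ 0 = u ∧ ex ψ 1 = v
  swap
  · rw [if_neg h0]; exact hnn
  rw [if_pos h0]
  by_cases h1 : Inj (j + 1) (ex ψ) ∧ ex ψ (cur w (j + 1)).1 = a ∧ ex ψ (cur w (j + 1)).2 = b
  swap
  · rw [if_neg h1, mul_zero]; exact hnn
  rw [if_pos h1, mul_one]
  by_cases h2 : wt G w (j + 1) (ex ψ) = 0
  · rw [h2]; exact hnn
  have hab : s(a, b) ∈ G := by
    have := cur_mem h2
    rwa [h1.2.1, h1.2.2] at this
  rw [A_of_mem hab, one_mul, if_pos]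
  · exact wt_le _ _ _ _
  refine ⟨fun y z he => Fin.ext (h1.1 y y.2 z z.2 (by rwa [ex_val, ex_val])), fun z hz => ?_,
    fun e he => ?_⟩
  · rw [← ex_val ψ z]
    unfold rootP
    simp only [Rw, mem_filter, mem_univ, true_and] at hz
    split_ifs with c0 c1 c2
    · rw [c0]; exact h0.1
    · rw [c1]; exact h0.2
    · rw [c2]; exact h1.2.1
    · have : z.1 = (cur w (j + 1)).2 := by tauto
      rw [this]; exact h1.2.2
  · simp only [Ew, mem_filter, mem_univ, true_and] at he
    have hlt := e.2.2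
    have := edges_of_wt h2 (i := e.2.1 - 2) (by omega)
    rw [show e.2.1 - 2 + 2 = e.2.1 by omega] at this
    rw [← ex_val ψ e.1, ← ex_val ψ e.2]
    rcases he.2.1 with h | h
    · rw [h]; exact this.1
    · rw [h]; exact this.2

end W

theorem card_Ew (w : ℕ → Bool) (j : ℕ) : (Ew w (j + 1)).card = 2 * j + 1 := by
  set Ea : Finset (Fin (j + 1 + 2) × Fin (j + 1 + 2)) := univ.filter fun e => 2 ≤ e.2.1 ∧
    (e.1.1 = (cur w (e.2.1 - 2)).1 ∨ e.1.1 = (cur w (e.2.1 - 2)).2) with hEa
  have h1 : Ea.card = 2 * (j + 1) := by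
    rw [hEa, card_filter, Fintype.sum_prod_type_right]
    have : ∀ z : Fin (j + 1 + 2), (∑ y : Fin (j + 1 + 2), if 2 ≤ z.1 ∧
        (y.1 = (cur w (z.1 - 2)).1 ∨ y.1 = (cur w (z.1 - 2)).2) then 1 else 0) =
        if 2 ≤ z.1 then 2 else 0 := by
      intro z
      have hc := cur_le w (z.1 - 2)
      have hi := z.2
      have hne := cur_ne w (z.1 - 2)
      split_ifs with hz
      · rw [← card_filter]
        have : (univ.filter fun y : Fin (j + 1 + 2) => 2 ≤ z.1 ∧
            (y.1 = (cur w (z.1 - 2)).1 ∨ y.1 = (cur w (z.1 - 2)).2)) =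
            {⟨(cur w (z.1 - 2)).1, by omega⟩, ⟨(cur w (z.1 - 2)).2, by omega⟩} := by
          ext y
          simp only [mem_filter, mem_univ, true_and, mem_insert, mem_singleton, Fin.ext_iff]
          omega
        rw [this, card_pair]
        exact fun h => hne (congrArg Fin.val h)
      · simp [hz]
    rw [sum_congr rfl fun z _ => this z, Fin.sum_univ_succ, Fin.sum_univ_succ]
    simp [mul_comm]
  have hc := cur_le w j
  let e0 : Fin (j + 1 + 2) × Fin (j + 1 + 2) :=
    (⟨if w j then (cur w j).1 else (cur w j).2, by split_ifs <;> omega⟩, ⟨j + 2, by omega⟩)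
  have h2 : e0 ∈ Ea := by
    simp only [hEa, e0, mem_filter, mem_univ, true_and, Nat.add_sub_cancel]
    refine ⟨by omega, ?_⟩
    split_ifs <;> simp
  have h3 : Ew w (j + 1) = Ea.erase e0 := by
    ext ⟨y, z⟩
    have hz := cur_le w (z.1 - 2)
    simp only [Ew, hEa, e0, mem_filter, mem_univ, true_and, mem_erase, ne_eq, Prod.mk.injEq,
      Fin.ext_iff, cur]
    split_ifs <;> simp only <;> omega
  rw [h3, card_erase_of_mem h2, h1]
  omega

theorem card_Rw4 (w : ℕ → Bool) (j : ℕ) (h1 : 2 ≤ (cur w j).1) (h2 : 2 ≤ (cur w j).2) :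
    (Rw w j).card = 4 := by
  have hc := cur_le w j
  have hne := cur_ne w j
  have : Rw w j = {⟨0, by omega⟩, ⟨1, by omega⟩, ⟨(cur w j).1, by omega⟩,
      ⟨(cur w j).2, by omega⟩} := by
    ext y
    simp only [Rw, mem_filter, mem_univ, true_and, mem_insert, mem_singleton, Fin.ext_iff]
  rw [this, card_insert_of_notMem, card_insert_of_notMem, card_pair] <;>
    simp only [mem_insert, mem_singleton, Fin.ext_iff, ne_eq] <;> omega

theorem card_Rw3 (w : ℕ → Bool) (j : ℕ) (h1 : (cur w (j + 1)).1 = 0) :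
    (Rw w (j + 1)).card = 3 := by
  have h2 : (cur w (j + 1)).2 = j + 2 := by
    revert h1
    simp only [cur]
    split_ifs <;> simp
  have : Rw w (j + 1) = {⟨0, by omega⟩, ⟨1, by omega⟩, ⟨j + 2, by omega⟩} := by
    ext y
    simp only [Rw, h1, h2, mem_filter, mem_univ, true_and, mem_insert, mem_singleton, Fin.ext_iff]
    tauto
  rw [this, card_insert_of_notMem, card_pair] <;>
    simp only [mem_insert, mem_singleton, Fin.ext_iff, ne_eq] <;> omega

theorem deg_le {m0 v0 : ℕ} {p ε : ℝ} {G : Gr n} (hG : G ⊆ allEdges n) (h : Ext m0 v0 p ε G)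
    (hv : 2 ≤ v0) (a : Fin n) : ∑ b, A G a b ≤ (1 + ε) * n * p := by
  classical
  have hs : Safe m0 ({0} : Finset (Fin 2)) {(0, 1)} := by
    refine ⟨by simp, fun S hS => Or.inl ?_⟩
    by_cases h1 : (1 : Fin 2) ∈ S
    · have e1 : eIn {((0 : Fin 2), (1 : Fin 2))} S ≤ 1 :=
        (card_filter_le _ _).trans (card_singleton _).le
      have e2 : 1 ≤ (S \ {0}).card := card_pos.2 ⟨1, by simp [h1]⟩
      omega
    · have : eIn {((0 : Fin 2), (1 : Fin 2))} S = 0 := by
        simp [eIn, h1]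
      omega
  have h1 := h 2 hv _ _ hs fun _ => a
  simp only [card_singleton, pow_one, Nat.add_one_sub_one] at h1
  refine le_trans ?_ h1
  unfold A Cnt
  rw [sum_boole, Nat.cast_le]
  refine card_le_card_of_injOn (fun b => ![a, b]) (fun b hb => ?_) fun b _ c _ he => ?_
  · have hb : s(a, b) ∈ G := by simpa using hb
    have hne := ne_of_mem hG hb
    simp only [coe_filter, mem_univ, true_and, mem_singleton, forall_eq, Set.mem_ofPred_eq]
    refine ⟨?_, rfl, hb⟩
    intro y z hyz
    fin_cases y <;> fin_cases z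
    · rfl
    · exact absurd hyz hne
    · exact absurd hyz.symm hne
    · rfl
  · exact congrFun he 1

theorem tv_le {ι : Type*} [Fintype ι] {m π δ : ι → ℝ} {ε κ b : ℝ} (hε0 : 0 ≤ ε) (hε : ε ≤ 1)
    (hb : 0 ≤ b) (hm0 : ∀ i, 0 ≤ m i) (hπ0 : ∀ i, 0 ≤ π i) (hm : ∀ i, m i ≤ (1 + ε) * π i)
    (hπ : ∑ i, π i ≤ 1 + ε) (hκ : 1 - κ ≤ ∑ i, m i) (hδ : ∀ i, π i ≠ 0 → |δ i| ≤ b) :
    |∑ i, m i * δ i - ∑ i, π i * δ i| ≤ (5 * ε + κ) * b := by
  rw [← sum_sub_distrib]
  refine (abs_sum_le_sum_abs _ _).trans ?_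
  have h1 : ∀ i ∈ (univ : Finset ι), |m i * δ i - π i * δ i| ≤
      ((1 + 2 * ε) * π i - m i) * b := by
    intro i _
    by_cases h0 : π i = 0
    · have : m i = 0 := le_antisymm (by simpa [h0] using hm i) (hm0 i)
      simp [h0, this]
    · rw [← sub_mul, abs_mul]
      have h2 : |m i - π i| ≤ (1 + 2 * ε) * π i - m i := by
        have := hm i
        have := mul_nonneg hε0 (hπ0 i)
        exact abs_le.2 ⟨by linarith, by linarith⟩
      exact mul_le_mul h2 (hδ i h0) (abs_nonneg _) ((abs_nonneg _).trans h2)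
  refine (sum_le_sum h1).trans ?_
  rw [← sum_mul, sum_sub_distrib, ← mul_sum]
  refine mul_le_mul_of_nonneg_right ?_ hb
  have := mul_le_mul_of_nonneg_left hπ (show 0 ≤ 1 + 2 * ε by positivity)
  nlinarith

open Classical in
/-- the abstract form of the mixing bound -/
theorem mix_aux {G : Gr n} {w : ℕ → Bool} {u v : Fin n} {D η ε b : ℝ} {j : ℕ} (hD : 1 ≤ D)
    (hηε : η ≤ ε) (hDε : 1 / D ≤ ε) (hε : ε ≤ 1) (hR : Reg G D η) (huv : u ≠ v) {δ : Fn n}
    (hb : 0 ≤ b) (hδ : Bd δ b) {π : Fin n × Fin n → ℝ} (hπ0 : ∀ i, 0 ≤ π i)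
    (hπ1 : ∑ i, π i ≤ 1 + ε) (hπ2 : ∀ i, π i ≠ 0 → i.1 ≠ i.2)
    (hπ3 : ∀ i : Fin n × Fin n, (W G w u v j fun f => if Inj j f ∧ f (cur w j).1 = i.1 ∧
      f (cur w j).2 = i.2 then 1 else 0) ≤ D ^ j * ((1 + ε) * π i)) :
    |opW D G w j δ u v - ∑ i, π i * δ i.1 i.2| ≤ (5 + j + j * (j + 2) * 2 ^ j) * ε * b := by
  have hD0 : 0 < D := by linarith
  have hDj : 0 < D ^ j := by positivity
  have hε0 : 0 ≤ ε := le_trans (by positivity) hDε
  have hη0 : 0 ≤ η := (abs_nonneg _).trans (hR.2 u v huv)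
  have hη : η ≤ 1 := hηε.trans hε
  set μ : Fin n × Fin n → ℝ := fun i => W G w u v j fun f => if Inj j f ∧ f (cur w j).1 = i.1 ∧
      f (cur w j).2 = i.2 then 1 else 0 with hμ
  set N : ℝ := W G w u v j fun f => if Inj j f then 0 else 1 with hN
  have hdec : ∀ δ : Fn n, (W G w u v j fun f => δ (f (cur w j).1) (f (cur w j).2)) =
      ∑ i, μ i * δ i.1 i.2 + W G w u v j fun f =>
        (if Inj j f then 0 else 1) * δ (f (cur w j).1) (f (cur w j).2) := by
    intro δ
    simp only [hμ, mul_comm _ (δ _ _), ← W_mul]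
    rw [← W_sum, ← W_add]
    congr 1
    funext f
    by_cases hf : Inj j f
    · rw [sum_eq_single (f (cur w j).1, f (cur w j).2)]
      · simp [hf]
      · intro i _ hi
        rw [if_neg, mul_zero]
        rintro ⟨-, h1, h2⟩
        exact hi (Prod.ext h1.symm h2.symm)
      · simp
    · simp [hf]
  have hN1 : N ≤ D ^ j * (j * (j + 2) * 2 ^ j / 2 * ε) := by
    have h1 := W_ninj (w := w) hD0 hη hR huv j
    rw [← hN, mul_pow] at h1
    have h2 : 1 ≤ ε * D := by rwa [div_le_iff₀ hD0] at hDε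
    have h3 : (0 : ℝ) ≤ j * (j + 2) * (2 ^ j * D ^ j) := by positivity
    have h4 := mul_le_mul_of_nonneg_left h2 h3
    have h5 : 2 * D * N ≤ 2 * D * (D ^ j * (j * (j + 2) * 2 ^ j / 2 * ε)) := by linarith
    exact le_of_mul_le_mul_left h5 (by positivity)
  have hR1 : |W G w u v j fun f =>
      (if Inj j f then 0 else 1) * δ (f (cur w j).1) (f (cur w j).2)| ≤ b * N := by
    rw [abs_le, hN, ← neg_mul, ← W_mul, ← W_mul]
    constructor
    · refine W_mono fun f h0 h1 h => ?_
      have := abs_le.1 (hδ _ _ (cur_ne_of hR.1 huv h0 h1 h))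
      split_ifs <;> linarith [this.1]
    · refine W_mono fun f h0 h1 h => ?_
      have := abs_le.1 (hδ _ _ (cur_ne_of hR.1 huv h0 h1 h))
      split_ifs <;> linarith [this.2]
  have hsum : 1 - (j * ε + j * (j + 2) * 2 ^ j / 2 * ε) ≤ ∑ i, μ i / D ^ j := by
    have h1 := hdec fun _ _ => 1
    simp only [mul_one] at h1
    rw [← hN] at h1
    have h2 := W_one_ge (w := w) hD0 hη hR huv j
    rw [h1, mul_pow] at h2
    have h3 : 1 - j * η ≤ (1 - η) ^ j := by
      have := one_add_mul_le_pow (a := -η) (by linarith) j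
      rw [← sub_eq_add_neg] at this
      linarith
    have h4 : (j : ℝ) * η ≤ j * ε := mul_le_mul_of_nonneg_left hηε (Nat.cast_nonneg _)
    rw [← sum_div, le_div_iff₀ hDj]
    have h5 := mul_le_mul_of_nonneg_right h3 hDj.le
    have h6 := mul_le_mul_of_nonneg_right h4 hDj.le
    linarith
  have htv := tv_le (m := fun i => μ i / D ^ j) (π := π) (δ := fun i => δ i.1 i.2) hε0 hε hb
    (fun i => div_nonneg (W_nn fun f => by split_ifs <;> norm_num) hDj.le) hπ0
    (fun i => by rw [div_le_iff₀' hDj]; exact hπ3 i) hπ1 hsum fun i hi => hδ _ _ (hπ2 i hi)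
  have h1 := opW_eq (G := G) (w := w) (u := u) (v := v) hD0.ne' j δ
  rw [hdec] at h1
  set Rm : ℝ := W G w u v j fun f =>
      (if Inj j f then 0 else 1) * δ (f (cur w j).1) (f (cur w j).2) with hRm
  have h2 : opW D G w j δ u v = ∑ i, μ i / D ^ j * δ i.1 i.2 + Rm / D ^ j := by
    simp only [div_mul_eq_mul_div]
    rw [← sum_div, ← add_div, eq_div_iff hDj.ne', mul_comm, h1]
  have h3 : |Rm / D ^ j| ≤ b * (j * (j + 2) * 2 ^ j / 2 * ε) := by
    rw [abs_div, abs_of_pos hDj, div_le_iff₀ hDj]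
    have := mul_le_mul_of_nonneg_left hN1 hb
    linarith
  rw [h2, add_sub_right_comm]
  refine (abs_add_le _ _).trans ?_
  linarith

end Mix

open Mix in
theorem mix_proof : MixStmt := by
  classical
  intro j0
  refine ⟨5 + j0 + j0 * (j0 + 2) * 2 ^ j0, by positivity, ?_⟩
  intro m0 n G p D η ε w j hp hDn hD hηε hDε hε hR hE hj1 hj0 hS δ b hb hδ u v huv
  obtain ⟨j, rfl⟩ : ∃ i, j = i + 1 := ⟨j - 1, by omega⟩
  have hD0 : 0 < D := by linarith
  have hε0 : 0 ≤ ε := le_trans (by positivity) hDε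
  have hn : (0 : ℝ) < n := by
    have := u.pos
    exact_mod_cast this
  have hC : (5 + ((j + 1 : ℕ) : ℝ) + (j + 1 : ℕ) * ((j + 1 : ℕ) + 2) * 2 ^ (j + 1)) * ε * b ≤
      (5 + j0 + j0 * (j0 + 2) * 2 ^ j0) * ε * b := by
    have h1 : ((j + 1 : ℕ) : ℝ) ≤ j0 := by exact_mod_cast hj0
    have h2 : (2 : ℝ) ^ (j + 1) ≤ 2 ^ j0 := pow_le_pow_right₀ (by norm_num) hj0
    gcongr
  have hdeg := deg_le hR.1 hE (by omega)
  have hcnt : ∀ a b : Fin n, (W G w u v (j + 1) fun f => if Inj (j + 1) f ∧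
      f (cur w (j + 1)).1 = a ∧ f (cur w (j + 1)).2 = b then 1 else 0) ≤
      A G a b * ((1 + ε) * (n : ℝ) ^ (j + 1 + 2 - (Rw w (j + 1)).card) * p ^ (2 * j + 1)) := by
    intro a b
    refine (W_pair_le j a b).trans (mul_le_mul_of_nonneg_left ?_ (A_nn _ _ _))
    have := hE (j + 1 + 2) (by omega) _ _ hS (rootP w (j + 1) u v a b)
    rwa [card_Ew] at this
  constructor
  · intro h1 h2
    have hj : 1 ≤ j := by
      have := cur_le w (j + 1)
      have := cur_ne w (j + 1)
      omega
    obtain ⟨j, rfl⟩ : ∃ i, j = i + 1 := ⟨j - 1, by omega⟩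
    have key := mix_aux (w := w) (j := j + 1 + 1) hD hηε hDε hε hR huv hb hδ
      (π := fun i => A G i.1 i.2 / ((n : ℝ) ^ 2 * p))
      (fun i => div_nonneg (A_nn _ _ _) (by positivity)) (by
        rw [← sum_div, div_le_iff₀ (by positivity), Fintype.sum_prod_type]
        refine (sum_le_sum fun a _ => hdeg a).trans (le_of_eq ?_)
        rw [sum_const, card_univ, Fintype.card_fin, nsmul_eq_mul]
        ring)
      (fun i hi => ne_of_mem hR.1 (mem_of_A fun h => hi (by simp [h])))
      (fun i => (hcnt i.1 i.2).trans (le_of_eq (by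
        rw [card_Rw4 w _ h1 h2, hDn, show j + 1 + 1 + 2 - 4 = j by omega]
        field_simp
        ring)))
    refine le_trans (le_of_eq ?_) (key.trans hC)
    congr 2
    simp only [Pi0, Fintype.sum_prod_type, sum_div, div_mul_eq_mul_div]
  · intro h1
    have key := mix_aux (w := w) (j := j + 1) hD hηε hDε hε hR huv hb hδ
      (π := fun i => if i.1 = u then A G i.1 i.2 / ((n : ℝ) * p) else 0)
      (fun i => by
        split_ifs
        · exact div_nonneg (A_nn _ _ _) (by positivity)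
        · exact le_rfl) (by
        rw [Fintype.sum_prod_type, sum_eq_single u (fun a _ ha => by simp [ha]) (by simp)]
        simp only [if_true]
        rw [← sum_div, div_le_iff₀ (by positivity)]
        refine (hdeg u).trans (le_of_eq ?_)
        ring)
      (fun i hi => ne_of_mem hR.1 (mem_of_A fun h => hi (by simp [h])))
      (fun i => by
        split_ifs with hi
        · refine (hcnt i.1 i.2).trans (le_of_eq ?_)
          rw [card_Rw3 w _ h1, hDn, show j + 1 + 2 - 3 = j by omega]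
          field_simp
          ring
        · refine (W_mono (F' := fun _ => 0 * 1) fun f h0 _ _ => ?_).trans ?_
          · rw [if_neg, zero_mul]
            rintro ⟨-, h2, -⟩
            rw [h1, h0] at h2
            exact hi h2.symm
          · rw [W_mul]
            simp)
    refine le_trans (le_of_eq ?_) (key.trans hC)
    congr 2
    rw [Fintype.sum_prod_type, sum_eq_single u (fun a _ ha => by simp [ha]) (by simp)]
    simp only [Pi1, if_true, sum_div, div_mul_eq_mul_div]

end Crest.Agent.R30
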