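import Crest.Agent.R30.Defs

/-! # R30 MOM: high moments of extension counts -/

set_option autoImplicit false

namespace Crest.Agent.R30

open Finset

namespace MomA

variable {n v : ℕ}

/-- image of the pattern edges -/
def img (E : Finset (Fin v × Fin v)) (ψ : Fin v → Fin n) : Gr n :=
  E.image fun e => s(ψ e.1, ψ e.2)

open Classical in
/-- injective maps extending `φ` on the roots -/
noncomputable def Ψ (R : Finset (Fin v)) (φ : Fin v → Fin n) : Finset (Fin v → Fin n) :=
  univ.filter fun ψ => Function.Injective ψ ∧ ∀ i ∈ R, ψ i = φ i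

theorem mem_Ψ {R : Finset (Fin v)} {φ ψ : Fin v → Fin n} :
    ψ ∈ Ψ R φ ↔ Function.Injective ψ ∧ ∀ i ∈ R, ψ i = φ i := by
  simp [Ψ]

theorem cnt_eq (G : Gr n) (R : Finset (Fin v)) (E : Finset (Fin v × Fin v)) (φ : Fin v → Fin n) :
    (Cnt G R E φ : ℝ) = ∑ ψ ∈ Ψ R φ, if img E ψ ⊆ G then 1 else 0 := by
  classical
  rw [sum_boole, Cnt]
  congr 2
  ext ψ
  simp only [mem_filter, mem_univ, true_and, mem_Ψ, img, image_subset_iff, and_assoc]

theorem card_E (E : Finset (Fin v × Fin v)) : E.card ≤ v ^ 2 := by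
  have := card_le_univ E
  rwa [Fintype.card_prod, Fintype.card_fin, ← pow_two] at this

theorem new_edges {E : Finset (Fin v × Fin v)} (hE : ∀ e ∈ E, e.1 < e.2) {ψ : Fin v → Fin n}
    (hψ : Function.Injective ψ) {H : Gr n} {W : Finset (Fin n)}
    (hW : ∀ a b, s(a, b) ∈ H → a ∈ W ∧ b ∈ W) :
    E.card - eIn E (univ.filter fun i => ψ i ∈ W) ≤ (img E ψ \ H).card := by
  classical
  set S := univ.filter fun i => ψ i ∈ W with hS
  have h1 := card_filter_add_card_filter_not (s := E) (fun e => e.1 ∈ S ∧ e.2 ∈ S)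
  have h2 : (E.filter fun e => ¬(e.1 ∈ S ∧ e.2 ∈ S)).card ≤ (img E ψ \ H).card := by
    refine card_le_card_of_injOn (fun e => s(ψ e.1, ψ e.2)) (fun e he => ?_) ?_
    · rw [coe_filter] at he
      refine mem_coe.2 (mem_sdiff.2 ⟨mem_image_of_mem _ he.1, fun h => he.2 ?_⟩)
      simpa [hS] using hW _ _ h
    · intro e he e' he' h
      have l1 := hE e (mem_filter.1 he).1
      have l2 := hE e' (mem_filter.1 he').1
      rcases Sym2.eq_iff.1 h with ⟨a, b⟩ | ⟨a, b⟩
      · exact Prod.ext (hψ a) (hψ b)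
      · rw [hψ a, hψ b] at l1
        exact absurd (l1.trans l2) (lt_irrefl _)
  unfold eIn
  omega

theorem card_fib (R S : Finset (Fin v)) (hRS : R ⊆ S) (φ : Fin v → Fin n) (W : Finset (Fin n)) :
    ((Ψ R φ).filter fun ψ => (univ.filter fun i => ψ i ∈ W) = S).card ≤
      W.card ^ (S \ R).card * n ^ (v - S.card) := by
  classical
  have hsub : ((Ψ R φ).filter fun ψ => (univ.filter fun i => ψ i ∈ W) = S) ⊆
      Fintype.piFinset fun i => if i ∈ S then (if i ∈ R then {φ i} else W) else univ := by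
    intro ψ hψ
    obtain ⟨h1, h2⟩ := mem_filter.1 hψ
    rw [Fintype.mem_piFinset]
    intro i
    split_ifs with a b
    · exact mem_singleton.2 ((mem_Ψ.1 h1).2 i b)
    · rw [← h2] at a
      exact (mem_filter.1 a).2
    · exact mem_univ _
  refine (card_le_card hsub).trans (le_of_eq ?_)
  rw [Fintype.card_piFinset]
  simp only [apply_ite card, card_singleton, card_univ, Fintype.card_fin]
  rw [prod_ite, prod_ite, prod_const_one, one_mul, prod_const, prod_const]
  congr 2
  · congr 1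
    ext i
    simp
  · rw [filter_not, filter_mem_eq_inter, univ_inter, card_univ_sdiff, Fintype.card_fin]

theorem one_step {m0 v0 r : ℕ} {p pt ε ξ : ℝ} (hn : 1 ≤ n) (hm0 : 1 ≤ m0) (hp : 0 < p)
    (hpt : p ≤ pt) (hpt1 : pt ≤ 1) (hε : 0 < ε) (hξ : ξ = r * v0 / (n * p ^ 2)) (hξ1 : ξ ≤ 1)
    (h1 : 2 ^ v0 * ξ ≤ ε / 4) (h2 : 2 ^ v0 * ξ ^ m0 / p ^ 3 ≤ ε / 4) (hv : v ≤ v0)
    {R : Finset (Fin v)} {E : Finset (Fin v × Fin v)} (hS : Safe m0 R E) (φ : Fin v → Fin n)
    {H : Gr n} {W : Finset (Fin n)} (hW : ∀ a b, s(a, b) ∈ H → a ∈ W ∧ b ∈ W)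
    (hR : ∀ i ∈ R, φ i ∈ W) (hWc : W.card ≤ r * v0) :
    ∑ ψ ∈ Ψ R φ, pt ^ (img E ψ \ H).card ≤
      (1 + ε / 4) * ((n : ℝ) ^ (v - R.card) * pt ^ E.card) := by
  classical
  have hn0 : (0 : ℝ) < n := by exact_mod_cast hn
  have hpt0 : 0 < pt := hp.trans_le hpt
  have hp1 : p ≤ 1 := hpt.trans hpt1
  have hξ0 : 0 ≤ ξ := by rw [hξ]; positivity
  set M := (n : ℝ) ^ (v - R.card) * pt ^ E.card with hM
  have hM0 : 0 < M := by positivity
  rw [← sum_fiberwise_of_maps_to (t := univ.filter fun S : Finset (Fin v) => R ⊆ S)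
    (g := fun ψ => univ.filter fun i => ψ i ∈ W) (fun ψ hψ => by
      refine mem_filter.2 ⟨mem_univ _, fun i hi => mem_filter.2 ⟨mem_univ _, ?_⟩⟩
      rw [(mem_Ψ.1 hψ).2 i hi]
      exact hR i hi)]
  have key : ∀ S ∈ univ.filter fun S : Finset (Fin v) => R ⊆ S,
      ∑ ψ ∈ (Ψ R φ).filter fun ψ => (univ.filter fun i => ψ i ∈ W) = S,
        pt ^ (img E ψ \ H).card ≤ ((if S = R then 1 else 0) + ε / 4 / 2 ^ v0) * M := by
    intro S hS'
    have hRS : R ⊆ S := (mem_filter.1 hS').2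
    have he : eIn E S ≤ E.card := card_filter_le _ _
    have a1 : ∑ ψ ∈ (Ψ R φ).filter fun ψ => (univ.filter fun i => ψ i ∈ W) = S,
        pt ^ (img E ψ \ H).card ≤
        ((r * v0 : ℝ) ^ (S \ R).card * n ^ (v - S.card)) * pt ^ (E.card - eIn E S) := by
      refine (sum_le_card_nsmul _ _ (pt ^ (E.card - eIn E S)) fun ψ hψ => ?_).trans ?_
      · obtain ⟨b1, b2⟩ := mem_filter.1 hψ
        refine pow_le_pow_of_le_one hpt0.le hpt1 ?_
        rw [← b2]
        exact new_edges hS.1 (mem_Ψ.1 b1).1 hW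
      · rw [nsmul_eq_mul]
        refine mul_le_mul_of_nonneg_right ?_ (by positivity)
        have := (card_fib R S hRS φ W).trans
          (Nat.mul_le_mul_right _ (Nat.pow_le_pow_left hWc _))
        exact_mod_cast this
    refine a1.trans ?_
    have c1 : (S \ R).card + R.card = S.card := card_sdiff_add_card_eq_card hRS
    have c2 : S.card ≤ v := by simpa using card_le_univ S
    have e1 : M = ((n : ℝ) ^ (S \ R).card * pt ^ eIn E S) *
        (n ^ (v - S.card) * pt ^ (E.card - eIn E S)) := by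
      rw [hM, show v - R.card = (S \ R).card + (v - S.card) by omega, pow_add]
      conv_lhs => rw [show E.card = eIn E S + (E.card - eIn E S) by omega, pow_add]
      ring
    have e2 : (r * v0 : ℝ) = ξ * (n * p ^ 2) := by rw [hξ]; field_simp
    rw [e1, mul_assoc, ← mul_assoc _ (_ * _)]
    refine mul_le_mul_of_nonneg_right ?_ (by positivity)
    rw [e2, mul_pow, mul_pow, ← pow_mul]
    have hq : 0 ≤ ε / 4 / 2 ^ v0 := by positivity
    have d1 : p ^ eIn E S ≤ pt ^ eIn E S := pow_le_pow_left₀ hp.le hpt _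
    have hSR : S ≠ R → 1 ≤ (S \ R).card := fun h =>
      card_pos.2 (sdiff_nonempty.2 fun h' => h (Subset.antisymm h' hRS))
    rcases hS.2 S hRS with h | ⟨h, h'⟩
    · have d2 : p ^ (2 * (S \ R).card) ≤ pt ^ eIn E S := (pow_le_pow_of_le_one hp.le hp1 h).trans d1
      refine mul_le_mul ?_ (mul_le_mul_of_nonneg_left d2 (by positivity)) (by positivity)
        (by split_ifs <;> positivity)
      split_ifs with h3
      · have := pow_le_one₀ (n := (S \ R).card) hξ0 hξ1
        linarith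
      · rw [zero_add, le_div_iff₀ (by positivity), mul_comm]
        refine le_trans (mul_le_mul_of_nonneg_left ?_ (by positivity)) h1
        simpa using pow_le_pow_of_le_one hξ0 hξ1 (hSR h3)
    · have d2 : p ^ (2 * (S \ R).card + 3) ≤ pt ^ eIn E S :=
        (pow_le_pow_of_le_one hp.le hp1 h).trans d1
      have d3 : ξ ^ (S \ R).card / p ^ 3 ≤ (if S = R then 1 else 0) + ε / 4 / 2 ^ v0 := by
        have : ξ ^ (S \ R).card / p ^ 3 ≤ ε / 4 / 2 ^ v0 := by
          rw [le_div_iff₀ (by positivity), mul_comm, ← mul_div_assoc]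
          refine le_trans ?_ h2
          exact div_le_div_of_nonneg_right (mul_le_mul_of_nonneg_left
            (pow_le_pow_of_le_one hξ0 hξ1 h') (by positivity)) (by positivity)
        split_ifs <;> linarith
      calc ξ ^ (S \ R).card * ((n : ℝ) ^ (S \ R).card * p ^ (2 * (S \ R).card))
          = ξ ^ (S \ R).card / p ^ 3 * ((n : ℝ) ^ (S \ R).card * p ^ (2 * (S \ R).card + 3)) := by
            rw [pow_add p, div_mul_eq_mul_div, eq_div_iff (by positivity)]; ring
        _ ≤ _ := mul_le_mul d3 (mul_le_mul_of_nonneg_left d2 (by positivity)) (by positivity)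
            (by split_ifs <;> positivity)
  refine (sum_le_sum key).trans ?_
  rw [← sum_mul]
  refine mul_le_mul_of_nonneg_right ?_ hM0.le
  rw [sum_add_distrib, sum_ite_eq', if_pos (by simp), sum_const, nsmul_eq_mul]
  have : ((univ.filter fun S : Finset (Fin v) => R ⊆ S).card : ℝ) ≤ 2 ^ v0 := by
    have h3 := card_le_univ (univ.filter fun S : Finset (Fin v) => R ⊆ S)
    rw [Fintype.card_finset, Fintype.card_fin] at h3
    exact_mod_cast h3.trans (Nat.pow_le_pow_right (by norm_num) hv)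
  have h4 := mul_le_mul_of_nonneg_right this (show 0 ≤ ε / 4 / 2 ^ v0 by positivity)
  rw [mul_div_cancel₀ _ (by positivity)] at h4
  linarith

theorem moment {v0 r : ℕ} {ν : Gr n → ℝ} {κ pt Z : ℝ} (hκ : 0 ≤ κ) (hpt : 0 ≤ pt) (hZ : 0 ≤ Z)
    (hv : v ≤ v0) {R : Finset (Fin v)} {E : Finset (Fin v × Fin v)} (φ : Fin v → Fin n)
    (hstep : ∀ (H : Gr n) (W : Finset (Fin n)), (∀ a b, s(a, b) ∈ H → a ∈ W ∧ b ∈ W) →
      (∀ i ∈ R, φ i ∈ W) → W.card ≤ r * v0 → ∑ ψ ∈ Ψ R φ, pt ^ (img E ψ \ H).card ≤ Z)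
    (hF : ∀ F : Gr n, F.card ≤ r * v0 ^ 2 →
      ∑ G, ν G * (if F ⊆ G then 1 else 0) ≤ κ * pt ^ F.card) (j : ℕ) :
    ∀ (H : Gr n) (W : Finset (Fin n)), (∀ a b, s(a, b) ∈ H → a ∈ W ∧ b ∈ W) →
      (∀ i ∈ R, φ i ∈ W) → W.card + j * v0 ≤ (r + 1) * v0 → H.card + j * v0 ^ 2 ≤ r * v0 ^ 2 →
      ∑ G, ν G * ((if H ⊆ G then 1 else 0) * (Cnt G R E φ : ℝ) ^ j) ≤ κ * pt ^ H.card * Z ^ j := by
  classical
  induction j with
  | zero =>
    intro H W _ _ _ h
    simpa using hF H (by omega)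
  | succ j ih =>
    intro H W hW hR h1 h2
    have e : ∀ G : Gr n, ν G * ((if H ⊆ G then 1 else 0) * (Cnt G R E φ : ℝ) ^ (j + 1)) =
        ∑ ψ ∈ Ψ R φ, ν G * ((if H ∪ img E ψ ⊆ G then 1 else 0) * (Cnt G R E φ : ℝ) ^ j) := by
      intro G
      rw [pow_succ', ← mul_sum, ← sum_mul, ← mul_assoc (ite _ _ _)]
      congr 2
      rw [cnt_eq, mul_sum]
      refine sum_congr rfl fun ψ _ => ?_
      simp only [union_subset_iff]
      by_cases a : H ⊆ G <;> by_cases b : img E ψ ⊆ G <;> simp [a, b]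
    rw [sum_congr rfl fun G _ => e G, sum_comm]
    have hE : E.card ≤ v0 ^ 2 := (card_E E).trans (Nat.pow_le_pow_left hv 2)
    have b : ∀ ψ ∈ Ψ R φ,
        ∑ G, ν G * ((if H ∪ img E ψ ⊆ G then 1 else 0) * (Cnt G R E φ : ℝ) ^ j) ≤
          κ * pt ^ H.card * Z ^ j * pt ^ (img E ψ \ H).card := by
      intro ψ _
      refine (ih (H ∪ img E ψ) (W ∪ univ.image ψ) ?_ (fun i hi => mem_union_left _ (hR i hi))
        ?_ ?_).trans (le_of_eq ?_)
      · intro a b hab
        rcases mem_union.1 hab with h | h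
        · exact ⟨mem_union_left _ (hW a b h).1, mem_union_left _ (hW a b h).2⟩
        · obtain ⟨e, -, he⟩ := mem_image.1 h
          rcases Sym2.eq_iff.1 he with ⟨rfl, rfl⟩ | ⟨rfl, rfl⟩ <;>
            exact ⟨mem_union_right _ (mem_image_of_mem _ (mem_univ _)),
              mem_union_right _ (mem_image_of_mem _ (mem_univ _))⟩
      · have c1 := card_union_le W (univ.image ψ)
        have c2 : (univ.image ψ).card ≤ v := by simpa using card_image_le (s := univ) (f := ψ)
        rw [add_mul j 1] at h1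
        omega
      · have c1 := card_union_le H (img E ψ)
        have c2 : (img E ψ).card ≤ E.card := card_image_le
        rw [add_mul j 1] at h2
        omega
      · rw [union_comm, ← card_sdiff_add_card, pow_add]
        ring
    refine (sum_le_sum b).trans ?_
    rw [← mul_sum, pow_succ, ← mul_assoc]
    refine mul_le_mul_of_nonneg_left (hstep H W hW hR ?_) (by positivity)
    rw [add_mul j 1, add_mul r 1] at h1
    omega

end MomA

open MomA in
theorem mom_proof : MomStmt := by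
  classical
  intro n m0 v0 r ν κ p pt ε ξ hn hm0 hν hκ hp hpt hpt1 hε hε1 hv0 hξ hξ1 h1 h2 hF
  have hn0 : (0 : ℝ) < n := by exact_mod_cast hn
  have hn1 : (1 : ℝ) ≤ n := by exact_mod_cast hn
  have hpt0 : 0 < pt := hp.trans_le hpt
  set q := κ * Real.exp (-(ε * r / 5)) with hq
  have hq0 : 0 ≤ q := by positivity
  have one : ∀ v ≤ v0, ∀ (R : Finset (Fin v)) (E : Finset (Fin v × Fin v)) (φ : Fin v → Fin n),
      ∑ G, ν G * (if Safe m0 R E ∧
        (1 + ε) * (n : ℝ) ^ (v - R.card) * p ^ E.card < Cnt G R E φ then 1 else 0) ≤ q := by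
    intro v hv R E φ
    by_cases hS : Safe m0 R E
    swap
    · simp [hS, hq0]
    set B := (1 + ε) * (n : ℝ) ^ (v - R.card) * p ^ E.card with hB
    have hB0 : 0 < B := by positivity
    have hm := moment (ν := ν) hκ hpt0.le (by positivity) hv φ
      (fun H W a b c => one_step hn hm0 hp hpt hpt1 hε hξ hξ1 h1 h2 hv hS φ a b c) hF r ∅
      (R.image φ) (by simp) (fun i hi => mem_image_of_mem _ hi) (by
        have c1 : (R.image φ).card ≤ R.card := card_image_le
        have c2 : R.card ≤ v := by simpa using card_le_univ R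
        rw [add_mul r 1]
        omega) (by simp)
    simp only [empty_subset, if_true, one_mul, card_empty, pow_zero, mul_one] at hm
    have a1 : ∀ G, ν G * (if Safe m0 R E ∧ B < Cnt G R E φ then 1 else 0) ≤
        ν G * (Cnt G R E φ : ℝ) ^ r / B ^ r := by
      intro G
      rw [mul_div_assoc]
      refine mul_le_mul_of_nonneg_left ?_ (hν G)
      split_ifs with h
      · rw [one_le_div (by positivity)]
        exact pow_le_pow_left₀ hB0.le h.2.le _
      · positivity
    refine (sum_le_sum fun G _ => a1 G).trans ?_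
    rw [← sum_div, div_le_iff₀ (by positivity)]
    refine hm.trans ?_
    rw [hq, mul_assoc κ]
    refine mul_le_mul_of_nonneg_left ?_ hκ
    rw [show -(ε * r / 5) = r * (-(ε / 5)) by ring, Real.exp_nat_mul, ← mul_pow]
    refine pow_le_pow_left₀ (by positivity) ?_ _
    have hE : E.card ≤ v0 ^ 2 := (card_E E).trans (Nat.pow_le_pow_left hv 2)
    have a2 : pt ^ E.card ≤ (1 + ε / 4) * p ^ E.card := by
      have b1 : (pt / p) ^ E.card ≤ (pt / p) ^ (v0 ^ 2) :=
        pow_le_pow_right₀ ((one_le_div hp).2 hpt) hE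
      have b2 : (pt / p) ^ (v0 ^ 2) ≤ 1 + ε / 4 := by
        rw [div_pow, div_le_iff₀ (by positivity)]; exact hv0
      have b3 := b1.trans b2
      rwa [div_pow, div_le_iff₀ (by positivity)] at b3
    have a3 : (1 + ε / 4) * (1 + ε / 4) ≤ Real.exp (-(ε / 5)) * (1 + ε) := by
      have := Real.add_one_le_exp (-(ε / 5))
      nlinarith
    calc (1 + ε / 4) * ((n : ℝ) ^ (v - R.card) * pt ^ E.card)
        ≤ (1 + ε / 4) * ((n : ℝ) ^ (v - R.card) * ((1 + ε / 4) * p ^ E.card)) := by gcongr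
      _ = (1 + ε / 4) * (1 + ε / 4) * ((n : ℝ) ^ (v - R.card) * p ^ E.card) := by ring
      _ ≤ Real.exp (-(ε / 5)) * (1 + ε) * ((n : ℝ) ^ (v - R.card) * p ^ E.card) := by gcongr
      _ = _ := by rw [hB]; ring
  have ub : ∀ G : Gr n, ν G * (if Ext m0 v0 p ε G then (0 : ℝ) else 1) ≤
      ∑ v ∈ range (v0 + 1), ∑ R : Finset (Fin v), ∑ E : Finset (Fin v × Fin v),
        ∑ φ : Fin v → Fin n, ν G * (if Safe m0 R E ∧
          (1 + ε) * (n : ℝ) ^ (v - R.card) * p ^ E.card < Cnt G R E φ then 1 else 0) := by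
    intro G
    have nn : ∀ (P : Prop) [Decidable P], 0 ≤ ν G * (if P then (1 : ℝ) else 0) := fun P _ =>
      mul_nonneg (hν G) (by split_ifs <;> norm_num)
    split_ifs with h
    · rw [mul_zero]
      exact sum_nonneg fun _ _ => sum_nonneg fun _ _ => sum_nonneg fun _ _ =>
        sum_nonneg fun _ _ => nn _
    · unfold Ext at h
      push Not at h
      obtain ⟨v, hv, R, E, hS, φ, hφ⟩ := h
      set t : (v : ℕ) → Finset (Fin v) → Finset (Fin v × Fin v) → (Fin v → Fin n) → ℝ :=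
        fun v R E φ => ν G * (if Safe m0 R E ∧
          (1 + ε) * (n : ℝ) ^ (v - R.card) * p ^ E.card < Cnt G R E φ then 1 else 0) with ht
      have t0 : ∀ v R E φ, 0 ≤ t v R E φ := fun v R E φ => nn _
      calc ν G * 1 = t v R E φ := by simp only [ht]; rw [if_pos ⟨hS, hφ⟩]
        _ ≤ ∑ φ, t v R E φ := single_le_sum (f := fun φ => t v R E φ) (fun _ _ => t0 _ _ _ _)
            (mem_univ φ)
        _ ≤ ∑ E, ∑ φ, t v R E φ := single_le_sum (f := fun E => ∑ φ, t v R E φ)
            (fun _ _ => sum_nonneg fun _ _ => t0 _ _ _ _) (mem_univ E)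
        _ ≤ ∑ R, ∑ E, ∑ φ, t v R E φ := single_le_sum (f := fun R => ∑ E, ∑ φ, t v R E φ)
            (fun _ _ => sum_nonneg fun _ _ => sum_nonneg fun _ _ => t0 _ _ _ _) (mem_univ R)
        _ ≤ ∑ v ∈ range (v0 + 1), ∑ R, ∑ E, ∑ φ, t v R E φ :=
            single_le_sum (f := fun v => ∑ R, ∑ E, ∑ φ, t v R E φ)
            (fun _ _ => sum_nonneg fun _ _ => sum_nonneg fun _ _ => sum_nonneg fun _ _ =>
              t0 _ _ _ _) (mem_range.2 (Nat.lt_succ_of_le hv))
  refine (sum_le_sum fun G _ => ub G).trans ?_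
  rw [sum_comm]
  have b : ∀ v ∈ range (v0 + 1), ∑ G : Gr n, ∑ R : Finset (Fin v), ∑ E : Finset (Fin v × Fin v),
      ∑ φ : Fin v → Fin n, ν G * (if Safe m0 R E ∧
        (1 + ε) * (n : ℝ) ^ (v - R.card) * p ^ E.card < Cnt G R E φ then 1 else 0) ≤
      2 ^ (v0 + v0 ^ 2) * (n : ℝ) ^ v0 * q := by
    intro v hv'
    have hv : v ≤ v0 := Nat.lt_succ_iff.1 (mem_range.1 hv')
    rw [sum_comm]
    refine (sum_le_card_nsmul _ _ (2 ^ (v0 ^ 2) * (n : ℝ) ^ v0 * q) fun R _ => ?_).trans ?_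
    · rw [sum_comm]
      refine (sum_le_card_nsmul _ _ ((n : ℝ) ^ v0 * q) fun E _ => ?_).trans ?_
      · rw [sum_comm]
        refine (sum_le_card_nsmul _ _ q fun φ _ => one v hv R E φ).trans ?_
        rw [nsmul_eq_mul, card_univ, Fintype.card_fun, Fintype.card_fin, Fintype.card_fin]
        push_cast
        exact mul_le_mul_of_nonneg_right (pow_le_pow_right₀ hn1 hv) hq0
      · rw [nsmul_eq_mul, card_univ, Fintype.card_finset, Fintype.card_prod, Fintype.card_fin,
          mul_assoc]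
        push_cast
        refine mul_le_mul_of_nonneg_right (pow_le_pow_right₀ one_le_two ?_) (by positivity)
        rw [pow_two]
        exact Nat.mul_le_mul hv hv
    · rw [nsmul_eq_mul, card_univ, Fintype.card_finset, Fintype.card_fin, pow_add]
      push_cast
      have : (2 : ℝ) ^ v ≤ 2 ^ v0 := pow_le_pow_right₀ one_le_two hv
      calc (2 : ℝ) ^ v * (2 ^ (v0 ^ 2) * (n : ℝ) ^ v0 * q)
          ≤ 2 ^ v0 * (2 ^ (v0 ^ 2) * (n : ℝ) ^ v0 * q) := by gcongr
        _ = _ := by ring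
  refine (sum_le_card_nsmul _ _ _ b).trans (le_of_eq ?_)
  rw [card_range, nsmul_eq_mul, hq]
  push_cast
  ring

end Crest.Agent.R30
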