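import Crest.Agent.R30.Basic

/-! # Row 30: joint survival of two edges versus the tree probabilities -/

set_option autoImplicit false

namespace Crest.Agent.R30

open Crest.CombinatoricsR.TriangleRemoval Finset

open Classical in
theorem pair_bound (hC : CoupStmt) (hP : ProdStmt) (hCo : ColpStmt) (hL : LinkStmt)
    {n N Q : ℕ} (hQ : 1 ≤ Q) (G : Gr n) (hG : G ⊆ allEdges n) {D ζ : ℝ} (hD : 0 < D)
    (hζ : Real.exp (2 * ζ) ≤ 2) (a : ℕ → ℝ)
    (ha : a = fun i => pr fun z : Fin N → Fin Q => clk z = i)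
    (hs : sq D a N = D * ∑ i ∈ range N, a i * Real.exp (-2 * sq D a i))
    (hR : ∀ k ≤ N, (∀ x y o, x ≠ y → Real.exp (-sq D a k - ζ) ≤ qq G a k x y o ∧
        qq G a k x y o ≤ Real.exp (-sq D a k + ζ)) ∧
      ∀ x y w, x ≠ w → w ≠ y → uu G a k x y w ≤ 1 / 2) (u v u' v' : Fin n) :
    |pr (fun ξ : Finset (Fin n) → Fin N → Fin Q =>
        (s(u, v) ∈ G → al G (fun t => clk (ξ t)) N u v) ∧
          (s(u', v') ∈ G → al G (fun t => clk (ξ t)) N u' v')) -
        (if s(u, v) ∈ G then qq G a N u v none else 1) *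
          (if s(u', v') ∈ G then qq G a N u' v' none else 1)| ≤
      colB (okG G (root u v u' v')) (piT (root u v u' v')) (4 * sq D a N / D) N := by
  have : Nonempty (Fin Q) := ⟨⟨0, hQ⟩⟩
  obtain ⟨hL1, hL2⟩ := hL n G u v u' v'
  obtain ⟨hL2, hL3⟩ := hL2 a
  have h1 := hC (Bool × Fin n) (Finset (Fin n)) (Fin N → Fin Q) (okG G (root u v u' v'))
    (piT (root u v u' v')) clk N (2 * N + 2) (by omega)
  have h2 := (hP (Bool × Fin n) (Fin N → Fin Q) (okG G (root u v u' v')) clk (2 * N + 2) N []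
    (by simp; omega)).1
  have h3 := hCo (Bool × Fin n) (Finset (Fin n)) (Fin N → Fin Q) (okG G (root u v u' v'))
    (piT (root u v u' v')) clk N (2 * N + 2) (fun i => 2 * Real.exp (-2 * sq D a i))
    (4 * sq D a N / D) le_rfl (fun i => by positivity) ?_ ?_
  · rw [h2, ← ha, hL2 N] at h1
    refine le_trans (le_of_eq ?_) (h1.trans h3)
    congr 2
    exact pr_congr fun ξ => (hL1 (fun t => clk (ξ t)) N).symm
  · rw [hs, le_div_iff₀ hD, Finset.sum_mul, Finset.mul_sum, Finset.mul_sum]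
    refine le_of_eq (Finset.sum_congr rfl fun i _ => ?_)
    rw [ha]; ring
  · intro γ hγ hV
    obtain ⟨x, y, w, hxw, hwy, h⟩ := hL3 γ hγ hV
    have n1 := ne_of_mem hG hxw
    have n2 := ne_of_mem hG hwy
    rw [← ha]
    refine ⟨fun i hi => ?_, ?_⟩
    · rw [(h i).2]
      have b1 := (hR i hi.le).1 x w (some y) n1
      have b2 := (hR i hi.le).1 w y (some x) n2
      calc qq G a i x w (some y) * qq G a i w y (some x)
          ≤ Real.exp (-sq D a i + ζ) * Real.exp (-sq D a i + ζ) :=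
            mul_le_mul b1.2 b2.2 ((Real.exp_pos _).le.trans b2.1) (Real.exp_pos _).le
        _ = Real.exp (2 * ζ) * Real.exp (-2 * sq D a i) := by
            rw [← Real.exp_add, ← Real.exp_add]; congr 1; ring
        _ ≤ _ := mul_le_mul_of_nonneg_right hζ (Real.exp_pos _).le
    · rw [(h N).1]
      exact (hR N le_rfl).2 x y w n1 n2

/-- Lower bound on the number of edges from the codegrees and the maximum degree. -/
theorem sum_A_ge {n : ℕ} {G : Gr n} {D η d : ℝ} (hD : 0 < D) (h : Reg G D η)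
    (hd : ∀ u, ∑ w, A G u w ≤ d) :
    (n : ℝ) * (n - 1) * ((1 - η) * D) ≤ d * ∑ u, ∑ v, A G u v := by
  have h1 : ∑ u, ∑ v, Y G u v = ∑ w, (∑ u, A G w u) * (∑ v, A G w v) := by
    unfold Y
    simp_rw [Finset.sum_mul_sum]
    conv_rhs => rw [Finset.sum_comm]
    refine Finset.sum_congr rfl fun u _ => ?_
    rw [Finset.sum_comm]
    refine Finset.sum_congr rfl fun w _ => Finset.sum_congr rfl fun v _ => ?_
    rw [A_symm G u w, A_symm G v w]
  have h2 : ∑ w, (∑ u, A G w u) * (∑ v, A G w v) ≤ d * ∑ u, ∑ v, A G u v := by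
    rw [Finset.mul_sum]
    exact Finset.sum_le_sum fun w _ => mul_le_mul_of_nonneg_right (hd w)
      (Finset.sum_nonneg fun v _ => A_nonneg G w v)
  have h3 : ∀ u : Fin n, ((n : ℝ) - 1) * ((1 - η) * D) ≤ ∑ v, Y G u v := by
    intro u
    have hn : 1 ≤ n := Nat.one_le_iff_ne_zero.2 (by rintro rfl; exact u.elim0)
    calc ((n : ℝ) - 1) * ((1 - η) * D) = ∑ _v ∈ Finset.univ.erase u, (1 - η) * D := by
          rw [Finset.sum_const, Finset.card_erase_of_mem (Finset.mem_univ _), Finset.card_univ,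
            Fintype.card_fin, nsmul_eq_mul, Nat.cast_sub hn]; simp
      _ ≤ ∑ v ∈ Finset.univ.erase u, Y G u v :=
          Finset.sum_le_sum fun v hv => Y_ge hD h (Finset.mem_erase.1 hv).1.symm
      _ ≤ _ := Finset.sum_le_sum_of_subset_of_nonneg (Finset.erase_subset _ _)
          fun v _ _ => Y_nonneg G u v
  calc (n : ℝ) * (n - 1) * ((1 - η) * D) = ∑ _u : Fin n, ((n : ℝ) - 1) * ((1 - η) * D) := by
        simp; ring
    _ ≤ ∑ u, ∑ v, Y G u v := Finset.sum_le_sum fun u _ => h3 u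
    _ ≤ _ := h1 ▸ h2

end Crest.Agent.R30
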