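import Crest.Agent.R30.Basic

/-! # R30 PROD: product formula on the tree -/

set_option autoImplicit false

namespace Crest.Agent.R30

open Finset

namespace ProdA

variable {α Ω : Type} {ok : List α → α → Prop} {L : ℕ} {cl : Ω → ℕ}

theorem tc_congr {ω ω' : Nd α L → Ω} {S : Nd α L → Prop} (h : ∀ j, S j → ω j = ω' j)
    {l : List α} (hl : ∀ h : l.length ≤ L, S ⟨l, h⟩) : tc cl ω l = tc cl ω' l := by
  unfold tc
  split_ifs with h1
  · rw [h _ (hl h1)]
  · rfl

variable [Fintype α] [DecidableEq α] [Fintype Ω] [Nonempty Ω]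

theorem second {k : ℕ} (H : ∀ δ : List α, δ.length + k ≤ L + 1 →
      pr (fun ω : Nd α L → Ω => tc cl ω δ < k ∧ JA ok (tc cl ω) (tc cl ω δ) δ) =
        Uf ok (fun i => pr fun z => cl z = i) k δ) {γ : List α} (hγ : γ.length + k ≤ L)
    (B : Finset α) :
    pr (fun ω : Nd α L → Ω => ∀ x ∈ B, tc cl ω (γ ++ [x]) < k →
        ¬ JA ok (tc cl ω) (tc cl ω (γ ++ [x])) (γ ++ [x])) =
      ∏ x ∈ B, (1 - Uf ok (fun i => pr fun z => cl z = i) k (γ ++ [x])) := by
  rw [pr_forall_of_indep B (fun x (j : Nd α L) => ∃ ρ, j.1 = γ ++ x :: ρ)]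
  · refine prod_congr rfl fun x _ => ?_
    rw [← H _ (by simp; omega), ← pr_not]
    exact pr_congr fun ω => by simp
  · intro y _ ω ω' h
    refine propext ?_
    show (_ → _) ↔ (_ → _)
    rw [tc_congr (cl := cl) h (l := γ ++ [y]) fun _ => ⟨[], rfl⟩,
      JA_congr ok (c := tc cl ω) (c' := tc cl ω') _ _ fun ρ _ _ =>
        tc_congr h fun _ => ⟨ρ, by simp⟩]
  · rintro x _ y _ hxy j ⟨ρ, h1⟩ ⟨ρ', h2⟩
    rw [h1] at h2
    simp [hxy] at h2

theorem first {k : ℕ} (H : ∀ δ : List α, δ.length + k ≤ L + 1 →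
      pr (fun ω : Nd α L → Ω => tc cl ω δ < k ∧ JA ok (tc cl ω) (tc cl ω δ) δ) =
        Uf ok (fun i => pr fun z => cl z = i) k δ) {γ : List α} (hγ : γ.length + k ≤ L) :
    pr (fun ω : Nd α L → Ω => JA ok (tc cl ω) k γ) =
      Qf ok (fun i => pr fun z => cl z = i) k γ := by
  unfold Qf
  rw [← second H hγ]
  exact pr_congr fun ω => by simp [JA_iff ok _ k γ]

theorem upart (k : ℕ) : ∀ δ : List α, δ.length + k ≤ L + 1 →
    pr (fun ω : Nd α L → Ω => tc cl ω δ < k ∧ JA ok (tc cl ω) (tc cl ω δ) δ) =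
      Uf ok (fun i => pr fun z => cl z = i) k δ := by
  induction k with
  | zero => exact fun δ _ => pr_false fun _ h => absurd h.1 (Nat.not_lt_zero _)
  | succ k ih =>
    intro δ hδ
    have hl : δ.length ≤ L := by omega
    show _ = Uf ok _ k δ + pr (fun z => cl z = k) * Qf ok _ k δ
    rw [pr_split _ fun ω => tc cl ω δ < k, ← ih δ (by omega), ← first ih (by omega),
      ← pr_coord (⟨δ, hl⟩ : Nd α L) (fun z => cl z = k),
      ← pr_and_of_indep (S := fun j : Nd α L => j = ⟨δ, hl⟩)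
        (S' := fun j : Nd α L => ∃ ρ, ρ ≠ [] ∧ j.1 = δ ++ ρ)]
    · congr 1
      · exact pr_congr fun ω => ⟨fun h => ⟨h.2, h.1.2⟩, fun h => ⟨⟨by omega, h.2⟩, h.1⟩⟩
      · refine pr_congr fun ω => ?_
        have e : tc cl ω δ = cl (ω ⟨δ, hl⟩) := by rw [tc, dif_pos hl]
        rw [← e]
        constructor
        · rintro ⟨⟨h1, h2⟩, h3⟩
          have : tc cl ω δ = k := by omega
          exact ⟨this, this ▸ h2⟩
        · rintro ⟨h1, h2⟩
          exact ⟨⟨by omega, h1 ▸ h2⟩, by omega⟩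
    · intro ω ω' h
      show (_ = _) = (_ = _)
      rw [h _ rfl]
    · exact fun ω ω' h => propext (JA_congr ok _ _ fun ρ hρ _ => tc_congr h fun _ => ⟨ρ, hρ, rfl⟩)
    · rintro j rfl ⟨ρ, h1, h2⟩
      simp [h1] at h2

end ProdA

open ProdA in
theorem prod_proof : ProdStmt := fun _ _ _ _ _ _ _ _ _ k _ hγ =>
  ⟨first (upart k) hγ, second (upart k) hγ⟩

end Crest.Agent.R30
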