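import Crest.Agent.R30.Basic

/-! # Task 30-REC: solving the tree recursion -/

set_option autoImplicit false

namespace Crest.Agent.R30

open Crest.CombinatoricsR.TriangleRemoval Finset

namespace RecA

variable {n : ℕ}

/-- `opK` as a linear map. -/
noncomputable def KL (D : ℝ) (G : Gr n) : Fn n →ₗ[ℝ] Fn n where
  toFun := opK D G
  map_add' f g := by
    funext u v
    simp only [opK, opL, opR, Pi.add_apply, mul_add, sum_add_distrib, add_div]
    ring
  map_smul' c f := by
    funext u v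
    simp only [opK, opL, opR, Pi.smul_apply, smul_eq_mul, RingHom.id_apply, mul_left_comm _ c,
      ← mul_sum]
    ring

/-- `Uop` as a linear map. -/
noncomputable def UL (D : ℝ) (G : Gr n) (lam : ℕ → ℝ) : ℕ → Fn n →ₗ[ℝ] Fn n
  | 0 => LinearMap.id
  | j + 1 => (KL D G - lam j • LinearMap.id) ∘ₗ UL D G lam j

theorem UL_eq (D : ℝ) (G : Gr n) (lam : ℕ → ℝ) (j : ℕ) (δ : Fn n) :
    UL D G lam j δ = Uop D G lam j δ := by
  induction j with
  | zero => rfl
  | succ j ih => rw [UL, Uop, ← ih]; rfl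

theorem UL_K (D : ℝ) (G : Gr n) (lam : ℕ → ℝ) (j : ℕ) (δ : Fn n) :
    UL D G lam j (KL D G δ) = KL D G (UL D G lam j δ) := by
  induction j with
  | zero => rfl
  | succ j ih => simp [UL, ih]

theorem UL_K' (D : ℝ) (G : Gr n) (lam : ℕ → ℝ) (j : ℕ) (δ : Fn n) :
    UL D G lam j (KL D G δ) = lam j • UL D G lam j δ + UL D G lam (j + 1) δ := by
  rw [UL_K]
  simp [UL]

theorem volterra {x c h : ℕ → ℝ} {g : ℝ} {k : ℕ} (hc : ∀ i < k, 0 ≤ c i ∧ c i ≤ 1)
    (hh : ∀ m ≤ k, |h m| ≤ g) (hx : ∀ m ≤ k, x m = -∑ i ∈ range m, c i * x i + h m) :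
    ∀ m ≤ k, |x m| ≤ 2 * g := by
  have hT : ∀ m ≤ k, |∑ i ∈ range m, c i * x i| ≤ g := by
    intro m hm
    induction m with
    | zero => simpa using (abs_nonneg _).trans (hh 0 hm)
    | succ m ih =>
      have h1 := abs_le.1 (ih (by omega))
      have h2 := abs_le.1 (hh m (by omega))
      obtain ⟨h3, h4⟩ := hc m (by omega)
      rw [sum_range_succ, hx m (by omega), abs_le]
      constructor <;> nlinarith [h1.1, h1.2, h2.1, h2.2]
  intro m hm
  have h1 := abs_le.1 (hT m hm)
  have h2 := abs_le.1 (hh m hm)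
  rw [hx m hm, abs_le]
  constructor <;> linarith [h1.1, h1.2, h2.1, h2.2]

theorem sq_eq (D : ℝ) (a : ℕ → ℝ) (k : ℕ) :
    sq D a k = ∑ i ∈ range k, D * a i * Real.exp (-2 * sq D a i) := by
  induction k with
  | zero => rfl
  | succ k ih => rw [sum_range_succ, ← ih, sq]

theorem uu_eq (G : Gr n) (a : ℕ → ℝ) (k : ℕ) (x y w : Fin n) :
    uu G a k x y w = ∑ i ∈ range k, a i * (qq G a i x w (some y) * qq G a i w y (some x)) := by
  induction k with
  | zero => rfl
  | succ k ih => rw [sum_range_succ, ← ih, uu, qq, qq]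

theorem mem_cn {G : Gr n} {x y z : Fin n} {o : Option (Fin n)} :
    z ∈ cn G x y o ↔ s(x, z) ∈ G ∧ s(y, z) ∈ G ∧ some z ≠ o := by
  simp [cn]

theorem sum_cn (G : Gr n) (x y : Fin n) (f : Fin n → ℝ) :
    ∑ w ∈ cn G x y none, f w = ∑ w, A G x w * A G y w * f w := by
  rw [cn, sum_filter]
  refine sum_congr rfl fun w _ => ?_
  by_cases h1 : s(x, w) ∈ G <;> by_cases h2 : s(y, w) ∈ G <;> simp [A, h1, h2]

theorem log_bd {u : ℝ} (h0 : 0 ≤ u) (h1 : u ≤ 1 / 2) :
    u ≤ -Real.log (1 - u) ∧ -Real.log (1 - u) ≤ u + 2 * u ^ 2 := by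
  have hp : 0 < 1 - u := by linarith
  refine ⟨by linarith [Real.log_le_sub_one_of_pos hp], ?_⟩
  have h2 := Real.one_sub_inv_le_log_of_pos hp
  have h3 : (1 - u)⁻¹ ≤ 1 + u + 2 * u ^ 2 := by
    rw [inv_le_iff_one_le_mul₀ hp]
    nlinarith [mul_nonneg (sq_nonneg u) (show 0 ≤ 1 - 2 * u by linarith)]
  linarith

/-- The downward induction. -/
theorem down {G : Gr n} {D S ζ : ℝ} {lam : ℕ → ℝ} {J k : ℕ} {θ : ℕ → ℝ} {z : ℕ → Fn n}
    (hJ : 1 ≤ J) (hD : 0 < D) (hR : Reg G D 1) (hl : ∀ i, 0 ≤ lam i ∧ lam i ≤ 2) (hS : 1 ≤ S)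
    (hθ : ∀ i < k, 0 ≤ θ i ∧ θ i ≤ 1 / 2) (hs : ∀ m ≤ k, ∑ i ∈ range m, θ i ≤ S)
    (hg : ∀ m ≤ k, Bd (z m + ∑ i ∈ range m, θ i • KL D G (z i)) (51 * S * ζ ^ 2))
    (hJz : ∀ i < k, Bd (Uop D G lam J (z i)) (ζ ^ 2)) :
    Bd (z k) ((2 + 102 * 6 ^ J) ^ J * S ^ J * ζ ^ 2) := by
  set c : ℝ := 2 + 102 * 6 ^ J with hc
  have hc1 : 1 ≤ c := by have : (0 : ℝ) ≤ 6 ^ J := by positivity
                         linarith
  have step : ∀ d j, j + (d + 1) = J →
      (∀ i < k, Bd (UL D G lam (j + 1) (z i)) (c ^ d * S ^ d * ζ ^ 2)) →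
      ∀ m ≤ k, Bd (UL D G lam j (z m)) (c ^ (d + 1) * S ^ (d + 1) * ζ ^ 2) := by
    intro d j hj h m hm u v huv
    have key := volterra (x := fun m => UL D G lam j (z m) u v) (c := fun i => θ i * lam j)
      (h := fun m => UL D G lam j (z m + ∑ i ∈ range m, θ i • KL D G (z i)) u v -
        ∑ i ∈ range m, θ i * UL D G lam (j + 1) (z i) u v)
      (g := 6 ^ j * (51 * S * ζ ^ 2) + S * (c ^ d * S ^ d * ζ ^ 2)) (k := k)
      (fun i hi => ⟨mul_nonneg (hθ i hi).1 (hl j).1, by nlinarith [hθ i hi, hl j]⟩)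
      (fun m hm => by
        have h1 := Bd_Uop hD hR (by positivity) hl (hg m hm) j u v huv
        rw [← UL_eq] at h1
        refine (abs_sub _ _).trans (add_le_add h1 ((abs_sum_le_sum_abs _ _).trans ?_))
        calc _ ≤ ∑ i ∈ range m, θ i * (c ^ d * S ^ d * ζ ^ 2) := sum_le_sum fun i hi => by
              have hi' : i < k := by have := mem_range.1 hi; omega
              rw [abs_mul, abs_of_nonneg (hθ i hi').1]
              exact mul_le_mul_of_nonneg_left (h i hi' u v huv) (hθ i hi').1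
          _ ≤ _ := by
              rw [← sum_mul]
              exact mul_le_mul_of_nonneg_right (hs m hm) (by positivity))
      (fun m _ => by
        simp only [map_add, map_sum, map_smul, UL_K', Pi.add_apply, Finset.sum_apply,
          Pi.smul_apply, smul_eq_mul, mul_add, sum_add_distrib, mul_assoc]
        ring) m hm
    refine key.trans ?_
    have h1 : (6 : ℝ) ^ j ≤ 6 ^ J := pow_le_pow_right₀ (by norm_num) (by omega)
    have h2 : 1 ≤ c ^ d * S ^ d := one_le_mul_of_one_le_of_one_le (one_le_pow₀ hc1) (one_le_pow₀ hS)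
    have h3 : (6 : ℝ) ^ j * 1 ≤ 6 ^ J * (c ^ d * S ^ d) := by gcongr
    have h4 : 0 ≤ S * ζ ^ 2 := by positivity
    have h5 := mul_le_mul_of_nonneg_right h3 h4
    rw [pow_succ c, pow_succ S]
    generalize c ^ d = P at *
    rw [hc]
    nlinarith
  have main : ∀ d j, j + d = J → ∀ i < k, Bd (UL D G lam j (z i)) (c ^ d * S ^ d * ζ ^ 2) := by
    intro d
    induction d with
    | zero =>
      intro j hj i hi
      rw [show j = J from hj, UL_eq]
      simpa using hJz i hi
    | succ d ih => exact fun j hj i hi => step d j hj (ih (j + 1) (by omega)) i hi.le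
  obtain ⟨d, rfl⟩ : ∃ d, J = d + 1 := ⟨J - 1, by omega⟩
  exact step d 0 (by omega) (main d 1 (by omega)) k le_rfl

end RecA

open RecA

set_option maxHeartbeats 1600000 in
theorem rec_proof : RecStmt := by
  intro J hJ
  have hc0 : (0 : ℝ) ≤ (2 + 102 * 6 ^ J) ^ J := by positivity
  refine ⟨(2 + 102 * 6 ^ J) ^ J + 8, by positivity, ?_⟩
  intro lam n G D η ε ζ S a N hl hD hR hU ha hN hS hζ hη hε hSD hC
  set c : ℝ := (2 + 102 * 6 ^ J) ^ J with hc
  have hSJ : S ^ J ≤ S ^ (J + 1) := pow_le_pow_right₀ hS (by omega)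
  have hSJ1 : 1 ≤ S ^ J := one_le_pow₀ hS
  have hC' : (c * S ^ J + 8) * ζ ≤ 1 := by
    refine le_trans (mul_le_mul_of_nonneg_right ?_ hζ.le) hC
    nlinarith
  have hζ8 : ζ ≤ 1 / 8 := by
    have : 0 ≤ c * S ^ J * ζ := by positivity
    nlinarith
  have hR1 : Reg G D 1 := hR.mono (by nlinarith)
  set s := sq D a with hs
  set θ : ℕ → ℝ := fun i => D * a i * Real.exp (-2 * s i) with hθ
  have hθ0 : ∀ i < N, 0 ≤ θ i := fun i hi => by have := (ha i hi).1; positivity
  have hsθ : ∀ k, s k = ∑ i ∈ range k, θ i := sq_eq D a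
  have hs0 : ∀ k ≤ N, 0 ≤ s k := fun k hk => by
    rw [hsθ]
    exact sum_nonneg fun i hi => hθ0 i (by have := mem_range.1 hi; omega)
  have hsS : ∀ k ≤ N, s k ≤ S := fun k hk => by
    refine le_trans ?_ hN
    rw [hsθ, hsθ]
    exact sum_le_sum_of_subset_of_nonneg (range_subset_range.2 hk) fun i hi _ =>
      hθ0 i (mem_range.1 hi)
  have hθ1 : ∀ i < N, θ i ≤ 1 / 2 := fun i hi =>
    (mul_le_of_le_one_right (mul_nonneg hD.le (ha i hi).1)
      (Real.exp_le_one_iff.2 (by linarith [hs0 i hi.le]))).trans (ha i hi).2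
  have hSD1 : S / D ≤ ζ ^ 2 := le_trans (div_le_div_of_nonneg_right (by nlinarith) hD.le) hSD
  have he2 : Real.exp (2 * ζ) ≤ 2 := by
    have := Real.abs_exp_sub_one_le (x := 2 * ζ) (by rw [abs_of_pos (by linarith)]; linarith)
    rw [abs_of_pos (show 0 < 2 * ζ by linarith)] at this
    linarith [le_abs_self (Real.exp (2 * ζ) - 1)]
  let P : ℕ → Prop := fun k => ∀ x y o, x ≠ y → Real.exp (-s k - ζ) ≤ qq G a k x y o ∧
    qq G a k x y o ≤ Real.exp (-s k + ζ)
  have huu : ∀ k ≤ N, (∀ i < k, P i) → ∀ x y w, x ≠ w → w ≠ y →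
      0 ≤ uu G a k x y w ∧ uu G a k x y w ≤ 2 * (S / D) := by
    intro k hk hP x y w h1 h2
    rw [uu_eq]
    have hq : ∀ i ∈ range k, 0 ≤ a i * (qq G a i x w (some y) * qq G a i w y (some x)) ∧
        a i * (qq G a i x w (some y) * qq G a i w y (some x)) ≤ 2 * (θ i / D) := fun i hi => by
      have hi := mem_range.1 hi
      have b1 := hP i hi x w (some y) h1
      have b2 := hP i hi w y (some x) h2
      have b3 := (Real.exp_pos _).le.trans b1.1
      have b4 := (Real.exp_pos _).le.trans b2.1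
      have b5 := (ha i (by omega)).1
      refine ⟨by positivity, ?_⟩
      calc _ ≤ a i * (Real.exp (-s i + ζ) * Real.exp (-s i + ζ)) := by
            gcongr
            exacts [b1.2, b2.2]
        _ = Real.exp (2 * ζ) * (θ i / D) := by
            rw [← Real.exp_add, show -s i + ζ + (-s i + ζ) = 2 * ζ + -2 * s i by ring,
              Real.exp_add, hθ]
            field_simp
        _ ≤ _ := by
            have := hθ0 i (by omega)
            gcongr
    refine ⟨sum_nonneg fun i hi => (hq i hi).1, (sum_le_sum fun i hi => (hq i hi).2).trans ?_⟩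
    rw [← mul_sum, ← sum_div, ← hsθ]
    have := hsS k hk
    gcongr
  have hhalf : 2 * (S / D) ≤ 1 / 2 := by nlinarith
  have main : ∀ k ≤ N, P k := by
    intro k
    induction k using Nat.strong_induction_on with
    | _ k ih =>
    intro hk
    have hP : ∀ i < k, P i := fun i hi => ih i hi (by omega)
    have hu : ∀ m ≤ k, ∀ x y o, ∀ w ∈ cn G x y o,
        0 ≤ uu G a m x y w ∧ uu G a m x y w ≤ 2 * (S / D) := fun m hm x y o w hw =>
      huu m (by omega) (fun i hi => hP i (by omega)) x y w (ne_of_mem hR.1 (mem_cn.1 hw).1)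
        (ne_of_mem hR.1 (mem_cn.1 hw).2.1).symm
    have hpos : ∀ m ≤ k, ∀ x y o, ∀ w ∈ cn G x y o, 0 < 1 - uu G a m x y w :=
      fun m hm x y o w hw => by linarith [(hu m hm x y o w hw).2]
    have hqpos : ∀ m ≤ k, ∀ x y o, 0 < qq G a m x y o := fun m hm x y o =>
      prod_pos (hpos m hm x y o)
    have hlog : ∀ m ≤ k, ∀ x y o, -Real.log (qq G a m x y o) =
        ∑ w ∈ cn G x y o, -Real.log (1 - uu G a m x y w) := fun m hm x y o => by
      rw [qq, Real.log_prod fun w hw => (hpos m hm x y o w hw).ne', sum_neg_distrib]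
    set z : ℕ → Fn n := fun m x y => -Real.log (qq G a m x y none) - s m with hz
    have ho : ∀ m ≤ k, ∀ x y o, |-Real.log (qq G a m x y o) - s m - z m x y| ≤ 4 * ζ ^ 2 := by
      intro m hm x y o
      have e0 : -Real.log (qq G a m x y o) - s m - z m x y =
          -(∑ w ∈ cn G x y none, -Real.log (1 - uu G a m x y w) -
            ∑ w ∈ cn G x y o, -Real.log (1 - uu G a m x y w)) := by
        rw [← hlog m hm, ← hlog m hm, hz]; ring
      have hsub : cn G x y o ⊆ cn G x y none := fun w hw =>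
        mem_cn.2 ⟨(mem_cn.1 hw).1, (mem_cn.1 hw).2.1, by simp⟩
      rw [e0, abs_neg, ← sum_sdiff_eq_sub hsub]
      have hcard : (cn G x y none \ cn G x y o).card ≤ 1 := card_le_one.2 fun w hw w' hw' => by
        rw [mem_sdiff, mem_cn, mem_cn] at hw hw'
        have e1 : some w = o := by by_contra h; exact hw.2 ⟨hw.1.1, hw.1.2.1, h⟩
        have e2 : some w' = o := by by_contra h; exact hw'.2 ⟨hw'.1.1, hw'.1.2.1, h⟩
        exact Option.some.inj (e1.trans e2.symm)
      refine (abs_sum_le_sum_abs _ _).trans ((sum_le_card_nsmul _ _ (4 * ζ ^ 2)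
        fun w hw => ?_).trans ?_)
      · obtain ⟨b1, b2⟩ := hu m hm x y none w (mem_sdiff.1 hw).1
        obtain ⟨b3, b4⟩ := log_bd b1 (b2.trans hhalf)
        rw [abs_of_nonneg (b1.trans b3)]
        nlinarith
      · rw [nsmul_eq_mul]
        exact mul_le_of_le_one_left (by positivity) (by exact_mod_cast hcard)
    have hzb : ∀ i < k, Bd (z i) ζ := fun i hi x y hxy => by
      obtain ⟨b1, b2⟩ := hP i hi x y none hxy
      have b3 := (Real.le_log_iff_exp_le (hqpos i hi.le x y none)).2 b1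
      have b4 := (Real.log_le_iff_le_exp (hqpos i hi.le x y none)).2 b2
      rw [abs_le]
      constructor <;> simp only [hz] <;> linarith
    have hprod : ∀ i < k, ∀ x y w, x ≠ w → w ≠ y →
        |qq G a i x w (some y) * qq G a i w y (some x) -
          Real.exp (-2 * s i) * (1 - z i x w - z i w y)| ≤ Real.exp (-2 * s i) * (17 * ζ ^ 2) := by
      intro i hi x y w h1 h2
      have b1 := abs_le.1 (ho i hi.le x w (some y))
      have b2 := abs_le.1 (ho i hi.le w y (some x))
      have b3 := abs_le.1 (hzb i hi x w h1)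
      have b4 := abs_le.1 (hzb i hi w y h2)
      set t := Real.log (qq G a i x w (some y)) + Real.log (qq G a i w y (some x)) + 2 * s i with ht
      have e1 : qq G a i x w (some y) * qq G a i w y (some x) =
          Real.exp (-2 * s i) * Real.exp t := by
        rw [← Real.exp_add, ht, show ∀ p q r : ℝ, -2 * r + (p + q + 2 * r) = p + q by intros; ring,
          Real.exp_add, Real.exp_log (hqpos i hi.le _ _ _), Real.exp_log (hqpos i hi.le _ _ _)]
      have b5 : |t| ≤ 3 * ζ := by rw [abs_le]; constructor <;> nlinarith [b1.1, b1.2, b2.1, b2.2]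
      have b6 := abs_le.1 (Real.abs_exp_sub_one_sub_id_le (x := t) (by linarith))
      have b7 : t ^ 2 ≤ (3 * ζ) ^ 2 := sq_le_sq' (abs_le.1 b5).1 (abs_le.1 b5).2
      rw [e1, ← mul_sub, abs_mul, abs_of_pos (Real.exp_pos _)]
      refine mul_le_mul_of_nonneg_left ?_ (Real.exp_pos _).le
      rw [abs_le]
      constructor <;> nlinarith [b1.1, b1.2, b2.1, b2.2, b6.1, b6.2]
    have hg : ∀ m ≤ k, Bd (z m + ∑ i ∈ range m, θ i • KL D G (z i)) (51 * S * ζ ^ 2) := by
      intro m hm x y hxy
      have hY := Y_le hD hR1 hxy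
      have hyy := abs_le.1 (hR.2 x y hxy)
      have e1 : (z m + ∑ i ∈ range m, θ i • KL D G (z i)) x y =
          ∑ w ∈ cn G x y none, (-Real.log (1 - uu G a m x y w) - uu G a m x y w) +
          ∑ i ∈ range m, (a i * ∑ w ∈ cn G x y none,
            (qq G a i x w (some y) * qq G a i w y (some x) -
              Real.exp (-2 * s i) * (1 - z i x w - z i w y)) + θ i * yy D G x y) := by
        have e2 : ∀ i, a i * ∑ w ∈ cn G x y none,
            (qq G a i x w (some y) * qq G a i w y (some x) -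
              Real.exp (-2 * s i) * (1 - z i x w - z i w y)) + θ i * yy D G x y =
            ∑ w ∈ cn G x y none, a i * (qq G a i x w (some y) * qq G a i w y (some x)) +
              θ i * KL D G (z i) x y - θ i := fun i => by
          rw [sum_sub_distrib, ← mul_sum, ← mul_sum, sum_cn G x y fun w => 1 - z i x w - z i w y]
          change _ = _ + θ i * opK D G (z i) x y - θ i
          simp only [opK, opL, opR, yy, Y, hθ, mul_sub, sum_sub_distrib, mul_one]
          field_simp
          ring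
        simp only [e2]
        rw [sum_sub_distrib, sum_sub_distrib, sum_add_distrib, sum_comm (s := range m), ← hsθ]
        simp only [← uu_eq G a m, Pi.add_apply, Finset.sum_apply, Pi.smul_apply, smul_eq_mul]
        rw [← hlog m hm]
        have : z m x y = -Real.log (qq G a m x y none) - s m := rfl
        rw [this]
        ring
      rw [e1]
      have b1 : |∑ w ∈ cn G x y none, (-Real.log (1 - uu G a m x y w) - uu G a m x y w)| ≤
          16 * ζ ^ 2 := by
        rw [sum_cn]
        refine (abs_sum_AA_le (b := 2 * (2 * (S / D)) ^ 2) _ x y fun w h1 h2 => ?_).trans ?_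
        · obtain ⟨b1, b2⟩ := hu m hm x y none w (mem_cn.2 ⟨h1, h2, by simp⟩)
          obtain ⟨b3, b4⟩ := log_bd b1 (b2.trans hhalf)
          rw [abs_of_nonneg (by linarith)]
          nlinarith
        · calc _ ≤ (1 + 1) * D * (2 * (2 * (S / D)) ^ 2) := by gcongr
            _ = 16 * (S ^ 2 / D) := by field_simp; norm_num
            _ ≤ _ := by linarith
      have b2 : ∀ i ∈ range m, |a i * ∑ w ∈ cn G x y none,
          (qq G a i x w (some y) * qq G a i w y (some x) -
            Real.exp (-2 * s i) * (1 - z i x w - z i w y)) + θ i * yy D G x y| ≤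
          θ i * (35 * ζ ^ 2) := fun i hi => by
        have hi' : i < k := by have := mem_range.1 hi; omega
        have h0 := (ha i (by omega)).1
        have h1 := hθ0 i (by omega)
        have h2 := abs_sum_AA_le (G := G) _ x y fun w h1 h2 =>
          hprod i hi' x y w (ne_of_mem hR.1 h1) (ne_of_mem hR.1 h2).symm
        rw [← sum_cn] at h2
        refine (abs_add_le _ _).trans ?_
        rw [abs_mul, abs_mul, abs_of_nonneg h0, abs_of_nonneg h1]
        calc _ ≤ a i * ((1 + 1) * D * (Real.exp (-2 * s i) * (17 * ζ ^ 2))) + θ i * ζ ^ 2 := by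
              gcongr
              · exact h2.trans (by gcongr)
              · exact (hR.2 x y hxy).trans hη
          _ = _ := by rw [hθ]; ring
      have b3 := (abs_sum_le_sum_abs _ _).trans (sum_le_sum b2)
      rw [← sum_mul, ← hsθ] at b3
      refine (abs_add_le _ _).trans ((add_le_add b1 b3).trans ?_)
      have := hsS m (by omega)
      nlinarith [sq_nonneg ζ, mul_le_mul_of_nonneg_right this (sq_nonneg ζ),
        mul_le_mul_of_nonneg_right hS (sq_nonneg ζ)]
    have hzk := down (k := k) (θ := θ) (z := z) hJ hD hR1 hl hS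
      (fun i hi => ⟨hθ0 i (by omega), hθ1 i (by omega)⟩)
      (fun m hm => by rw [← hsθ]; exact hsS m (by omega)) hg
      fun i hi => (hU _ ζ hζ.le (hzb i hi)).mono (by nlinarith)
    intro x y o hxy
    have b1 := abs_le.1 (hzk x y hxy)
    have b2 := abs_le.1 (ho k le_rfl x y o)
    rw [← hc] at b1
    have b3 := mul_le_mul_of_nonneg_right hC' hζ.le
    rw [← Real.le_log_iff_exp_le (hqpos k le_rfl x y o),
      ← Real.log_le_iff_le_exp (hqpos k le_rfl x y o)]
    constructor <;> nlinarith [b1.1, b1.2, b2.1, b2.2, sq_nonneg ζ]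
  exact fun k hk => ⟨main k hk, fun x y w h1 h2 =>
    (huu k hk (fun i hi => main i (by omega)) x y w h1 h2).2.trans hhalf⟩

end Crest.Agent.R30
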