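import Crest.Agent.R30.Basic

/-! Task 30-ROUND: independent clocks. -/

set_option autoImplicit false

namespace Crest.Agent.R30

open Crest.CombinatoricsR.TriangleRemoval Finset

namespace RoundAux

theorem clk_cons {N Q : ℕ} (a : Fin Q) (z : Fin N → Fin Q) :
    clk (Fin.cons a z : Fin (N + 1) → Fin Q) = if (a : ℕ) = 0 then 0 else clk z + 1 := by
  have hs : ∀ i : ℕ, (i + 1 ∈ {i : ℕ | N + 1 ≤ i ∨ ∃ h : i < N + 1,
      ((Fin.cons a z : Fin (N + 1) → Fin Q) ⟨i, h⟩ : ℕ) = 0}) ↔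
      i ∈ {i : ℕ | N ≤ i ∨ ∃ h : i < N, (z ⟨i, h⟩ : ℕ) = 0} := by
    intro i
    simp only [Set.mem_ofPred_eq, Nat.add_le_add_iff_right, Nat.add_lt_add_iff_right]
    refine or_congr Iff.rfl ⟨fun ⟨h, h'⟩ => ⟨by omega, h'⟩, fun ⟨h, h'⟩ => ⟨by omega, h'⟩⟩
  have h0 : (0 ∈ {i : ℕ | N + 1 ≤ i ∨ ∃ h : i < N + 1,
      ((Fin.cons a z : Fin (N + 1) → Fin Q) ⟨i, h⟩ : ℕ) = 0}) ↔ (a : ℕ) = 0 := by
    simp only [Set.mem_ofPred_eq]
    constructor
    · rintro (h | ⟨_, h⟩)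
      · omega
      · exact h
    · exact fun h => Or.inr ⟨Nat.succ_pos _, h⟩
  unfold clk
  split_ifs with ha
  · exact Nat.le_zero.mp (Nat.sInf_le (h0.mpr ha))
  · have hne : Set.Nonempty {i : ℕ | N ≤ i ∨ ∃ h : i < N, (z ⟨i, h⟩ : ℕ) = 0} :=
      ⟨N, Or.inl le_rfl⟩
    refine le_antisymm (Nat.sInf_le ((hs _).mpr (Nat.sInf_mem hne))) ?_
    have hne' : Set.Nonempty {i : ℕ | N + 1 ≤ i ∨ ∃ h : i < N + 1,
      ((Fin.cons a z : Fin (N + 1) → Fin Q) ⟨i, h⟩ : ℕ) = 0} := ⟨N + 1, Or.inl le_rfl⟩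
    have hm := Nat.sInf_mem hne'
    generalize sInf {i : ℕ | N + 1 ≤ i ∨ ∃ h : i < N + 1,
      ((Fin.cons a z : Fin (N + 1) → Fin Q) ⟨i, h⟩ : ℕ) = 0} = j at hm
    cases j with
    | zero => exact absurd (h0.mp hm) ha
    | succ j => exact Nat.succ_le_succ (Nat.sInf_le ((hs j).mp hm))

theorem clk_lt_iff {N Q : ℕ} (z : Fin N → Fin Q) : clk z < N ↔ ∃ i, (z i : ℕ) = 0 := by
  have hne : Set.Nonempty {i : ℕ | N ≤ i ∨ ∃ h : i < N, (z ⟨i, h⟩ : ℕ) = 0} := ⟨N, Or.inl le_rfl⟩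
  constructor
  · intro h
    rcases Nat.sInf_mem hne with h' | ⟨h', h''⟩
    · exact absurd h (not_lt.mpr h')
    · exact ⟨_, h''⟩
  · rintro ⟨i, hi⟩
    exact lt_of_le_of_lt (Nat.sInf_le (Or.inr ⟨i.2, hi⟩)) i.2

theorem clk_zero {N Q : ℕ} (z : Fin N → Fin Q) {i : ℕ} (hi : i < N) (h : clk z = i) :
    (z ⟨i, hi⟩ : ℕ) = 0 := by
  have hne : Set.Nonempty {i : ℕ | N ≤ i ∨ ∃ h : i < N, (z ⟨i, h⟩ : ℕ) = 0} := ⟨N, Or.inl le_rfl⟩
  have hm := Nat.sInf_mem hne
  unfold clk at h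
  rw [h] at hm
  rcases hm with h' | ⟨_, h'⟩
  · omega
  · exact h'

theorem pr_zero {Q : ℕ} (hQ : 1 ≤ Q) : pr (fun y : Fin Q => (y : ℕ) = 0) = 1 / Q := by
  unfold pr av
  rw [Fintype.card_fin, Finset.sum_eq_single (⟨0, hQ⟩ : Fin Q)]
  · simp
  · intro b _ hb
    rw [if_neg fun h => hb (Fin.ext h)]
  · intro h
    exact absurd (Finset.mem_univ _) h

theorem partA (N Q : ℕ) (hQ : 1 ≤ Q) :
    (∀ i < N, pr (fun z : Fin N → Fin Q => clk z = i) ≤ 1 / Q) ∧
    ∑ i ∈ range N, pr (fun z : Fin N → Fin Q => clk z = i) = 1 - (1 - 1 / (Q : ℝ)) ^ N := by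
  have : Nonempty (Fin Q) := ⟨⟨0, hQ⟩⟩
  refine ⟨fun i hi => ?_, ?_⟩
  · rw [← pr_zero hQ, ← pr_coord (ι := Fin N) ⟨i, hi⟩ fun y : Fin Q => (y : ℕ) = 0]
    exact pr_mono fun z hz => clk_zero z hi hz
  · have h1 := pr_eq_sum_fiber (range N) (fun z : Fin N → Fin Q => clk z) fun _ => True
    simp only [and_true, Finset.mem_range] at h1
    rw [← h1]
    have h2 := pr_forall_of_indep (ι := Fin N) (Ω := Fin Q) (Finset.univ : Finset (Fin N))
      (fun x i => i = x) (fun x z => ¬ (z x : ℕ) = 0)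
      (fun x _ ω ω' h => by simp only [h x rfl]) (fun x _ y _ hxy i h h' => hxy (h.symm.trans h'))
    have h3 : ∀ x : Fin N, pr (fun z : Fin N → Fin Q => ¬ (z x : ℕ) = 0) = 1 - 1 / (Q : ℝ) := by
      intro x
      rw [pr_coord x fun y : Fin Q => ¬ (y : ℕ) = 0, pr_not, pr_zero hQ]
    simp only [h3, Finset.prod_const, Finset.card_univ, Fintype.card_fin] at h2
    rw [← h2, ← pr_not]
    refine pr_congr fun z => ?_
    rw [clk_lt_iff]
    simp

variable {n Q : ℕ}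

/-- The graph after one round. -/
noncomputable def rnd (G : Gr n) (z : Finset (Fin n) → Fin Q) : Gr n :=
  fin G (fun t => if (z t : ℕ) = 0 then 0 else 1) 1

theorem mem_rnd {G : Gr n} {z : Finset (Fin n) → Fin Q} {u v : Fin n} :
    s(u, v) ∈ rnd G z ↔
      s(u, v) ∈ G ∧ ∀ w, s(u, w) ∈ G → s(v, w) ∈ G → ¬ (z {u, v, w} : ℕ) = 0 := by
  rw [rnd, mem_fin]
  simp [al]

theorem rnd_subset (G : Gr n) (z : Finset (Fin n) → Fin Q) : rnd G z ⊆ G := by
  classical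
  exact Finset.filter_subset _ _

theorem al_shift {G : Gr n} {z : Finset (Fin n) → Fin Q} {c c' : Finset (Fin n) → ℕ}
    (hc : ∀ t, c t = if (z t : ℕ) = 0 then 0 else c' t + 1) : ∀ (k : ℕ) (u v : Fin n),
    s(u, v) ∈ G → (al G c (k + 1) u v ↔ s(u, v) ∈ rnd G z ∧ al (rnd G z) c' k u v) := by
  intro k
  induction k with
  | zero =>
    intro u v huv
    rw [mem_rnd]
    simp [al, hc, huv]
  | succ k ih =>
    intro u v huv
    rw [al, ih u v huv, al, and_assoc]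
    refine and_congr_right fun h1 => and_congr_right fun _ => ⟨fun h w hu hv hk h2 => ?_,
      fun h w hu hv hk h2 => ?_⟩
    · have hu' := rnd_subset G z hu
      have hv' := rnd_subset G z hv
      refine h w hu' hv' (by rw [hc, if_neg ((mem_rnd.mp h1).2 w hu' hv'), hk]) ⟨?_, ?_⟩
      · exact (ih u w hu').mpr ⟨hu, h2.1⟩
      · exact (ih w v (by rwa [Sym2.eq_swap])).mpr ⟨by rwa [Sym2.eq_swap], h2.2⟩
    · have h3 := (ih u w hu).mp h2.1
      have h4 := (ih w v (by rwa [Sym2.eq_swap])).mp h2.2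
      rw [hc] at hk
      refine h w h3.1 (by rw [Sym2.eq_swap]; exact h4.1) ?_ ⟨h3.2, h4.2⟩
      split_ifs at hk <;> omega

theorem fin_shift {G : Gr n} {z : Finset (Fin n) → Fin Q} {c c' : Finset (Fin n) → ℕ}
    (hc : ∀ t, c t = if (z t : ℕ) = 0 then 0 else c' t + 1) (N : ℕ) :
    fin G c (N + 1) = fin (rnd G z) c' N := by
  ext e
  induction e using Sym2.ind with
  | h u v =>
    rw [mem_fin, mem_fin]
    exact ⟨fun h => (al_shift hc N u v h.1).mp h.2, fun h =>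
      ⟨rnd_subset G z h.1, (al_shift hc N u v (rnd_subset G z h.1)).mpr h⟩⟩

theorem fin_zero (G : Gr n) (c : Finset (Fin n) → ℕ) : fin G c 0 = G := by
  ext e
  induction e using Sym2.ind with
  | h u v => simp [mem_fin, al]

theorem rnd_empty {G : Gr n} (hG : G ⊆ allEdges n) {z : Finset (Fin n) → Fin Q}
    (h : ∀ t ∈ triangles G, ¬ (z t : ℕ) = 0) : rnd G z = G := by
  ext e
  induction e using Sym2.ind with
  | h u v =>
    rw [mem_rnd]
    exact ⟨fun h' => h'.1, fun h' => ⟨h', fun w hu hv => h _ (triple_mem_triangles hG h' hu hv)⟩⟩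

theorem exists_third {t : Finset (Fin n)} (ht : t.card = 3) {u v : Fin n} (hu : u ∈ t)
    (hv : v ∈ t) (huv : u ≠ v) : ∃ w, w ≠ u ∧ w ≠ v ∧ t = {u, v, w} := by
  have h1 : ((t.erase u).erase v).card = 1 := by
    rw [Finset.card_erase_of_mem (Finset.mem_erase.mpr ⟨huv.symm, hv⟩),
      Finset.card_erase_of_mem hu, ht]
  obtain ⟨w, hw⟩ := Finset.card_eq_one.mp h1
  have h2 : w ∈ (t.erase u).erase v := by rw [hw]; exact Finset.mem_singleton_self w
  rw [Finset.mem_erase, Finset.mem_erase] at h2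
  refine ⟨w, h2.2.1, h2.1, ?_⟩
  rw [← hw, Finset.insert_erase (Finset.mem_erase.mpr ⟨huv.symm, hv⟩), Finset.insert_erase hu]

theorem rnd_single {G : Gr n} (hG : G ⊆ allEdges n) {z : Finset (Fin n) → Fin Q}
    {t : Finset (Fin n)} (ht : t ∈ triangles G)
    (h : ∀ s ∈ triangles G, ((z s : ℕ) = 0 ↔ s = t)) : rnd G z = G \ t.sym2 := by
  ext e
  induction e using Sym2.ind with
  | h u v =>
    rw [mem_rnd, Finset.mem_sdiff, Finset.mk_mem_sym2_iff]
    refine and_congr_right fun huv => ⟨fun h' ⟨hu, hv⟩ => ?_, fun h' w hu hv hz => h' ?_⟩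
    · obtain ⟨h3, h4⟩ := mem_triangles.mp ht
      obtain ⟨w, hwu, hwv, hw⟩ := exists_third h3 hu hv (ne_of_mem hG huv)
      have hwt : w ∈ t := by rw [hw]; simp
      refine h' w (h4 u hu w hwt hwu.symm) (h4 v hv w hwt hwv.symm) ?_
      rw [← hw]
      exact (h t ht).mpr rfl
    · rw [← (h _ (triple_mem_triangles hG huv hu hv)).mp hz]
      simp

theorem tri_rnd {G : Gr n} {z : Finset (Fin n) → Fin Q} {t : Finset (Fin n)}
    (ht : t ∈ triangles (rnd G z)) : t ∈ triangles G ∧ ¬ (z t : ℕ) = 0 := by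
  obtain ⟨h3, h4⟩ := mem_triangles.mp ht
  refine ⟨mem_triangles.mpr ⟨h3, fun u hu v hv huv => rnd_subset G z (h4 u hu v hv huv)⟩, ?_⟩
  obtain ⟨u, v, w, huv, huw, hvw, rfl⟩ := Finset.card_eq_three.mp h3
  exact (mem_rnd.mp (h4 u (by simp) v (by simp) huv)).2 w
    (rnd_subset G z (h4 u (by simp) w (by simp) huw))
    (rnd_subset G z (h4 v (by simp) w (by simp) hvw))

theorem card_tri_le (G : Gr n) : ((triangles G).card : ℝ) ≤ (n : ℝ) ^ 3 := by
  have h1 := Finset.card_le_card (triangles_subset_T G)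
  rw [card_T] at h1
  exact_mod_cast h1.trans (Nat.choose_le_pow n 3)

theorem av_tri (hQ : 1 ≤ Q) (G : Gr n) :
    av (fun z : Finset (Fin n) → Fin Q => ((triangles (rnd G z)).card : ℝ)) ≤
      (triangles G).card * (1 - 1 / (Q : ℝ)) := by
  classical
  have : Nonempty (Fin Q) := ⟨⟨0, hQ⟩⟩
  have h1 : ∀ z : Finset (Fin n) → Fin Q, ((triangles (rnd G z)).card : ℝ) ≤
      ∑ t ∈ triangles G, if ¬ (z t : ℕ) = 0 then (1 : ℝ) else 0 := by
    intro z
    rw [Finset.sum_boole]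
    exact_mod_cast Finset.card_le_card fun t ht => Finset.mem_filter.mpr (tri_rnd ht)
  refine (av_mono h1).trans (le_of_eq ?_)
  rw [av_sum, ← nsmul_eq_mul, ← Finset.sum_const]
  refine Finset.sum_congr rfl fun t _ => ?_
  rw [← pr_zero hQ, ← pr_not, ← pr_coord (ι := Finset (Fin n)) t]
  unfold pr
  congr 1
  funext z
  congr

theorem sum_harm (φ : ℕ → ℝ) (G : Gr n) :
    ∑ t ∈ triangles G, (hh φ G - hh φ (G \ t.sym2)) = 0 := by
  rw [Finset.sum_sub_distrib, Finset.sum_const, nsmul_eq_mul]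
  by_cases h : (triangles G).card = 0
  · rw [Finset.card_eq_zero.mp h]
    simp
  · have h' : ((triangles G).card : ℝ) ≠ 0 := by exact_mod_cast h
    rw [hh_eq φ G, if_neg h, ← mul_assoc, mul_inv_cancel₀ h', one_mul, sub_self]

theorem pr_single (hQ : 1 ≤ Q) (B : Finset (Finset (Fin n))) {t : Finset (Fin n)} (ht : t ∈ B) :
    pr (fun z : Finset (Fin n) → Fin Q => ∀ s ∈ B, ((z s : ℕ) = 0 ↔ s = t)) =
      1 / Q * (1 - 1 / (Q : ℝ)) ^ (B.card - 1) := by
  have : Nonempty (Fin Q) := ⟨⟨0, hQ⟩⟩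
  rw [pr_forall_of_indep (ι := Finset (Fin n)) (Ω := Fin Q) B (fun x i => i = x)
    (fun s z => (z s : ℕ) = 0 ↔ s = t) (fun x _ ω ω' h => by simp only [h x rfl])
    (fun x _ y _ hxy i h h' => hxy (h.symm.trans h')), ← Finset.mul_prod_erase _ _ ht,
    ← Finset.card_erase_of_mem ht, ← Finset.prod_const]
  congr 1
  · rw [← pr_zero hQ, ← pr_coord (ι := Finset (Fin n)) t fun y : Fin Q => (y : ℕ) = 0]
    exact pr_congr fun z => by simp
  · refine Finset.prod_congr rfl fun s hs => ?_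
    rw [← pr_zero hQ, ← pr_not,
      ← pr_coord (ι := Finset (Fin n)) s fun y : Fin Q => ¬ (y : ℕ) = 0]
    exact pr_congr fun z => by simp [(Finset.mem_erase.mp hs).1]

theorem one_round (hQ : 1 ≤ Q) {G : Gr n} (hG : G ⊆ allEdges n) {φ : ℕ → ℝ} {H : ℝ}
    (hφ : ∀ e ≤ n ^ 2, 0 ≤ φ e ∧ φ e ≤ H) :
    hh φ G ≤ av (fun z : Finset (Fin n) → Fin Q => hh φ (rnd G z)) +
      H * ((n : ℝ) ^ 6 / (Q : ℝ) ^ 2) := by
  classical
  have : Nonempty (Fin Q) := ⟨⟨0, hQ⟩⟩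
  have hH : 0 ≤ H := (hφ 0 (Nat.zero_le _)).1.trans (hφ 0 (Nat.zero_le _)).2
  have h1 : ∀ z : Finset (Fin n) → Fin Q, hh φ G ≤ hh φ (rnd G z) +
      ∑ t ∈ triangles G, (if ∀ s ∈ triangles G, ((z s : ℕ) = 0 ↔ s = t) then (1 : ℝ) else 0) *
        (hh φ G - hh φ (G \ t.sym2)) +
      H * ∑ p ∈ (triangles G).offDiag,
        if (z p.1 : ℕ) = 0 ∧ (z p.2 : ℕ) = 0 then (1 : ℝ) else 0 := by
    intro z
    have hnn : ∀ p ∈ (triangles G).offDiag,
        0 ≤ if (z p.1 : ℕ) = 0 ∧ (z p.2 : ℕ) = 0 then (1 : ℝ) else 0 := fun p _ => by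
      split_ifs <;> norm_num
    have h2 := mul_nonneg hH (Finset.sum_nonneg hnn)
    by_cases hA : ∃ t ∈ triangles G, ∀ s ∈ triangles G, ((z s : ℕ) = 0 ↔ s = t)
    · obtain ⟨t, ht, hs⟩ := hA
      rw [rnd_single hG ht hs, Finset.sum_eq_single t, if_pos hs]
      · linarith
      · intro b hb hbt
        rw [if_neg fun h => hbt ((hs b hb).mp ((h b hb).mpr rfl)), zero_mul]
      · exact fun h => absurd ht h
    · rw [Finset.sum_eq_zero fun t ht => by rw [if_neg fun h => hA ⟨t, ht, h⟩, zero_mul]]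
      by_cases hB : ∀ t ∈ triangles G, ¬ (z t : ℕ) = 0
      · rw [rnd_empty hG hB]
        linarith
      · push Not at hB
        obtain ⟨t, ht, hz⟩ := hB
        have : ∃ s ∈ triangles G, (z s : ℕ) = 0 ∧ s ≠ t := by
          by_contra hn
          push Not at hn
          exact hA ⟨t, ht, fun s hs => ⟨hn s hs, fun h => h ▸ hz⟩⟩
        obtain ⟨s, hs, hzs, hst⟩ := this
        have h3 := Finset.single_le_sum hnn
          (show (s, t) ∈ (triangles G).offDiag from Finset.mem_offDiag.mpr ⟨hs, ht, hst⟩)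
        rw [if_pos ⟨hzs, hz⟩] at h3
        have h4 := (hh_bounds hφ G).2
        have h5 := (hh_bounds hφ (rnd G z)).1
        nlinarith
  have h2 := av_mono h1
  rw [av_const, av_add, av_add, av_sum, av_const_mul, av_sum] at h2
  have h3 : ∑ t ∈ triangles G, av (fun z : Finset (Fin n) → Fin Q =>
      (if ∀ s ∈ triangles G, ((z s : ℕ) = 0 ↔ s = t) then (1 : ℝ) else 0) *
        (hh φ G - hh φ (G \ t.sym2))) = 0 := by
    refine Eq.trans ?_ (mul_eq_zero_of_right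
      (1 / Q * (1 - 1 / (Q : ℝ)) ^ ((triangles G).card - 1)) (sum_harm φ G))
    rw [Finset.mul_sum]
    refine Finset.sum_congr rfl fun t ht => ?_
    rw [av_mul_const, ← pr_single hQ _ ht]
    unfold pr
    congr 2
    funext z
    congr
  have h4 : ∑ p ∈ (triangles G).offDiag, av (fun z : Finset (Fin n) → Fin Q =>
      if (z p.1 : ℕ) = 0 ∧ (z p.2 : ℕ) = 0 then (1 : ℝ) else 0) ≤ (n : ℝ) ^ 6 / (Q : ℝ) ^ 2 := by
    have h5 : ∀ p ∈ (triangles G).offDiag, av (fun z : Finset (Fin n) → Fin Q =>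
        if (z p.1 : ℕ) = 0 ∧ (z p.2 : ℕ) = 0 then (1 : ℝ) else 0) = 1 / (Q : ℝ) ^ 2 := by
      intro p hp
      have h6 := pr_and_of_indep (ι := Finset (Fin n)) (Ω := Fin Q) (S := fun i => i = p.1)
        (S' := fun i => i = p.2) (P := fun z => (z p.1 : ℕ) = 0) (Q := fun z => (z p.2 : ℕ) = 0)
        (fun ω ω' h => by simp only [h _ rfl]) (fun ω ω' h => by simp only [h _ rfl])
        (fun i h h' => (Finset.mem_offDiag.mp hp).2.2 (h.symm.trans h'))
      rw [pr_coord p.1 fun y : Fin Q => (y : ℕ) = 0, pr_coord p.2 fun y : Fin Q => (y : ℕ) = 0,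
        pr_zero hQ] at h6
      rw [show 1 / (Q : ℝ) ^ 2 = 1 / Q * (1 / Q) by ring, ← h6]
      unfold pr
      congr 1
      funext z
      congr
    rw [Finset.sum_congr rfl h5, Finset.sum_const, nsmul_eq_mul, mul_one_div]
    refine div_le_div_of_nonneg_right ?_ (by positivity)
    have h7 : ((triangles G).offDiag.card : ℝ) ≤ (triangles G).card * (triangles G).card := by
      rw [Finset.offDiag_card]
      exact_mod_cast Nat.sub_le _ _
    have h8 := card_tri_le G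
    calc ((triangles G).offDiag.card : ℝ) ≤ (n : ℝ) ^ 3 * (n : ℝ) ^ 3 :=
          h7.trans (mul_le_mul h8 h8 (by positivity) (by positivity))
      _ = _ := by ring
  rw [h3] at h2
  nlinarith [mul_le_mul_of_nonneg_left h4 hH]

/-- Splitting off the first round. -/
def spl (ι : Type) (N Q : ℕ) : (ι → Fin Q) × (ι → Fin N → Fin Q) ≃ (ι → Fin (N + 1) → Fin Q) where
  toFun p := fun t => Fin.cons (p.1 t) (p.2 t)
  invFun ξ := (fun t => ξ t 0, fun t => Fin.tail (ξ t))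
  left_inv p := by simp
  right_inv ξ := by
    funext t
    simp

theorem main (hQ : 1 ≤ Q) {φ : ℕ → ℝ} {H : ℝ} (hφ : ∀ e ≤ n ^ 2, 0 ≤ φ e ∧ φ e ≤ H) :
    ∀ (N : ℕ) (G : Gr n), G ⊆ allEdges n →
    hh φ G ≤ av (fun ξ : Finset (Fin n) → Fin N → Fin Q =>
        φ (fin G (fun t => clk (ξ t)) N).card) +
      H * ((N : ℝ) * (n : ℝ) ^ 6 / (Q : ℝ) ^ 2 + (triangles G).card * (1 - 1 / (Q : ℝ)) ^ N) := by
  have : Nonempty (Fin Q) := ⟨⟨0, hQ⟩⟩
  have hH : 0 ≤ H := (hφ 0 (Nat.zero_le _)).1.trans (hφ 0 (Nat.zero_le _)).2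
  have hq : 0 ≤ 1 - 1 / (Q : ℝ) := by
    have : (1 : ℝ) ≤ Q := by exact_mod_cast hQ
    rw [sub_nonneg, div_le_one (by linarith)]
    exact this
  intro N
  induction N with
  | zero =>
    intro G _
    simp only [fin_zero, av_const, Nat.cast_zero, zero_mul, zero_div, pow_zero, mul_one, zero_add]
    by_cases h : triangles G = ∅
    · rw [hh_of_no_tri φ h, h]
      simp
    · have h1 : (1 : ℝ) ≤ (triangles G).card := by
        exact_mod_cast Finset.card_pos.mpr (Finset.nonempty_iff_ne_empty.mpr h)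
      have h2 := (hh_bounds hφ G).2
      have h3 := (hφ _ (card_Gr_le G)).1
      nlinarith
  | succ N ih =>
    intro G hG
    have h1 := one_round hQ hG hφ
    have h2 := av_mono fun z : Finset (Fin n) → Fin Q =>
      ih (rnd G z) ((rnd_subset G z).trans hG)
    rw [av_add, av_const_mul, av_add, av_const, av_mul_const] at h2
    have h3 := mul_le_mul_of_nonneg_left
      (mul_le_mul_of_nonneg_right (av_tri hQ G) (pow_nonneg hq N)) hH
    have h4 : av (fun ξ : Finset (Fin n) → Fin (N + 1) → Fin Q =>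
        φ (fin G (fun t => clk (ξ t)) (N + 1)).card) =
        av fun z : Finset (Fin n) → Fin Q => av fun ξ : Finset (Fin n) → Fin N → Fin Q =>
          φ (fin (rnd G z) (fun t => clk (ξ t)) N).card := by
      rw [← av_equiv (spl (Finset (Fin n)) N Q), av_prod]
      congr 1
      funext z
      congr 1
      funext ξ
      exact congrArg (fun F : Gr n => φ F.card)
        (fin_shift (z := z) (c' := fun t => clk (ξ t)) (fun t => clk_cons _ _) N)
    rw [h4]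
    push_cast
    have h5 : H * ((N + 1) * (n : ℝ) ^ 6 / (Q : ℝ) ^ 2 +
        (triangles G).card * (1 - 1 / (Q : ℝ)) ^ (N + 1)) =
        H * ((n : ℝ) ^ 6 / (Q : ℝ) ^ 2) + (H * (N * (n : ℝ) ^ 6 / (Q : ℝ) ^ 2) +
        H * ((triangles G).card * (1 - 1 / (Q : ℝ)) * (1 - 1 / (Q : ℝ)) ^ N)) := by ring
    rw [h5]
    rw [mul_add] at h2
    linarith

end RoundAux

theorem round_proof : RoundStmt := by
  refine ⟨RoundAux.partA, fun n N Q G φ H _ hQ hG hφ => (RoundAux.main hQ hφ N G hG).trans ?_⟩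
  have hH : 0 ≤ H := (hφ 0 (Nat.zero_le _)).1.trans (hφ 0 (Nat.zero_le _)).2
  have hq : 0 ≤ 1 - 1 / (Q : ℝ) := by
    have : (1 : ℝ) ≤ Q := by exact_mod_cast hQ
    rw [sub_nonneg, div_le_one (by linarith)]
    exact this
  have := RoundAux.card_tri_le G
  gcongr

end Crest.Agent.R30
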