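import Crest.Agent.R30.S1B

/-! # R30 S1: stage 1 -/

set_option autoImplicit false

namespace Crest.Agent.R30

open Crest.CombinatoricsR.TriangleRemoval Finset

namespace S1

variable {J v0 : ℕ} {lam : ℕ → ℝ} {CA CD : ℝ} {n : ℕ} {x S : ℝ} {s : ℕ → ℝ} {k0 : ℕ}
  {ν : ℕ → Gr n → ℝ}

open Classical in
theorem surv (hS : SurvStmt) (c : Cx J v0 lam CA CD n x S s k0)
    (hν : IsChain step (T n) (good J v0 lam n x S s) (allEdges n) ν) {k : ℕ} (hk : k ≤ k0)
    (F : Gr n) (hF : (F.card : ℝ) ≤ x ^ 3) :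
    ∑ G, ν k G * (if F ⊆ G then 1 else 0) ≤
      2 * Real.exp (-((1 - 1 / x ^ 2) * s k)) ^ F.card := by
  have h := hS n _ _ ν (Dk n s) (1 / x ^ 2) c.n3 hν c.Dpos (fun k G hG => c.reg hG) k F
  rw [c.ssum] at h
  refine h.trans ?_
  rw [Real.exp_add, ← Real.exp_nat_mul, mul_comm]
  have e : -((F.card : ℝ) * (1 - 1 / x ^ 2) * s k) = (F.card : ℝ) * -((1 - 1 / x ^ 2) * s k) := by
    ring
  rw [e]
  refine mul_le_mul_of_nonneg_right ?_ (Real.exp_pos _).le
  have hx := c.xpos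
  have hM := c.Mpos
  have h1 : (F.card : ℝ) ^ 2 * k / (T n).card ≤ 1 / 2 := by
    rw [div_le_iff₀ hM]
    have h2 : (F.card : ℝ) ^ 2 ≤ (x ^ 3) ^ 2 := pow_le_pow_left₀ (Nat.cast_nonneg _) hF 2
    have h3 : (k : ℝ) ≤ k0 := by exact_mod_cast hk
    have h4 : (F.card : ℝ) ^ 2 * k ≤ (x ^ 3) ^ 2 * k0 :=
      mul_le_mul h2 h3 (Nat.cast_nonneg _) (by positivity)
    have h5 := c.kS
    have h6 : 2 * S ≤ x ^ 2 := by
      have := c.Sx; have := c.x8; have := c.Sge; nlinarith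
    have h7 : (x ^ 3) ^ 2 * k0 * x ^ 2 ≤ 1 / 2 * (T n).card * x ^ 2 := by
      calc (x ^ 3) ^ 2 * k0 * x ^ 2 = k0 * x ^ 8 := by ring
        _ ≤ (T n).card * S := h5
        _ ≤ 1 / 2 * (T n).card * x ^ 2 := by nlinarith
    exact h4.trans (le_of_mul_le_mul_right h7 (by positivity))
  calc Real.exp ((F.card : ℝ) ^ 2 * k / (T n).card) ≤ Real.exp (1 / 2) := Real.exp_le_exp.2 h1
    _ ≤ 1 / (1 - 1 / 2) := Real.exp_bound_div_one_sub_of_interval (by norm_num) (by norm_num)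
    _ = 2 := by norm_num

theorem pt_eq (k : ℕ) : Real.exp (-((1 - 1 / x ^ 2) * s k)) =
    Real.exp (s k / x ^ 2) * Real.exp (-s k) := by
  rw [← Real.exp_add]; congr 1; ring

open Classical in
theorem ext_bound (hS : SurvStmt) (hM : MomStmt) (c : Cx J v0 lam CA CD n x S s k0)
    (hν : IsChain step (T n) (good J v0 lam n x S s) (allEdges n) ν) {k : ℕ} (hk : k ≤ k0) :
    ∑ G, ν k G * (if Ext 1000 v0 (Real.exp (-s k)) (1 / x) G then 0 else 1) ≤
      (v0 + 1) * 2 ^ (v0 + v0 ^ 2) * (n : ℝ) ^ v0 * 2 * Real.exp (-(x / 5)) := by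
  have hx := c.xpos
  have hx8 := c.x8
  have hS1 := c.Sge
  have hv : (2 : ℝ) ≤ v0 := by exact_mod_cast c.v2
  have hr1 : x ^ 2 ≤ (⌈x ^ 2⌉₊ : ℝ) := Nat.le_ceil _
  have hr2 : (⌈x ^ 2⌉₊ : ℝ) ≤ 2 * x ^ 2 := by
    have := Nat.ceil_lt_add_one (show 0 ≤ x ^ 2 by positivity)
    have h1 : 1 ≤ x ^ 2 := one_le_pow₀ c.x1
    linarith
  set r := ⌈x ^ 2⌉₊
  have hs0 := c.snn k
  have hsS := c.sS k hk
  have hη : 1 / x ^ 2 ≤ 1 := by simpa using c.inv_le (show 0 ≤ 2 by norm_num)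
  have hε : 1 / x ≤ 1 := by simpa using c.inv_le (show 0 ≤ 1 by norm_num)
  have h2v : (1 : ℝ) ≤ 2 ^ v0 := one_le_pow₀ (by norm_num)
  have hv2 : 2 * (v0 : ℝ) ^ 2 ≤ x := by
    have := c.a4
    nlinarith [sq_nonneg (v0 : ℝ)]
  have hv1 : 2 * (v0 : ℝ) ≤ x := by nlinarith
  have hD := c.Dlo k hk
  have hξ0 : 0 ≤ (r : ℝ) * v0 / (n * Real.exp (-s k) ^ 2) := by positivity
  have hξ1 : (r : ℝ) * v0 / (n * Real.exp (-s k) ^ 2) ≤ 2 * v0 / x ^ 6 := by
    have h1 : (r : ℝ) * v0 / (n * Real.exp (-s k) ^ 2) ≤ (2 * x ^ 2 * v0) / x ^ 8 :=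
      div_le_div₀ (by positivity) (mul_le_mul_of_nonneg_right hr2 (by linarith)) (by positivity) hD
    refine h1.trans (le_of_eq ?_)
    field_simp
  have hξ2 : (r : ℝ) * v0 / (n * Real.exp (-s k) ^ 2) ≤ 1 / x ^ 5 := by
    refine hξ1.trans ?_
    rw [div_le_div_iff₀ (by positivity) (by positivity)]
    calc 2 * (v0 : ℝ) * x ^ 5 ≤ x * x ^ 5 := mul_le_mul_of_nonneg_right hv1 (by positivity)
      _ = 1 * x ^ 6 := by ring
  have h := hM n 1000 v0 r (ν k) 2 (Real.exp (-s k)) (Real.exp (-((1 - 1 / x ^ 2) * s k))) (1 / x)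
    ((r : ℝ) * v0 / (n * Real.exp (-s k) ^ 2)) (by linarith [c.n12]) (by norm_num) (hν.1 k)
    (by norm_num) (Real.exp_pos _) ?_ ?_ (by positivity) hε ?_ rfl ?_ ?_ ?_ ?_
  · refine h.trans (mul_le_mul_of_nonneg_left (Real.exp_le_exp.2 ?_) (by positivity))
    have : x ≤ 1 / x * r := by
      rw [one_div, ← div_eq_inv_mul, le_div_iff₀ hx]; nlinarith
    linarith
  · refine Real.exp_le_exp.2 ?_
    have : 0 ≤ 1 / x ^ 2 * s k := by positivity
    nlinarith
  · exact Real.exp_le_one_iff.2 (neg_nonpos.2 (mul_nonneg (by linarith) hs0))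
  · rw [pt_eq, mul_pow]
    refine mul_le_mul_of_nonneg_right ?_ (by positivity)
    rw [← Real.exp_nat_mul]
    have h1 : ((v0 ^ 2 : ℕ) : ℝ) * (s k / x ^ 2) ≤ 1 / x / 8 := by
      push_cast
      rw [← mul_div_assoc, div_div, div_le_div_iff₀ (by positivity) (by positivity)]
      have h2 : (v0 : ℝ) ^ 2 * s k ≤ (v0 : ℝ) ^ 2 * S := mul_le_mul_of_nonneg_left hsS (sq_nonneg _)
      have h3 := c.a4
      have h4 : 8 * ((v0 : ℝ) ^ 2 * s k) * x ≤ x * x :=
        mul_le_mul_of_nonneg_right (by linarith) hx.le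
      nlinarith
    have h0 : 0 ≤ 1 / x / 8 := by positivity
    have h2 : Real.exp (1 / x / 8) ≤ 1 / (1 - 1 / x / 8) :=
      Real.exp_bound_div_one_sub_of_interval h0 (by linarith)
    refine (Real.exp_le_exp.2 h1).trans (h2.trans ?_)
    rw [div_le_iff₀ (by linarith)]
    nlinarith
  · exact hξ2.trans (by simpa using c.inv_le (show 0 ≤ 5 by norm_num))
  · have h1 : (2 : ℝ) ^ v0 * ((r : ℝ) * v0 / (n * Real.exp (-s k) ^ 2)) ≤ 2 ^ v0 * (2 * v0 / x ^ 6) :=
      mul_le_mul_of_nonneg_left hξ1 (by positivity)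
    refine h1.trans ?_
    rw [← mul_div_assoc, div_div, div_le_div_iff₀ (by positivity) (by positivity)]
    have h2 := c.a5
    have h3 : x ^ 2 ≤ x ^ 6 := c.xpow (by norm_num)
    have h4 : 8 * (v0 : ℝ) * 2 ^ v0 * x ≤ x * x := mul_le_mul_of_nonneg_right h2 hx.le
    nlinarith
  · have hn := c.nR
    have h1 : ((r : ℝ) * v0 / (n * Real.exp (-s k) ^ 2)) ^ 1000 ≤ 1 / (n : ℝ) ^ 5 := by
      refine (pow_le_pow_left₀ hξ0 hξ2 1000).trans (le_of_eq ?_)
      rw [div_pow, one_pow, ← c.xn, ← pow_mul, ← pow_mul]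
    have hp := Real.exp_pos (-s k)
    have h2 : 1 ≤ n * Real.exp (-s k) := by
      have h3 : (n : ℝ) * Real.exp (-s k) ^ 2 ≤ n * Real.exp (-s k) := by
        rw [pow_two, ← mul_assoc]
        exact mul_le_of_le_one_right (by positivity) (c.p1 k)
      have h4 : 1 ≤ x ^ 8 := one_le_pow₀ c.x1
      have h5 : x ^ 8 ≤ (n : ℝ) * Real.exp (-s k) ^ 2 := hD
      linarith
    have h3 : 1 ≤ (n : ℝ) ^ 3 * Real.exp (-s k) ^ 3 := by
      rw [← mul_pow]; exact one_le_pow₀ h2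
    rw [div_le_iff₀ (by positivity)]
    have h4 : (2 : ℝ) ^ v0 * ((r : ℝ) * v0 / (n * Real.exp (-s k) ^ 2)) ^ 1000 ≤
        2 ^ v0 * (1 / (n : ℝ) ^ 5) := mul_le_mul_of_nonneg_left h1 (by positivity)
    refine h4.trans ?_
    rw [mul_one_div, div_le_iff₀ (by positivity)]
    have h5 : 4 * 2 ^ v0 * x ≤ (n : ℝ) ^ 2 := by
      have h6 := c.a5
      have h7 : 4 * (2 : ℝ) ^ v0 ≤ x := by nlinarith
      have h8 : x ^ 2 ≤ x ^ 1000 := c.xpow (by norm_num)
      rw [c.xn] at h8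
      have h9 : 4 * 2 ^ v0 * x ≤ x * x := mul_le_mul_of_nonneg_right h7 hx.le
      nlinarith
    have h6 : (2 : ℝ) ^ v0 ≤ 1 / x / 4 * (n : ℝ) ^ 2 := by
      rw [div_div, one_div, ← div_eq_inv_mul, le_div_iff₀ (by positivity)]
      linarith
    calc (2 : ℝ) ^ v0 ≤ 1 / x / 4 * (n : ℝ) ^ 2 * 1 := by rw [mul_one]; exact h6
      _ ≤ 1 / x / 4 * (n : ℝ) ^ 2 * ((n : ℝ) ^ 3 * Real.exp (-s k) ^ 3) :=
        mul_le_mul_of_nonneg_left h3 (by positivity)
      _ = 1 / x / 4 * Real.exp (-s k) ^ 3 * (n : ℝ) ^ 5 := by ring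
  · intro F hF
    refine surv hS c hν hk F ?_
    have h1 : (F.card : ℝ) ≤ r * (v0 : ℝ) ^ 2 := by exact_mod_cast hF
    have h2 : (r : ℝ) * (v0 : ℝ) ^ 2 ≤ 2 * x ^ 2 * (v0 : ℝ) ^ 2 :=
      mul_le_mul_of_nonneg_right hr2 (sq_nonneg _)
    have h3 : 2 * (v0 : ℝ) ^ 2 * x ^ 2 ≤ x * x ^ 2 := mul_le_mul_of_nonneg_right hv2 (by positivity)
    nlinarith

open Classical in
theorem conc_bound (hC : ConcStmt) (c : Cx J v0 lam CA CD n x S s k0)
    (hν : IsChain step (T n) (good J v0 lam n x S s) (allEdges n) ν) {K : ℕ} (hK : K ≤ k0)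
    {i : ℕ} (hi : i < J) {u v : Fin n} (huv : u ≠ v) :
    ∑ G, ν K G * (if eta x S i < |VV lam s i K G u v| then 1 else 0) ≤ 2 * Real.exp (-x) := by
  have hx := c.xpos
  have hx8 := c.x8
  have hS1 := c.Sge
  have hCD := c.CD0
  have hM := c.Mpos
  have hP := c.P1 i
  have hPJ := c.Pm hi.le
  have hPJ1 := c.P1 J
  have ha2 := c.a2
  have hηp := c.eta_pos i
  have hηp1 := c.eta_pos (i + 1)
  have hCx : CD ≤ x := by
    have : 1 ≤ S * (4 * S) ^ J := one_le_mul_of_one_le_of_one_le hS1 hPJ1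
    nlinarith
  have h := hC (Gr n) (Finset (Fin n)) step (T n) _ _ ν hν (T_nonempty c.n3) K
    (fun k G => VV lam s i k G u v) (fun k => 1 - lam i * (Dk n s k / (T n).card))
    (fun k => Dk n s k / (T n).card) (CD / x ^ 8) (eta x S (i + 1) + CD * (1 / x ^ 2) ^ 2)
    (CD / x ^ 8) S (x ^ 4) (eta x S i / 4) ?_ (by positivity) (by positivity) (by positivity)
    ?_ ?_ ?_
  · refine le_trans (sum_le_sum fun G _ => mul_le_mul_of_nonneg_left ?_ (hν.1 K G)) (h.trans ?_)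
    · have h1 := c.V0_le hi.le u v huv
      have h2 : eta x S (i + 1) * S = eta x S i / 4 := by
        unfold eta; rw [pow_succ (4 * S)]; field_simp
      have h3 : CD * (1 / x ^ 2) ^ 2 * S ≤ eta x S i / 4 := by
        unfold eta
        rw [div_div, le_div_iff₀ (by positivity)]
        have h4 : CD * S * ((4 * S) ^ i * 4) ≤ x ^ 2 := by
          have : CD * S * (4 * S) ^ i ≤ CD * S * (4 * S) ^ J :=
            mul_le_mul_of_nonneg_left hPJ (by positivity)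
          nlinarith
        calc CD * (1 / x ^ 2) ^ 2 * S * ((4 * S) ^ i * 4)
            = CD * S * ((4 * S) ^ i * 4) * (1 / x ^ 2) ^ 2 := by ring
          _ ≤ x ^ 2 * (1 / x ^ 2) ^ 2 := mul_le_mul_of_nonneg_right h4 (by positivity)
          _ = 1 / x ^ 2 := by field_simp
      split_ifs with ha hb
      · exact le_rfl
      · exfalso
        apply hb
        rw [add_mul, h2]
        linarith
      · exact zero_le_one
      · exact le_rfl
    · refine mul_le_mul_of_nonneg_left (Real.exp_le_exp.2 ?_) (by norm_num)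
      have e1 : (x ^ 4) ^ 2 * (CD / x ^ 8) * S = CD * S := by field_simp
      have e2 : x ^ 4 * (eta x S i / 4) = x ^ 2 / (4 * (4 * S) ^ i) := by
        unfold eta; field_simp
      rw [e1, e2]
      have h1 : x + CD * S ≤ x ^ 2 / (4 * (4 * S) ^ i) := by
        rw [le_div_iff₀ (by positivity)]
        have h2 : 8 * (4 * S) ^ i ≤ x := by
          have h3 := c.a3
          have h4 : (1 : ℝ) ≤ 6 ^ J := one_le_pow₀ (by norm_num)
          nlinarith
        have h3 : CD * S * (4 * S) ^ i ≤ CD * S * (4 * S) ^ J :=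
          mul_le_mul_of_nonneg_left hPJ (by positivity)
        have h4 : 8 * (4 * S) ^ i * x ≤ x * x := mul_le_mul_of_nonneg_right h2 hx.le
        nlinarith
      linarith
  · intro k hk
    have hk0 : k ≤ k0 := by omega
    have h1 : Dk n s k / (T n).card ≤ 1 / x ^ 8 := (c.δle k).trans (c.Dinv hk0)
    have h2 : 1 / x ^ 8 ≤ 1 / x := by simpa using c.inv_le (show 1 ≤ 8 by norm_num)
    have h3 : 1 / x ≤ 1 / 8 := one_div_le_one_div_of_le (by norm_num) hx8
    have h4 : 0 ≤ Dk n s k / (T n).card := div_nonneg (c.Dpos k).le hM.le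
    have h5 := c.hl i
    refine ⟨?_, ?_, h4⟩
    · nlinarith [h5.1, h5.2]
    · nlinarith [mul_nonneg h5.1 h4]
  · have e : x ^ 4 * (CD / x ^ 8) = CD / x ^ 4 := by field_simp
    rw [e, div_le_one (by positivity)]
    have : x ^ 1 ≤ x ^ 4 := c.xpow (by norm_num)
    rw [pow_one] at this
    linarith
  · rw [c.ssum]; exact c.sS K hK
  · intro k hk G hG
    have hk0 : k ≤ k0 := by omega
    have hD := c.Dpos k
    have hδ : 0 ≤ Dk n s k / (T n).card := div_nonneg hD.le hM.le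
    have hη2 : 1 / x ^ 2 ≤ 1 / 2 := by
      refine one_div_le_one_div_of_le (by norm_num) ?_
      nlinarith
    have hDη : 1 / Dk n s k ≤ (1 / x ^ 2) ^ 2 := by
      refine (c.Dinv hk0).trans ?_
      rw [div_pow, one_pow, ← pow_mul]
      exact c.inv_le (by norm_num)
    obtain ⟨d1, d2, d3⟩ := c.dr n G (Dk n s k) (Dk n s k / (T n).card) (1 / x ^ 2) lam hD hδ
      (div_mul_cancel₀ _ hM.ne') (c.δle k) hDη (by positivity) hη2 (c.reg hG) c.hl i hi.le u v huv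
    have eZ : ∀ t, VV lam s i (k + 1) (step t G) u v -
        (1 - lam i * (Dk n s k / (T n).card)) * VV lam s i k G u v =
        Zinc (Dk n s k) (Dk n s k / (T n).card) G lam i u v t := fun t => by
      unfold VV Zinc
      rw [c.Dsucc]
    have hCD8 : CD / Dk n s k ≤ CD / x ^ 8 :=
      div_le_div_of_nonneg_left hCD.le (by positivity) (c.Dlo k hk0)
    simp only [eZ]
    refine ⟨fun t ht => (d1 t ht).trans hCD8, ?_, d3.trans (mul_le_mul_of_nonneg_right hCD8 hδ)⟩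
    have h1 := c.next_le hk0 hG hi u v huv
    unfold VV at h1
    have h2 : |Dk n s k / (T n).card * Uop (Dk n s k) G lam (i + 1) (yy (Dk n s k) G) u v| ≤
        Dk n s k / (T n).card * eta x S (i + 1) := by
      rw [abs_mul, abs_of_nonneg hδ]
      exact mul_le_mul_of_nonneg_left h1 hδ
    have h3 := abs_le.1 d2
    have h4 := abs_le.1 h2
    rw [abs_le]
    constructor <;> nlinarith [h3.1, h3.2, h4.1, h4.2]

open Classical in
theorem bad_bound (hC : ConcStmt) (hS : SurvStmt) (hM : MomStmt)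
    (c : Cx J v0 lam CA CD n x S s k0)
    (hν : IsChain step (T n) (good J v0 lam n x S s) (allEdges n) ν) {k : ℕ} (hk : k ≤ k0) :
    ∑ G, ν k G * (if good J v0 lam n x S s k G then 0 else 1) ≤
      (2 * J + (v0 + 1) * 2 ^ (v0 + v0 ^ 2) * 2) * (n : ℝ) ^ v0 * Real.exp (-(x / 5)) := by
  have pt : ∀ G : Gr n, (if good J v0 lam n x S s k G then (0 : ℝ) else 1) ≤
      (if G ⊆ allEdges n then 0 else 1) +
        (∑ i ∈ range J, ∑ u, ∑ v,
          if u ≠ v then (if eta x S i < |VV lam s i k G u v| then 1 else 0) else 0) +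
        (if Ext 1000 v0 (Real.exp (-s k)) (1 / x) G then 0 else 1) := fun G => by
    have n1 : (0 : ℝ) ≤ if G ⊆ allEdges n then 0 else 1 := by split_ifs <;> norm_num
    have n3 : (0 : ℝ) ≤ if Ext 1000 v0 (Real.exp (-s k)) (1 / x) G then 0 else 1 := by
      split_ifs <;> norm_num
    have n0 : ∀ (i : ℕ) (u v : Fin n), (0 : ℝ) ≤
        if u ≠ v then (if eta x S i < |VV lam s i k G u v| then 1 else 0) else 0 := fun i u v => by
      split_ifs <;> norm_num
    have n2 : (0 : ℝ) ≤ ∑ i ∈ range J, ∑ u, ∑ v,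
        if u ≠ v then (if eta x S i < |VV lam s i k G u v| then 1 else 0) else 0 :=
      sum_nonneg fun i _ => sum_nonneg fun u _ => sum_nonneg fun v _ => n0 i u v
    by_cases hg : good J v0 lam n x S s k G
    · rw [if_pos hg]; linarith
    rw [if_neg hg]
    by_cases h1 : G ⊆ allEdges n
    swap
    · rw [if_neg h1]; linarith
    by_cases h3 : Ext 1000 v0 (Real.exp (-s k)) (1 / x) G
    swap
    · rw [if_neg h3]; linarith
    have h2 : ¬ ∀ i < J, Bd (VV lam s i k G) (eta x S i) := fun h2 => hg ⟨h1, h2, h3⟩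
    unfold Bd at h2
    push Not at h2
    obtain ⟨i, hi, u, v, huv, hlt⟩ := h2
    have h4 : (1 : ℝ) ≤ ∑ i ∈ range J, ∑ u, ∑ v,
        if u ≠ v then (if eta x S i < |VV lam s i k G u v| then 1 else 0) else 0 := by
      refine le_trans ?_ (single_le_sum (fun i _ => sum_nonneg fun u _ => sum_nonneg fun v _ =>
        n0 i u v) (mem_range.2 hi))
      refine le_trans ?_ (single_le_sum (fun u _ => sum_nonneg fun v _ => n0 i u v) (mem_univ u))
      refine le_trans ?_ (single_le_sum (fun v _ => n0 i u v) (mem_univ v))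
      rw [if_pos huv, if_pos hlt]
    linarith
  refine (sum_le_sum fun G _ => mul_le_mul_of_nonneg_left (pt G) (hν.1 k G)).trans ?_
  simp only [mul_add, sum_add_distrib]
  have b1 := inv_zero hν (fun G => G ⊆ allEdges n) (Subset.refl _)
    (fun k y hy t _ => (step_subset t y).trans hy.1) k
  have b3 := ext_bound hS hM c hν hk
  have b2 : ∑ G, ν k G * ∑ i ∈ range J, ∑ u, ∑ v,
      (if u ≠ v then (if eta x S i < |VV lam s i k G u v| then (1 : ℝ) else 0) else 0) ≤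
      J * (n * (n * (2 * Real.exp (-x)))) := by
    simp only [mul_sum]
    rw [sum_comm]
    refine le_trans (sum_le_card_nsmul _ _ (n * (n * (2 * Real.exp (-x)))) fun i hi => ?_)
      (by rw [card_range, nsmul_eq_mul])
    rw [sum_comm]
    refine le_trans (sum_le_card_nsmul _ _ (n * (2 * Real.exp (-x))) fun u _ => ?_)
      (by rw [card_univ, Fintype.card_fin, nsmul_eq_mul])
    rw [sum_comm]
    refine le_trans (sum_le_card_nsmul _ _ (2 * Real.exp (-x)) fun v _ => ?_)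
      (by rw [card_univ, Fintype.card_fin, nsmul_eq_mul])
    by_cases huv : u ≠ v
    · simp only [if_pos huv]
      exact conc_bound hC c hν hk (mem_range.1 hi) huv
    · simp only [if_neg huv, mul_zero, sum_const_zero]
      positivity
  have hn := c.nR
  have h1 : (n : ℝ) ^ 2 ≤ (n : ℝ) ^ v0 := pow_le_pow_right₀ (by linarith) c.v2
  have h2 : Real.exp (-x) ≤ Real.exp (-(x / 5)) := Real.exp_le_exp.2 (by linarith [c.xpos])
  have h3 : (n : ℝ) ^ 2 * Real.exp (-x) ≤ (n : ℝ) ^ v0 * Real.exp (-(x / 5)) :=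
    mul_le_mul h1 h2 (Real.exp_pos _).le (by positivity)
  have h4 := mul_le_mul_of_nonneg_left h3 (show (0 : ℝ) ≤ 2 * J by positivity)
  have b1' : ∑ G, ν k G * (if G ⊆ allEdges n then (0 : ℝ) else 1) = 0 := by convert b1
  rw [b1']
  nlinarith

theorem core (hC : ConcStmt) (hS : SurvStmt) (hM : MomStmt) (c : Cx J v0 lam CA CD n x S s k0)
    (hSn : S ≤ n)
    (hE : 2 * (2 * J + (v0 + 1) * 2 ^ (v0 + v0 ^ 2) * 2) * (n : ℝ) ^ (v0 + 6) *
      Real.exp (-(x / 5)) ≤ 1) : S1Out J lam (max 1 CA) n x := by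
  classical
  obtain ⟨ν, hν⟩ := exists_isChain step (T n) (good J v0 lam n x S s) (allEdges n)
  have hx := c.xpos
  have hn := c.nR
  have hle : ∀ G, ν k0 G * (if good J v0 lam n x S s k0 G then 1 else 0) ≤ ν k0 G := fun G =>
    mul_le_of_le_one_right (hν.1 _ _) (by split_ifs <;> norm_num)
  refine ⟨Real.exp (-s k0), Dk n s k0, fun G => ν k0 G *
    (if good J v0 lam n x S s k0 G then 1 else 0), Real.exp_pos _, rfl, c.Dlo k0 le_rfl, c.Dhi,
    fun G => mul_nonneg (hν.1 _ _) (by split_ifs <;> norm_num),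
    (sum_le_sum fun G _ => hle G).trans (mass_le hν k0), fun G hG => ?_, fun F hF => ?_,
    fun φ H hφ => ?_⟩
  · have hg : good J v0 lam n x S s k0 G := by
      by_contra hg
      exact hG (by simp only [if_neg hg, mul_zero])
    refine ⟨c.reg hg, deg_le_of_ext hg.1 c.v2 hg.2.2, fun δ b hb hδ => ?_⟩
    refine (c.annG le_rfl hg δ b hb hδ).mono ?_
    rw [mul_one_div]
    gcongr
    exact le_max_right _ _
  · have h1 := surv hS c hν le_rfl F hF
    have h2 : ∑ G, ν k0 G * (if good J v0 lam n x S s k0 G then 1 else 0) *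
        (if F ⊆ G then (1 : ℝ) else 0) ≤ ∑ G, ν k0 G * (if F ⊆ G then 1 else 0) :=
      sum_le_sum fun G _ => mul_le_mul_of_nonneg_right (hle G) (by split_ifs <;> norm_num)
    have h3 : Real.exp (-((1 - 1 / x ^ 2) * s k0)) ≤ 5 / 4 * Real.exp (-s k0) := by
      rw [pt_eq]
      refine mul_le_mul_of_nonneg_right ?_ (Real.exp_pos _).le
      have h4 : s k0 / x ^ 2 ≤ 1 / 5 :=
        (div_le_div_of_nonneg_right (c.sS k0 le_rfl) (by positivity)).trans c.Sx2
      calc Real.exp (s k0 / x ^ 2) ≤ Real.exp (1 / 5) := Real.exp_le_exp.2 h4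
        _ ≤ 1 / (1 - 1 / 5) := Real.exp_bound_div_one_sub_of_interval (by norm_num) (by norm_num)
        _ = 5 / 4 := by norm_num
    have h5 := pow_le_pow_left₀ (Real.exp_pos _).le h3 F.card
    refine le_trans (le_of_eq ?_) (h2.trans (h1.trans (by linarith)))
    convert rfl
  · have hH : 0 ≤ H := (hφ 0 (Nat.zero_le _)).1.trans (hφ 0 (Nat.zero_le _)).2
    have h1 := harm hν (hh φ) H (fun G => (hh_bounds hφ G).2) (fun _ G _ => hh_step φ c.n3 G) k0
    refine h1.trans (add_le_add (le_of_eq (by convert rfl)) ?_)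
    rw [div_eq_mul_one_div]
    refine mul_le_mul_of_nonneg_left ?_ hH
    refine le_trans (sum_le_card_nsmul _ _ _ fun j hj =>
      bad_bound hC hS hM c hν (Nat.lt_succ_iff.1 (mem_range.1 hj))) ?_
    rw [card_range, nsmul_eq_mul, le_div_iff₀ (by positivity)]
    have h2 : ((k0 + 1 : ℕ) : ℝ) ≤ 2 * (n : ℝ) ^ 4 := by
      have h3 : (k0 : ℝ) * 1 ≤ k0 * x ^ 8 :=
        mul_le_mul_of_nonneg_left (one_le_pow₀ c.x1) (Nat.cast_nonneg _)
      have h4 : ((T n).card : ℝ) * S ≤ (n : ℝ) ^ 3 * n :=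
        mul_le_mul (card_T_le n) hSn (by linarith [c.Sge]) (by positivity)
      have h5 := c.kS
      have h6 : (1 : ℝ) ≤ (n : ℝ) ^ 4 := one_le_pow₀ (by linarith)
      push_cast
      nlinarith
    refine le_trans ?_ hE
    have h3 : 0 ≤ (2 * J + (v0 + 1) * 2 ^ (v0 + v0 ^ 2) * 2) * (n : ℝ) ^ v0 * Real.exp (-(x / 5)) *
        (n : ℝ) ^ 2 := by positivity
    calc ((k0 + 1 : ℕ) : ℝ) * ((2 * J + (v0 + 1) * 2 ^ (v0 + v0 ^ 2) * 2) * (n : ℝ) ^ v0 *
          Real.exp (-(x / 5))) * (n : ℝ) ^ 2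
        = ((k0 + 1 : ℕ) : ℝ) * ((2 * J + (v0 + 1) * 2 ^ (v0 + v0 ^ 2) * 2) * (n : ℝ) ^ v0 *
          Real.exp (-(x / 5)) * (n : ℝ) ^ 2) := by ring
      _ ≤ 2 * (n : ℝ) ^ 4 * ((2 * J + (v0 + 1) * 2 ^ (v0 + v0 ^ 2) * 2) * (n : ℝ) ^ v0 *
          Real.exp (-(x / 5)) * (n : ℝ) ^ 2) := mul_le_mul_of_nonneg_right h2 h3
      _ = _ := by ring

end S1

open S1 in
theorem s1_proof (hA : AnnStmt) (hD : DriftStmt) (hC : ConcStmt) (hS : SurvStmt) (hM : MomStmt) :
    Stage1Stmt := by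
  obtain ⟨J, v0, lam, CA, hJ, hv, hl, hCA, hann⟩ := hA 1000
  obtain ⟨CD, hCD, hdr⟩ := hD J
  refine ⟨J, lam, max 1 CA, hJ, hl, le_max_left _ _, ?_⟩
  filter_upwards [ev_num (8 + CA + 2 * CD + 8 * 6 ^ J + 8 * (v0 : ℝ) ^ 2 + 8 * (v0 : ℝ) * 2 ^ v0)
    (2 * (2 * J + (v0 + 1) * 2 ^ (v0 + v0 ^ 2) * 2)) (J + 1) (v0 + 6)] with n ⟨h12, hxn, hB, hE⟩
  set x := (n : ℝ) ^ ((1 : ℝ) / 1000)
  set S := Real.log n with hSdef
  have hn : (12 : ℝ) ≤ n := by exact_mod_cast h12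
  have hS1 : 1 ≤ S := by
    rw [hSdef, Real.le_log_iff_exp_le (by linarith)]
    linarith [Real.exp_one_lt_d9]
  have hSn : S ≤ n := (Real.log_le_sub_one_of_pos (by linarith)).trans (by linarith)
  have hP : 1 ≤ (4 * S) ^ J := one_le_pow₀ (by linarith)
  have hQ1 : (4 * S) ^ J ≤ (4 * S) ^ (J + 1) := pow_le_pow_right₀ (by linarith) (by omega)
  have hQ2 : 4 * S ≤ (4 * S) ^ (J + 1) := by
    rw [pow_succ]; nlinarith
  have hQ3 : (4 * S) ^ (J + 1) = (4 * S) ^ J * (4 * S) := pow_succ _ _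
  set Q := (4 * S) ^ (J + 1)
  have hQ : 1 ≤ Q := hP.trans hQ1
  have p1 : 0 ≤ CA * Q := by positivity
  have p2 : 0 ≤ CD * Q := by positivity
  have p3 : 0 ≤ 6 ^ J * Q := by positivity
  have p4 : 0 ≤ (v0 : ℝ) ^ 2 * Q := by positivity
  have p5 : 0 ≤ (v0 : ℝ) * 2 ^ v0 * Q := by positivity
  have hB' : 8 * Q + CA * Q + 2 * (CD * Q) + 8 * (6 ^ J * Q) + 8 * ((v0 : ℝ) ^ 2 * Q) +
      8 * ((v0 : ℝ) * 2 ^ v0 * Q) ≤ x := by linarith
  have hx8 : 8 ≤ x := by linarith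
  have hM0 : (0 : ℝ) < (T n).card := by
    exact_mod_cast (T_nonempty (show 3 ≤ n by omega)).card_pos
  have hx1 : 1 ≤ x := by linarith
  have h2x : 2 * x ^ 8 ≤ n := by
    rw [← hxn]
    have : x ^ 9 ≤ x ^ 1000 := pow_le_pow_right₀ hx1 (by norm_num)
    have h2 : 2 * x ^ 8 ≤ x * x ^ 8 := mul_le_mul_of_nonneg_right (by linarith) (by positivity)
    calc 2 * x ^ 8 ≤ x * x ^ 8 := h2
      _ = x ^ 9 := by ring
      _ ≤ x ^ 1000 := this
  have h4n : 4 * (n : ℝ) ≤ (T n).card := by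
    refine le_trans ?_ (card_T_ge h12)
    nlinarith [mul_nonneg (sub_nonneg.2 hn) (sub_nonneg.2 hn),
      mul_nonneg (mul_nonneg (sub_nonneg.2 hn) (sub_nonneg.2 hn)) (sub_nonneg.2 hn)]
  obtain ⟨s, k0, s0, ss, snn, ssum, Dlo, Dhi, sS, kS⟩ :=
    time (n : ℝ) (T n).card (x ^ 8) hM0 (one_le_pow₀ hx1) h2x h4n
  refine core (v0 := v0) (CD := CD) (S := S) (s := s) (k0 := k0) hC hS hM
    ⟨hJ, hv, hl, hCA, hCD, hann, hdr, h12, hxn, hx8, hS1, ?_, ?_, ?_, ?_, ?_, s0, ss, snn, ssum,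
      Dlo, Dhi, sS, kS⟩ hSn hE
  · have := mul_le_mul_of_nonneg_left hQ1 hCA
    linarith
  · have : 8 * CD * S * (4 * S) ^ J = 2 * (CD * Q) := by rw [hQ3]; ring
    linarith
  · have := mul_le_mul_of_nonneg_left hQ1 (show (0 : ℝ) ≤ 6 ^ J by positivity)
    linarith
  · have := mul_le_mul_of_nonneg_left (show S ≤ Q by linarith) (sq_nonneg (v0 : ℝ))
    linarith
  · have := mul_le_mul_of_nonneg_left hQ (show (0 : ℝ) ≤ (v0 : ℝ) * 2 ^ v0 by positivity)
    linarith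

end Crest.Agent.R30
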