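import Crest.Agent.R30.Defs

/-! # R30 S1 (part A): time change, chain bookkeeping, numerics -/

set_option autoImplicit false

namespace Crest.Agent.R30.S1

open Crest.CombinatoricsR.TriangleRemoval Finset

/-- The time change and the stopping index. -/
theorem time (N M X : ℝ) (hM : 0 < M) (hX : 1 ≤ X) (hXN : 2 * X ≤ N) (hNM : 4 * N ≤ M) :
    ∃ (s : ℕ → ℝ) (k0 : ℕ), s 0 = 0 ∧ (∀ k, s (k + 1) = s k + N * Real.exp (-s k) ^ 2 / M) ∧
      (∀ k, 0 ≤ s k) ∧ (∀ k, ∑ i ∈ range k, N * Real.exp (-s i) ^ 2 / M = s k) ∧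
      (∀ k ≤ k0, X ≤ N * Real.exp (-s k) ^ 2) ∧ N * Real.exp (-s k0) ^ 2 ≤ 2 * X ∧
      (∀ k ≤ k0, s k ≤ Real.log N) ∧ (k0 : ℝ) * X ≤ M * Real.log N := by
  classical
  have hN : 0 < N := by linarith
  let s : ℕ → ℝ := fun k => Nat.rec 0 (fun _ a => a + N * Real.exp (-a) ^ 2 / M) k
  have s0 : s 0 = 0 := rfl
  have ss : ∀ k, s (k + 1) = s k + N * Real.exp (-s k) ^ 2 / M := fun k => rfl
  have hδ : ∀ k, 0 ≤ N * Real.exp (-s k) ^ 2 / M := fun k => by positivity
  have hmono : Monotone s := monotone_nat_of_le_succ fun k => by rw [ss]; linarith [hδ k]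
  have hs0 : ∀ k, 0 ≤ s k := fun k => s0 ▸ hmono (Nat.zero_le k)
  have hsum : ∀ k, ∑ i ∈ range k, N * Real.exp (-s i) ^ 2 / M = s k := fun k => by
    induction k with
    | zero => simp [s0]
    | succ k ih => rw [sum_range_succ, ih, ss]
  have hanti : ∀ i k, i ≤ k → N * Real.exp (-s k) ^ 2 ≤ N * Real.exp (-s i) ^ 2 := fun i k h => by
    have := Real.exp_le_exp.2 (neg_le_neg (hmono h))
    have h0 := (Real.exp_pos (-s k)).le
    gcongr
  have hlog : ∀ k, X ≤ N * Real.exp (-s k) ^ 2 → s k ≤ Real.log N := fun k h => by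
    rw [Real.le_log_iff_exp_le hN]
    have h1 : Real.exp (-s k) ≤ 1 := Real.exp_le_one_iff.2 (by linarith [hs0 k])
    have h2 : Real.exp (-s k) * Real.exp (s k) = 1 := by rw [← Real.exp_add]; simp
    have h3 := Real.exp_pos (-s k)
    have h4 := Real.exp_pos (s k)
    have h5 : 1 ≤ N * Real.exp (-s k) := by
      have : N * Real.exp (-s k) ^ 2 ≤ N * Real.exp (-s k) := by
        rw [pow_two, ← mul_assoc]
        exact mul_le_of_le_one_right (by positivity) h1
      linarith
    calc Real.exp (s k) = 1 * Real.exp (s k) := (one_mul _).symm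
      _ ≤ N * Real.exp (-s k) * Real.exp (s k) := by gcongr
      _ = N := by rw [mul_assoc, h2, mul_one]
  have hlow : ∀ k, (∀ i < k, X ≤ N * Real.exp (-s i) ^ 2) → (k : ℝ) * X / M ≤ s k := fun k h => by
    rw [← hsum k]
    have : ∑ _i ∈ range k, X / M ≤ ∑ i ∈ range k, N * Real.exp (-s i) ^ 2 / M :=
      sum_le_sum fun i hi => div_le_div_of_nonneg_right (h i (mem_range.1 hi)) hM.le
    rw [sum_const, card_range, nsmul_eq_mul] at this
    rwa [mul_div_assoc]
  have hex : ∃ k, N * Real.exp (-s k) ^ 2 < 2 * X := by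
    by_contra hn
    push Not at hn
    obtain ⟨k, hk⟩ := exists_nat_gt (M * Real.log N)
    have h1 := hlow k fun i _ => by linarith [hn i]
    have h2 := hlog k (by linarith [hn k])
    have h3 : (k : ℝ) * X / M ≤ Real.log N := h1.trans h2
    rw [div_le_iff₀ hM] at h3
    have h4 : (k : ℝ) * 1 ≤ k * X := mul_le_mul_of_nonneg_left hX (Nat.cast_nonneg k)
    linarith
  have hk0 := Nat.find_spec hex
  have hlt : ∀ i < Nat.find hex, 2 * X ≤ N * Real.exp (-s i) ^ 2 := fun i hi =>
    not_lt.1 (Nat.find_min hex hi)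
  have hX0 : X ≤ N * Real.exp (-s (Nat.find hex)) ^ 2 := by
    rcases Nat.eq_zero_or_pos (Nat.find hex) with h0 | h0
    · rw [h0, s0]; simp; linarith
    · obtain ⟨j, hj⟩ : ∃ j, Nat.find hex = j + 1 := ⟨Nat.find hex - 1, by omega⟩
      have h1 := hlt j (by omega)
      rw [hj, ss]
      set δ := N * Real.exp (-s j) ^ 2 / M with hδdef
      have h2 : δ ≤ 1 / 4 := by
        rw [hδdef, div_le_iff₀ hM]
        have := hanti 0 j (Nat.zero_le j)
        rw [s0] at this
        simp at this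
        linarith
      have h3 : Real.exp (-(s j + δ)) ^ 2 = Real.exp (-s j) ^ 2 * Real.exp (-(2 * δ)) := by
        rw [← Real.exp_nat_mul, ← Real.exp_nat_mul, ← Real.exp_add]; congr 1; push_cast; ring
      have h4 : 1 / 2 ≤ Real.exp (-(2 * δ)) := by
        have := Real.add_one_le_exp (-(2 * δ)); linarith
      rw [h3, ← mul_assoc]
      have h5 : 0 ≤ N * Real.exp (-s j) ^ 2 := by positivity
      nlinarith
  have hall : ∀ k ≤ Nat.find hex, X ≤ N * Real.exp (-s k) ^ 2 := fun k hk =>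
    hX0.trans (hanti k _ hk)
  refine ⟨s, Nat.find hex, s0, ss, hs0, hsum, hall, hk0.le, fun k hk => hlog k (hall k hk), ?_⟩
  have h1 := (hlow _ fun i hi => hall i hi.le).trans (hlog _ hX0)
  rw [div_le_iff₀ hM] at h1
  linarith

section chain

variable {X τ : Type} [Fintype X] {stp : τ → X → X} {Tt : Finset τ} {good : ℕ → X → Prop}
  {x0 : X} {ν : ℕ → X → ℝ}

theorem mass_le (h : IsChain stp Tt good x0 ν) (k : ℕ) : ∑ x, ν k x ≤ 1 := by
  classical
  induction k with
  | zero => have := h.2.1 fun _ => 1; simp at this; exact this.le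
  | succ k ih =>
    have := h.2.2 k fun _ => 1
    simp only [mul_one] at this
    rw [this]
    refine le_trans (sum_le_sum fun y _ => ?_) ih
    refine mul_le_of_le_one_right (h.1 k y) ?_
    split_ifs
    · rw [sum_const, nsmul_eq_mul, mul_one]; exact div_self_le_one _
    · exact zero_le_one

open Classical in
theorem inv_zero (h : IsChain stp Tt good x0 ν) (P : X → Prop) (h0 : P x0)
    (hs : ∀ k y, good k y → ∀ t ∈ Tt, P (stp t y)) (k : ℕ) :
    ∑ x, ν k x * (if P x then 0 else 1) = 0 := by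
  cases k with
  | zero => rw [h.2.1, if_pos h0]
  | succ k =>
    rw [h.2.2]
    refine sum_eq_zero fun y _ => ?_
    split_ifs with hg
    · rw [sum_eq_zero fun t ht => if_pos (hs k y hg t ht)]; simp
    · simp

open Classical in
/-- Harmonic functions lose at most `H` times the killed mass. -/
theorem harm (h : IsChain stp Tt good x0 ν) (f : X → ℝ) (H : ℝ) (hH : ∀ y, f y ≤ H)
    (hf : ∀ k y, good k y → (∑ t ∈ Tt, f (stp t y)) / (Tt.card : ℝ) = f y) (k : ℕ) :
    f x0 ≤ ∑ x, ν k x * (if good k x then 1 else 0) * f x +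
      H * ∑ j ∈ range (k + 1), ∑ x, ν j x * (if good j x then 0 else 1) := by
  have split : ∀ k, ∑ x, ν k x * f x ≤ ∑ x, ν k x * (if good k x then 1 else 0) * f x +
      H * ∑ x, ν k x * (if good k x then 0 else 1) := fun k => by
    rw [mul_sum, ← sum_add_distrib]
    refine sum_le_sum fun x _ => ?_
    split_ifs
    · simp
    · have := mul_le_mul_of_nonneg_left (hH x) (h.1 k x)
      simp only [mul_zero, zero_mul, mul_one, zero_add]
      linarith
  have stepk : ∀ k, ∑ x, ν (k + 1) x * f x = ∑ x, ν k x * (if good k x then 1 else 0) * f x :=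
    fun k => by
      rw [h.2.2]
      refine sum_congr rfl fun y _ => ?_
      split_ifs with hg
      · rw [hf k y hg, mul_one]
      · simp
  induction k with
  | zero =>
    have := split 0
    rw [h.2.1] at this
    simpa using this
  | succ k ih =>
    rw [sum_range_succ, mul_add]
    have := split (k + 1)
    rw [stepk] at this
    linarith

end chain

theorem card_T (n : ℕ) : (T n).card = n.choose 3 := by simp [T]

theorem card_T_ge {n : ℕ} (hn : 12 ≤ n) : (n : ℝ) ^ 3 / 12 ≤ (T n).card := by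
  rw [card_T]
  obtain ⟨m, rfl⟩ : ∃ m, n = m + 3 := ⟨n - 3, by omega⟩
  have h : ((m + 3).choose 3 : ℝ) * 6 = (m + 3) * (m + 2) * (m + 1) := by
    have := Nat.choose_mul_factorial_mul_factorial (show 3 ≤ m + 3 by omega)
    have h2 : (m + 3).descFactorial 3 = Nat.factorial 3 * (m + 3).choose 3 :=
      Nat.descFactorial_eq_factorial_mul_choose _ _
    have h3 : (m + 3).descFactorial 3 = (m + 1) * ((m + 2) * (m + 3)) := by
      simp [Nat.descFactorial_succ]
    rw [h3] at h2
    have h4 : ((m + 1) * ((m + 2) * (m + 3)) : ℝ) = ((Nat.factorial 3 * (m + 3).choose 3 : ℕ) : ℝ) := by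
      rw [← h2]; push_cast; ring
    simp only [Nat.factorial] at h4
    push_cast at h4
    linarith
  have hm : (9 : ℝ) ≤ m := by exact_mod_cast (show 9 ≤ m by omega)
  push_cast
  nlinarith [mul_nonneg (sub_nonneg.2 hm) (sq_nonneg (m : ℝ)), sq_nonneg (m : ℝ),
    mul_nonneg (sub_nonneg.2 hm) (sub_nonneg.2 hm)]

theorem card_T_le (n : ℕ) : ((T n).card : ℝ) ≤ (n : ℝ) ^ 3 := by
  rw [card_T]
  exact_mod_cast Nat.choose_le_pow n 3

/-- eventual numerics -/
theorem ev_num (B A : ℝ) (J w : ℕ) : ∀ᶠ n : ℕ in Filter.atTop,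
    12 ≤ n ∧ ((n : ℝ) ^ ((1 : ℝ) / 1000)) ^ 1000 = n ∧
    B * (4 * Real.log n) ^ J ≤ (n : ℝ) ^ ((1 : ℝ) / 1000) ∧
    A * (n : ℝ) ^ w * Real.exp (-((n : ℝ) ^ ((1 : ℝ) / 1000) / 5)) ≤ 1 := by
  have hx : Filter.Tendsto (fun n : ℕ => (n : ℝ) ^ ((1 : ℝ) / 1000)) Filter.atTop Filter.atTop :=
    (tendsto_rpow_atTop (by norm_num)).comp tendsto_natCast_atTop_atTop
  have h1 : ∀ᶠ x : ℝ in Filter.atTop, B * (4 * (1000 * Real.log x)) ^ J ≤ x := by
    have := (Real.isLittleO_pow_log_id_atTop (n := J)).const_mul_left (B * 4000 ^ J)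
    have h2 := this.bound zero_lt_one
    filter_upwards [h2, Filter.eventually_ge_atTop 0] with x h hx0
    simp only [id, one_mul, Real.norm_eq_abs] at h
    rw [abs_of_nonneg hx0] at h
    have := (le_abs_self _).trans h
    rw [← mul_assoc, mul_pow]
    norm_num
    linarith
  have h2 : ∀ᶠ x : ℝ in Filter.atTop, A * (x ^ 1000) ^ w * Real.exp (-(x / 5)) ≤ 1 := by
    have h3 := (Real.tendsto_pow_mul_exp_neg_atTop_nhds_zero (1000 * w)).comp
      (Filter.tendsto_id.atTop_div_const (show (0 : ℝ) < 5 by norm_num))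
    have h4 := h3.const_mul (A * 5 ^ (1000 * w))
    rw [mul_zero] at h4
    filter_upwards [h4.eventually (ge_mem_nhds zero_lt_one)] with x h
    simp only [Function.comp, id] at h
    rw [← pow_mul]
    have e : A * x ^ (1000 * w) * Real.exp (-(x / 5)) =
        A * 5 ^ (1000 * w) * ((x / 5) ^ (1000 * w) * Real.exp (-(x / 5))) := by
      rw [div_pow]; field_simp
    rw [e]; exact h
  filter_upwards [hx.eventually h1, hx.eventually h2, Filter.eventually_ge_atTop 12] with n a b c
  have hn : (0 : ℝ) < n := by exact_mod_cast (show 0 < n by omega)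
  have e : ((n : ℝ) ^ ((1 : ℝ) / 1000)) ^ 1000 = n := by
    rw [← Real.rpow_natCast, ← Real.rpow_mul hn.le]; norm_num
  have e2 : 1000 * Real.log ((n : ℝ) ^ ((1 : ℝ) / 1000)) = Real.log n := by
    rw [Real.log_rpow hn]; ring
  rw [e2] at a
  rw [e] at b
  exact ⟨c, e, a, b⟩

end Crest.Agent.R30.S1
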