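import Crest.Agent.R30.Basic
import Crest.Agent.R30.S1A

/-! # R30 S1 (part B): the context and the three failure bounds -/

set_option autoImplicit false

namespace Crest.Agent.R30.S1

open Crest.CombinatoricsR.TriangleRemoval Finset

/-- codegree at time `k` -/
noncomputable def Dk (n : ℕ) (s : ℕ → ℝ) (k : ℕ) : ℝ := n * Real.exp (-s k) ^ 2

noncomputable def eta (x S : ℝ) (i : ℕ) : ℝ := 1 / x ^ 2 / (4 * S) ^ i

noncomputable def VV {n : ℕ} (lam s : ℕ → ℝ) (i : ℕ) (k : ℕ) (G : Gr n) : Fn n :=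
  Uop (Dk n s k) G lam i (yy (Dk n s k) G)

def good (J v0 : ℕ) (lam : ℕ → ℝ) (n : ℕ) (x S : ℝ) (s : ℕ → ℝ) (k : ℕ) (G : Gr n) : Prop :=
  G ⊆ allEdges n ∧ (∀ i < J, Bd (VV lam s i k G) (eta x S i)) ∧
    Ext 1000 v0 (Real.exp (-s k)) (1 / x) G

/-- body of `AnnStmt` -/
def AnnB (J v0 : ℕ) (lam : ℕ → ℝ) (C : ℝ) : Prop :=
  ∀ (n : ℕ) (G : Gr n) (p D η ε : ℝ),
      0 < p → D = n * p ^ 2 → 1 ≤ D → η ≤ ε → 1 / D ≤ ε → ε ≤ 1 → Reg G D η →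
      Ext 1000 v0 p ε G → ∀ (δ : Fn n) (b : ℝ), 0 ≤ b → Bd δ b → Bd (Uop D G lam J δ) (C * ε * b)

/-- body of `DriftStmt` -/
def DrB (J : ℕ) (C : ℝ) : Prop :=
  ∀ (n : ℕ) (G : Gr n) (D δ η : ℝ) (lam : ℕ → ℝ), 0 < D → 0 ≤ δ →
    δ * (T n).card = D → δ ≤ 1 / D → 1 / D ≤ η ^ 2 → 0 ≤ η → η ≤ 1 / 2 → Reg G D η →
    (∀ i, 0 ≤ lam i ∧ lam i ≤ 2) → ∀ i ≤ J, ∀ u v, u ≠ v →
      (∀ t ∈ T n, |Zinc D δ G lam i u v t| ≤ C / D) ∧
      |(∑ t ∈ T n, Zinc D δ G lam i u v t) / (T n).card + δ * Uop D G lam (i + 1) (yy D G) u v|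
        ≤ C * η ^ 2 * δ ∧
      (∑ t ∈ T n, Zinc D δ G lam i u v t ^ 2) / (T n).card ≤ C / D * δ

structure Cx (J v0 : ℕ) (lam : ℕ → ℝ) (CA CD : ℝ) (n : ℕ) (x S : ℝ) (s : ℕ → ℝ) (k0 : ℕ) :
    Prop where
  J1 : 1 ≤ J
  v2 : 2 ≤ v0
  hl : ∀ i, 0 ≤ lam i ∧ lam i ≤ 2
  CA0 : 0 ≤ CA
  CD0 : 0 < CD
  ann : AnnB J v0 lam CA
  dr : DrB J CD
  n12 : 12 ≤ n
  xn : x ^ 1000 = n
  x8 : 8 ≤ x
  Sge : 1 ≤ S
  a1 : CA * (4 * S) ^ J ≤ x
  a2 : 8 * CD * S * (4 * S) ^ J ≤ x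
  a3 : 8 * 6 ^ J * (4 * S) ^ J ≤ x
  a4 : 8 * (v0 : ℝ) ^ 2 * S ≤ x
  a5 : 8 * (v0 : ℝ) * 2 ^ v0 ≤ x
  s0 : s 0 = 0
  ss : ∀ k, s (k + 1) = s k + Dk n s k / (T n).card
  snn : ∀ k, 0 ≤ s k
  ssum : ∀ k, ∑ i ∈ range k, Dk n s i / (T n).card = s k
  Dlo : ∀ k ≤ k0, x ^ 8 ≤ Dk n s k
  Dhi : Dk n s k0 ≤ 2 * x ^ 8
  sS : ∀ k ≤ k0, s k ≤ S
  kS : (k0 : ℝ) * x ^ 8 ≤ (T n).card * S

variable {J v0 : ℕ} {lam : ℕ → ℝ} {CA CD : ℝ} {n : ℕ} {x S : ℝ} {s : ℕ → ℝ} {k0 : ℕ}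

namespace Cx

theorem xpos (c : Cx J v0 lam CA CD n x S s k0) : 0 < x := by linarith [c.x8]
theorem x1 (c : Cx J v0 lam CA CD n x S s k0) : 1 ≤ x := by linarith [c.x8]
theorem n3 (c : Cx J v0 lam CA CD n x S s k0) : 3 ≤ n := by linarith [c.n12]
theorem nR (c : Cx J v0 lam CA CD n x S s k0) : (12 : ℝ) ≤ n := by exact_mod_cast c.n12
theorem Mpos (c : Cx J v0 lam CA CD n x S s k0) : (0 : ℝ) < (T n).card := by
  exact_mod_cast (T_nonempty c.n3).card_pos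
theorem Dpos (c : Cx J v0 lam CA CD n x S s k0) (k : ℕ) : 0 < Dk n s k := by
  have := c.nR
  unfold Dk; positivity
theorem p1 (c : Cx J v0 lam CA CD n x S s k0) (k : ℕ) : Real.exp (-s k) ≤ 1 :=
  Real.exp_le_one_iff.2 (by linarith [c.snn k])
theorem Dn (c : Cx J v0 lam CA CD n x S s k0) (k : ℕ) : Dk n s k ≤ n := by
  unfold Dk
  exact mul_le_of_le_one_right (Nat.cast_nonneg n) (pow_le_one₀ (Real.exp_pos _).le (c.p1 k))
theorem P1 (c : Cx J v0 lam CA CD n x S s k0) (i : ℕ) : 1 ≤ (4 * S) ^ i :=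
  one_le_pow₀ (by linarith [c.Sge])
theorem Pm (c : Cx J v0 lam CA CD n x S s k0) {i : ℕ} (hi : i ≤ J) : (4 * S) ^ i ≤ (4 * S) ^ J :=
  pow_le_pow_right₀ (by linarith [c.Sge]) hi
theorem xpow (c : Cx J v0 lam CA CD n x S s k0) {a b : ℕ} (h : a ≤ b) : x ^ a ≤ x ^ b :=
  pow_le_pow_right₀ c.x1 h
theorem Sx (c : Cx J v0 lam CA CD n x S s k0) : 32 * S ≤ x := by
  have h1 : (2 : ℝ) ≤ v0 := by exact_mod_cast c.v2
  have h2 := c.a4
  have h3 := c.Sge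
  nlinarith [mul_le_mul_of_nonneg_right (show (4 : ℝ) ≤ (v0 : ℝ) ^ 2 by nlinarith)
    (show (0 : ℝ) ≤ S by linarith)]
theorem Sx2 (c : Cx J v0 lam CA CD n x S s k0) : S / x ^ 2 ≤ 1 / 5 := by
  have h1 := c.Sx
  have h2 := c.x8
  have h3 := c.Sge
  rw [div_le_div_iff₀ (by positivity) (by norm_num)]
  nlinarith
theorem inv_le (c : Cx J v0 lam CA CD n x S s k0) {a b : ℕ} (h : a ≤ b) : 1 / x ^ b ≤ 1 / x ^ a :=
  one_div_le_one_div_of_le (pow_pos c.xpos a) (c.xpow h)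
theorem Dinv (c : Cx J v0 lam CA CD n x S s k0) {k : ℕ} (hk : k ≤ k0) :
    1 / Dk n s k ≤ 1 / x ^ 8 := one_div_le_one_div_of_le (pow_pos c.xpos 8) (c.Dlo k hk)
theorem eta_pos (c : Cx J v0 lam CA CD n x S s k0) (i : ℕ) : 0 < eta x S i := by
  have := c.xpos
  have := c.Sge
  unfold eta; positivity

theorem Dsucc (c : Cx J v0 lam CA CD n x S s k0) (k : ℕ) :
    Dk n s (k + 1) = Dk n s k * Real.exp (-2 * (Dk n s k / (T n).card)) := by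
  have h := c.ss k
  set δ := Dk n s k / (T n).card
  unfold Dk
  rw [h, mul_assoc, ← Real.exp_nat_mul, ← Real.exp_nat_mul, ← Real.exp_add]
  congr 2; push_cast; ring

theorem δle (c : Cx J v0 lam CA CD n x S s k0) (k : ℕ) :
    Dk n s k / (T n).card ≤ 1 / Dk n s k := by
  rw [div_le_div_iff₀ c.Mpos (c.Dpos k)]
  have h1 := c.Dn k
  have h2 := c.Dpos k
  have h3 := card_T_ge c.n12
  have h4 := c.nR
  have h5 : Dk n s k * Dk n s k ≤ (n : ℝ) * n := mul_le_mul h1 h1 h2.le (by linarith)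
  nlinarith [mul_nonneg (sub_nonneg.2 h4) (mul_nonneg (show (0 : ℝ) ≤ n by linarith)
    (show (0 : ℝ) ≤ n by linarith))]

theorem reg (c : Cx J v0 lam CA CD n x S s k0) {k : ℕ} {G : Gr n}
    (h : good J v0 lam n x S s k G) : Reg G (Dk n s k) (1 / x ^ 2) := by
  refine ⟨h.1, ?_⟩
  have := h.2.1 0 c.J1
  simpa [VV, Uop, eta] using this

theorem annG (c : Cx J v0 lam CA CD n x S s k0) {k : ℕ} (hk : k ≤ k0) {G : Gr n}
    (h : good J v0 lam n x S s k G) (δ : Fn n) (b : ℝ) (hb : 0 ≤ b) (hδ : Bd δ b) :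
    Bd (Uop (Dk n s k) G lam J δ) (CA * (1 / x) * b) := by
  have h1 : 1 / x ^ 2 ≤ 1 / x := by simpa using c.inv_le (show 1 ≤ 2 by norm_num)
  have h2 : 1 / x ^ 8 ≤ 1 / x := by simpa using c.inv_le (show 1 ≤ 8 by norm_num)
  have h3 : 1 / x ≤ 1 := by simpa using c.inv_le (show 0 ≤ 1 by norm_num)
  exact c.ann n G _ _ _ _ (Real.exp_pos _) rfl ((one_le_pow₀ c.x1).trans (c.Dlo k hk)) h1
    ((c.Dinv hk).trans h2) h3 (c.reg h) h.2.2 δ b hb hδ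

/-- the next quantity in the chain is small on good states -/
theorem next_le (c : Cx J v0 lam CA CD n x S s k0) {k : ℕ} (hk : k ≤ k0) {G : Gr n}
    (h : good J v0 lam n x S s k G) {i : ℕ} (hi : i < J) :
    Bd (VV lam s (i + 1) k G) (eta x S (i + 1)) := by
  rcases Nat.lt_or_ge (i + 1) J with h1 | h1
  · exact h.2.1 _ h1
  · have e : i + 1 = J := by omega
    rw [e]
    have hx := c.xpos
    refine (c.annG hk h _ _ (by positivity) (c.reg h).2).mono ?_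
    unfold eta
    have hP := c.P1 J
    rw [le_div_iff₀ (by linarith)]
    have h2 : CA * (4 * S) ^ J * (1 / x) ≤ 1 := by
      rw [mul_one_div, div_le_one hx]; exact c.a1
    have h3 : 0 ≤ 1 / x ^ 2 := by positivity
    calc CA * (1 / x) * (1 / x ^ 2) * (4 * S) ^ J = CA * (4 * S) ^ J * (1 / x) * (1 / x ^ 2) := by
          ring
      _ ≤ 1 * (1 / x ^ 2) := mul_le_mul_of_nonneg_right h2 h3
      _ = 1 / x ^ 2 := one_mul _

theorem Y_all (u v : Fin n) (huv : u ≠ v) : Y (allEdges n) u v = n - 2 := by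
  rw [Y_eq_card]
  have : (Finset.univ.filter fun w => s(u, w) ∈ allEdges n ∧ s(v, w) ∈ allEdges n) =
      (Finset.univ.erase u).erase v := by
    ext w
    simp only [mem_filter, mem_univ, true_and, mem_allEdges, mem_erase, and_true]
    exact ⟨fun h => ⟨h.2.symm, h.1.symm⟩, fun h => ⟨h.2.symm, h.1.symm⟩⟩
  rw [this, card_erase_of_mem (by simp [huv.symm]), card_erase_of_mem (mem_univ u), card_univ,
    Fintype.card_fin]
  have h2 : 2 ≤ n := by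
    have := Fintype.one_lt_card_iff.2 ⟨u, v, huv⟩
    rw [Fintype.card_fin] at this
    omega
  rw [Nat.cast_sub (by omega), Nat.cast_sub (by omega)]
  push_cast; ring

theorem V0_le (c : Cx J v0 lam CA CD n x S s k0) {i : ℕ} (hi : i ≤ J) :
    Bd (VV lam s i 0 (allEdges n)) (eta x S i / 4) := by
  have hn := c.nR
  have hD : Dk n s 0 = n := by simp [Dk, c.s0]
  have hy : Bd (yy (n : ℝ) (allEdges n)) (2 / n) := fun u v huv => by
    unfold yy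
    rw [Y_all u v huv]
    have : ((n : ℝ) - 2) / n - 1 = -(2 / n) := by field_simp; ring
    rw [this, abs_neg, abs_of_nonneg (by positivity)]
  have hreg : Reg (allEdges n) (n : ℝ) 1 :=
    ⟨Subset.refl _, hy.mono (by rw [div_le_one (by linarith)]; linarith)⟩
  unfold VV
  rw [hD]
  refine (Bd_Uop (by linarith) hreg (by positivity) c.hl hy i).mono ?_
  have hx := c.xpos
  have hP := c.P1 i
  unfold eta
  rw [div_div, div_div, ← mul_div_assoc, div_le_div_iff₀ (by linarith) (by positivity), ← c.xn]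
  have h1 : (6 : ℝ) ^ i * (4 * S) ^ i ≤ 6 ^ J * (4 * S) ^ J :=
    mul_le_mul (pow_le_pow_right₀ (by norm_num) hi) (c.Pm hi) (by linarith) (by positivity)
  have h2 := c.a3
  have h3 : x ^ 3 ≤ x ^ 1000 := c.xpow (by norm_num)
  have h4 : 8 * (6 ^ i * (4 * S) ^ i) * x ^ 2 ≤ x * x ^ 2 :=
    mul_le_mul_of_nonneg_right (by linarith) (by positivity)
  calc (6 : ℝ) ^ i * 2 * (x ^ 2 * ((4 * S) ^ i * 4)) = 8 * (6 ^ i * (4 * S) ^ i) * x ^ 2 := by ring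
    _ ≤ x * x ^ 2 := h4
    _ = x ^ 3 := by ring
    _ ≤ 1 * x ^ 1000 := by rw [one_mul]; exact h3

end Cx

end Crest.Agent.R30.S1
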