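import Crest.Agent.R30.Defs

/-! # Row 30, task SAFE: word patterns are safe -/

set_option autoImplicit false

namespace Crest.Agent.R30

open Finset

namespace SafeA

theorem cur_le (w : ℕ → Bool) (i : ℕ) : (cur w i).1 ≤ i + 1 ∧ (cur w i).2 ≤ i + 1 := by
  induction i with
  | zero => simp [cur]
  | succ i ih =>
    simp only [cur]
    split_ifs <;> constructor <;> simp <;> omega

theorem cur_ne (w : ℕ → Bool) (i : ℕ) : (cur w i).1 ≠ (cur w i).2 := by
  cases i with
  | zero => simp [cur]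
  | succ i =>
    have := cur_le w i
    simp only [cur]
    split_ifs <;> simp <;> omega

theorem cur_true (i : ℕ) : cur (fun _ => true) i = (0, i + 1) := by
  induction i with
  | zero => rfl
  | succ i ih => simp [cur, ih]

theorem cur_snd_ge (w : ℕ → Bool) (s i0 : ℕ) (h : s ≤ i0) (hw : w i0 = true) (i : ℕ)
    (hi : i0 < i) : s + 2 ≤ (cur w i).2 := by
  induction i with
  | zero => omega
  | succ i ih =>
    simp only [cur]
    split_ifs with h1
    · simp; omega
    · have : i0 ≠ i := by rintro rfl; exact h1 hw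
      exact ih (by omega)

theorem cur_fst_ge (w : ℕ → Bool) (s i0 : ℕ) (h : s ≤ i0) (hw : w i0 = false) (i : ℕ)
    (hi : i0 < i) : s + 2 ≤ (cur w i).1 := by
  induction i with
  | zero => omega
  | succ i ih =>
    simp only [cur]
    split_ifs with h1
    · have : i0 ≠ i := by rintro rfl; simp [hw] at h1
      exact ih (by omega)
    · simp; omega

theorem edge_lt (w : ℕ → Bool) (j : ℕ) : ∀ e ∈ Ew w j, e.1 < e.2 := by
  intro e he
  simp only [Ew, Finset.mem_filter, Finset.mem_univ, true_and] at he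
  have := cur_le w (e.2.1 - 2)
  rw [Fin.lt_def]
  omega

theorem core (w : ℕ → Bool) (j : ℕ) (hj : 1 ≤ j) (S : Finset (Fin (j + 2))) (hS : Rw w j ⊆ S)
    (M : Finset (ℕ × ℕ)) (hM : ∀ q ∈ M, q.2 ∈ S.image Fin.val ∧ 2 ≤ q.2 ∧
      (q.1 = (cur w (q.2 - 2)).1 ∨ q.1 = (cur w (q.2 - 2)).2) ∧ q.1 ∉ S.image Fin.val) :
    eIn (Ew w j) S + M.card + 1 ≤ 2 * ((S.image Fin.val).filter (2 ≤ ·)).card := by
  set T := S.image Fin.val with hT
  set Full := (T.filter (2 ≤ ·)).biUnion
    fun z => ({((cur w (z - 2)).1, z), ((cur w (z - 2)).2, z)} : Finset (ℕ × ℕ)) with hFull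
  have hF : Full.card ≤ 2 * (T.filter (2 ≤ ·)).card := by
    rw [mul_comm]
    exact Finset.card_biUnion_le_card_mul _ _ _ fun z _ => Finset.card_le_two
  have memF : ∀ q : ℕ × ℕ, q.2 ∈ T → 2 ≤ q.2 →
      (q.1 = (cur w (q.2 - 2)).1 ∨ q.1 = (cur w (q.2 - 2)).2) → q ∈ Full := by
    intro q h1 h2 h3
    refine Finset.mem_biUnion.2 ⟨q.2, Finset.mem_filter.2 ⟨h1, h2⟩, ?_⟩
    simp only [Finset.mem_insert, Finset.mem_singleton]
    rcases h3 with h | h
    · left; exact Prod.ext h rfl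
    · right; exact Prod.ext h rfl
  set EI := ((Ew w j).filter fun e => e.1 ∈ S ∧ e.2 ∈ S).image
    fun e => ((e.1.1, e.2.1) : ℕ × ℕ) with hEI
  have hc : EI.card = eIn (Ew w j) S := by
    refine Finset.card_image_of_injective _ ?_
    intro e e' h
    simp only [Prod.mk.injEq] at h
    exact Prod.ext (Fin.ext h.1) (Fin.ext h.2)
  have memT : ∀ z, (z = (cur w j).1 ∨ z = (cur w j).2) → z ∈ T := by
    intro z hz
    have := cur_le w j
    refine Finset.mem_image.2 ⟨⟨z, by omega⟩, hS ?_, rfl⟩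
    simp only [Rw, Finset.mem_filter, Finset.mem_univ, true_and]
    tauto
  obtain ⟨q, hq1, hq2, hq3⟩ : ∃ q : ℕ × ℕ, q.2 = j + 1 ∧
      (q.1 = (cur w (j - 1)).1 ∨ q.1 = (cur w (j - 1)).2) ∧
      ((q.1 = (cur w j).1 ∧ q.2 = (cur w j).2) ∨ (q.1 = (cur w j).2 ∧ q.2 = (cur w j).1)) := by
    obtain ⟨i, rfl⟩ : ∃ i, j = i + 1 := ⟨j - 1, by omega⟩
    by_cases h : w i
    · exact ⟨((cur w i).1, i + 2), rfl, Or.inl rfl, Or.inl (by simp [cur, h])⟩
    · exact ⟨((cur w i).2, i + 2), rfl, Or.inr rfl, Or.inr (by simp [cur, h])⟩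
  have hqT1 : q.1 ∈ T := memT _ (by tauto)
  have hqT2 : q.2 ∈ T := memT _ (by tauto)
  have hqE : q ∉ EI := by
    intro h
    obtain ⟨e, he, rfl⟩ := Finset.mem_image.1 h
    have he' := (Finset.mem_filter.1 he).1
    simp only [Ew, Finset.mem_filter, Finset.mem_univ, true_and] at he'
    exact he'.2.2 hq3
  have hqM : q ∉ M := fun h => (hM q h).2.2.2 hqT1
  have hd : Disjoint EI M := by
    rw [Finset.disjoint_left]
    intro x hx hxM
    obtain ⟨e, he, rfl⟩ := Finset.mem_image.1 hx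
    exact (hM _ hxM).2.2.2 (Finset.mem_image_of_mem _ (Finset.mem_filter.1 he).2.1)
  have hsub : insert q (EI ∪ M) ⊆ Full := by
    intro x hx
    rcases Finset.mem_insert.1 hx with rfl | hx
    · refine memF _ hqT2 (by omega) ?_
      have : x.2 - 2 = j - 1 := by omega
      rw [this]; exact hq2
    rcases Finset.mem_union.1 hx with hx | hx
    · obtain ⟨e, he, rfl⟩ := Finset.mem_image.1 hx
      have he' := (Finset.mem_filter.1 he).1
      simp only [Ew, Finset.mem_filter, Finset.mem_univ, true_and] at he'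
      exact memF _ (Finset.mem_image_of_mem _ (Finset.mem_filter.1 he).2.2) he'.1 he'.2.1
    · exact memF _ (hM x hx).1 (hM x hx).2.1 (hM x hx).2.2.1
  have h1 := Finset.card_le_card hsub
  rw [Finset.card_insert_of_notMem (by simp [hqE, hqM]), Finset.card_union_of_disjoint hd,
    hc] at h1
  omega

theorem mem_U (w : ℕ → Bool) (j : ℕ) (S : Finset (Fin (j + 2))) (z : ℕ)
    (hz : z ∈ S.image Fin.val) (h2 : 2 ≤ z) (h3 : z ≠ (cur w j).1) (h4 : z ≠ (cur w j).2) :
    z ∈ (S \ Rw w j).image Fin.val := by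
  obtain ⟨y, hy, rfl⟩ := Finset.mem_image.1 hz
  refine Finset.mem_image_of_mem _ (Finset.mem_sdiff.2 ⟨hy, ?_⟩)
  simp only [Rw, Finset.mem_filter, Finset.mem_univ, true_and]
  omega

theorem card_U {k : ℕ} (U : Finset (Fin k)) : (U.image Fin.val).card = U.card :=
  Finset.card_image_of_injective _ Fin.val_injective

theorem mem_T (w : ℕ → Bool) (j : ℕ) (S : Finset (Fin (j + 2))) (hS : Rw w j ⊆ S) (z : ℕ)
    (hz : z = (cur w j).1 ∨ z = (cur w j).2) : z ∈ S.image Fin.val := by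
  have := cur_le w j
  refine Finset.mem_image.2 ⟨⟨z, by omega⟩, hS ?_, rfl⟩
  simp only [Rw, Finset.mem_filter, Finset.mem_univ, true_and]
  tauto

theorem part_a (m0 j : ℕ) (hj : m0 + 1 ≤ j) :
    Safe m0 (Rw (fun _ => true) j) (Ew (fun _ => true) j) := by
  refine ⟨edge_lt _ j, fun S hS => ?_⟩
  set w : ℕ → Bool := fun _ => true with hw
  set T := S.image Fin.val with hT
  have hcur : ∀ i, cur w i = (0, i + 1) := cur_true
  have h1 : (T.filter (2 ≤ ·)).card ≤ (S \ Rw w j).card + 1 := by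
    rw [← card_U (S \ Rw w j)]
    refine le_trans (Finset.card_le_card (t := insert (j + 1) ((S \ Rw w j).image Fin.val)) ?_)
      (Finset.card_insert_le _ _)
    intro z hz
    rw [Finset.mem_filter] at hz
    by_cases h : z = j + 1
    · simp [h]
    · exact Finset.mem_insert_of_mem (mem_U w j S z hz.1 hz.2 (by rw [hcur]; omega)
        (by rw [hcur]; exact h))
  by_cases hm : m0 ≤ (S \ Rw w j).card
  · right
    have := core w j (by omega) S hS ∅ (by simp)
    rw [← hT] at this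
    exact ⟨by omega, hm⟩
  left
  have hlast : j + 1 ∈ T := mem_T w j S hS _ (by rw [hcur]; simp)
  obtain ⟨y, hy2, hyj, hyT⟩ : ∃ y, 2 ≤ y ∧ y ≤ j ∧ y ∉ T := by
    by_contra hcon
    push Not at hcon
    have : Finset.Icc 2 j ⊆ (S \ Rw w j).image Fin.val := by
      intro z hz
      rw [Finset.mem_Icc] at hz
      exact mem_U w j S z (hcon z hz.1 hz.2) hz.1 (by rw [hcur]; omega) (by rw [hcur]; omega)
    have h2 := Finset.card_le_card this
    rw [card_U, Nat.card_Icc] at h2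
    omega
  have hex : ∃ z, y < z ∧ z ∈ T := ⟨j + 1, by omega, hlast⟩
  classical
  obtain ⟨hz1, hz2⟩ := Nat.find_spec hex
  have hz3 : Nat.find hex - 1 ∉ T := by
    intro h
    by_cases h' : Nat.find hex - 1 = y
    · exact hyT (h' ▸ h)
    · exact Nat.find_min hex (m := Nat.find hex - 1) (by omega) ⟨by omega, h⟩
  have := core w j (by omega) S hS {(Nat.find hex - 1, Nat.find hex)} (by
    intro q hq
    rw [Finset.mem_singleton] at hq
    subst hq
    refine ⟨hz2, by dsimp only; omega, Or.inr ?_, hz3⟩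
    rw [hcur]; dsimp only; omega)
  rw [← hT, Finset.card_singleton] at this
  omega

theorem part_b (m0 j : ℕ) (w : ℕ → Bool) (hB : Blk w j (m0 + 2)) :
    Safe m0 (Rw w j) (Ew w j) ∧ 2 ≤ (cur w j).1 ∧ 2 ≤ (cur w j).2 := by
  obtain ⟨τ, -, hτj, hτ⟩ := hB
  have hstep : ∀ b < m0 + 2, τ b < τ (b + 1) := by
    intro b hb
    obtain ⟨⟨i, h1, h2, -⟩, -⟩ := hτ b hb
    omega
  have hmono : ∀ b' ≤ m0 + 2, ∀ b ≤ b', τ b ≤ τ b' := by
    intro b'
    induction b' with
    | zero => intro _ b hb; rw [Nat.le_zero.1 hb]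
    | succ b' ih =>
      intro h b hb
      rcases Nat.lt_or_eq_of_le hb with h1 | h1
      · have := ih (by omega) b (by omega)
        have := hstep b' (by omega)
        omega
      · rw [h1]
  have hge : ∀ b < m0 + 2, ∀ i, τ (b + 1) ≤ i → τ b + 2 ≤ (cur w i).1 ∧ τ b + 2 ≤ (cur w i).2 := by
    intro b hb i hi
    obtain ⟨⟨i1, h1, h2, h3⟩, ⟨i2, h4, h5, h6⟩⟩ := hτ b hb
    exact ⟨cur_fst_ge w _ i2 h4 h6 i (by omega), cur_snd_ge w _ i1 h1 h3 i (by omega)⟩
  have hfin := hge (m0 + 1) (by omega) j (by rw [← hτj])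
  have hj : 1 ≤ j := by
    have := hstep (m0 + 1) (by omega)
    rw [← hτj]
    exact lt_of_le_of_lt (Nat.zero_le _) this
  refine ⟨⟨edge_lt w j, fun S hS => ?_⟩, by omega, by omega⟩
  set T := S.image Fin.val with hT
  have h1 : (T.filter (2 ≤ ·)).card ≤ (S \ Rw w j).card + 2 := by
    rw [← card_U (S \ Rw w j)]
    refine le_trans (Finset.card_le_card
      (t := insert (cur w j).1 (insert (cur w j).2 ((S \ Rw w j).image Fin.val))) ?_) ?_
    · intro z hz
      rw [Finset.mem_filter] at hz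
      by_cases h : z = (cur w j).1
      · simp [h]
      by_cases h' : z = (cur w j).2
      · simp [h']
      exact Finset.mem_insert_of_mem (Finset.mem_insert_of_mem (mem_U w j S z hz.1 hz.2 h h'))
    · have a1 := Finset.card_insert_le (cur w j).1
        (insert (cur w j).2 ((S \ Rw w j).image Fin.val))
      have a2 := Finset.card_insert_le (cur w j).2 ((S \ Rw w j).image Fin.val)
      omega
  by_cases hm : m0 ≤ (S \ Rw w j).card
  · right
    have := core w j hj S hS ∅ (by simp)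
    rw [← hT] at this
    exact ⟨by omega, hm⟩
  left
  obtain ⟨b, hb, hbT⟩ : ∃ b < m0, ∀ z ∈ T, τ b + 2 ≤ z → τ (b + 1) + 2 ≤ z := by
    by_contra hcon
    push Not at hcon
    choose! f hf1 hf2 hf3 using hcon
    apply hm
    rw [← card_U (S \ Rw w j)]
    nth_rewrite 1 [← Finset.card_range m0]
    refine Finset.card_le_card_of_injOn f ?_ ?_
    · intro b hb
      have hb' : b < m0 := by simpa using hb
      have a1 := hmono (m0 + 1) (by omega) (b + 1) (by omega)
      have a2 := hf2 b hb'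
      have a3 := hf3 b hb'
      exact mem_U w j S _ (hf1 b hb') (by omega) (by omega) (by omega)
    · intro b hb b' hb' h
      have hb1 : b < m0 := by simpa using hb
      have hb2 : b' < m0 := by simpa using hb'
      have a2 := hf2 b hb1
      have a3 := hf3 b hb1
      have a4 := hf2 b' hb2
      have a5 := hf3 b' hb2
      by_contra hne
      rcases Nat.lt_or_gt_of_ne hne with h1 | h1
      · have := hmono b' (by omega) (b + 1) (by omega)
        omega
      · have := hmono b (by omega) (b' + 1) (by omega)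
        omega
  have hb1 := hmono (m0 + 1) (by omega) b (by omega)
  have hT1 : (cur w j).1 ∈ T := mem_T w j S hS _ (Or.inl rfl)
  have hT2 : (cur w j).2 ∈ T := mem_T w j S hS _ (Or.inr rfl)
  have hne := cur_ne w j
  classical
  have hex : ∃ z, τ b + 2 ≤ z ∧ z ∈ T := ⟨_, by omega, hT1⟩
  obtain ⟨z1, ⟨hz1, hz1T⟩, hz1m⟩ : ∃ z1, (τ b + 2 ≤ z1 ∧ z1 ∈ T) ∧
      ∀ z < z1, ¬ (τ b + 2 ≤ z ∧ z ∈ T) :=
    ⟨Nat.find hex, Nat.find_spec hex, fun z hz => Nat.find_min hex hz⟩
  have hex2 : ∃ z, z1 < z ∧ z ∈ T := by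
    have a1 : z1 ≤ (cur w j).1 := by
      by_contra h; exact hz1m _ (by omega) ⟨by omega, hT1⟩
    have a2 : z1 ≤ (cur w j).2 := by
      by_contra h; exact hz1m _ (by omega) ⟨by omega, hT2⟩
    by_cases h : z1 = (cur w j).1
    · exact ⟨_, by omega, hT2⟩
    · exact ⟨_, by omega, hT1⟩
  obtain ⟨z2, ⟨hz2, hz2T⟩, hz2m⟩ : ∃ z2, (z1 < z2 ∧ z2 ∈ T) ∧
      ∀ z < z2, ¬ (z1 < z ∧ z ∈ T) :=
    ⟨Nat.find hex2, Nat.find_spec hex2, fun z hz => Nat.find_min hex2 hz⟩
  have hz1' := hbT z1 hz1T hz1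
  have g1 := hge b (by omega) (z1 - 2) (by omega)
  have g2 := hge b (by omega) (z2 - 2) (by omega)
  have l1 := cur_le w (z1 - 2)
  have l2 := cur_le w (z2 - 2)
  have n1 := cur_ne w (z1 - 2)
  have n2 := cur_ne w (z2 - 2)
  obtain ⟨y, hy, hyT⟩ : ∃ y, (y = (cur w (z2 - 2)).1 ∨ y = (cur w (z2 - 2)).2) ∧ y ∉ T := by
    have key : ∀ y, τ b + 2 ≤ y → y < z2 → y ≠ z1 → y ∉ T := by
      intro y a1 a2 a3 a4
      rcases Nat.lt_or_gt_of_ne a3 with h | h
      · exact hz1m y h ⟨a1, a4⟩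
      · exact hz2m y a2 ⟨h, a4⟩
    by_cases h : (cur w (z2 - 2)).1 = z1
    · exact ⟨_, Or.inr rfl, key _ g2.2 (by omega) (by omega)⟩
    · exact ⟨_, Or.inl rfl, key _ g2.1 (by omega) h⟩
  have := core w j hj S hS
    {((cur w (z1 - 2)).1, z1), ((cur w (z1 - 2)).2, z1), (y, z2)} (by
    intro q hq
    simp only [Finset.mem_insert, Finset.mem_singleton] at hq
    rcases hq with rfl | rfl | rfl
    · exact ⟨hz1T, by dsimp only; omega, Or.inl rfl,
        fun h => hz1m _ (by omega) ⟨g1.1, h⟩⟩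
    · exact ⟨hz1T, by dsimp only; omega, Or.inr rfl,
        fun h => hz1m _ (by omega) ⟨g1.2, h⟩⟩
    · exact ⟨hz2T, by dsimp only; omega, hy, hyT⟩)
  rw [← hT, Finset.card_insert_of_notMem (by simp; omega),
    Finset.card_insert_of_notMem (by simp; omega), Finset.card_singleton] at this
  omega

end SafeA

theorem safe_proof : SafeStmt :=
  ⟨fun m0 j hj => ⟨SafeA.part_a m0 j hj, by rw [SafeA.cur_true]⟩, SafeA.part_b⟩

end Crest.Agent.R30
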