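import Crest.Agent.R30.Basic

/-! # Row 30, task SUMS -/

set_option autoImplicit false

namespace Crest.Agent.R30

open Crest.CombinatoricsR.TriangleRemoval Finset

namespace SumsA

theorem quad_le (k : ℕ) : (k : ℝ) * ((k : ℝ) + 4) ≤ 3 * 2 ^ k := by
  have h : ∀ k : ℕ, (k + 1) * (k + 1 + 4) ≤ 3 * 2 ^ (k + 1) ∧ 2 * (k + 1) + 4 ≤ 3 * 2 ^ (k + 1) := by
    intro k
    induction k with
    | zero => norm_num
    | succ k ih =>
      rcases Nat.eq_zero_or_pos k with rfl | hk
      · norm_num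
      · rw [pow_succ 2 (k + 1)]
        constructor <;> nlinarith [ih.1, ih.2]
  have h2 : k * (k + 4) ≤ 3 * 2 ^ k := by
    cases k with
    | zero => norm_num
    | succ k => exact (h k).1
  exact_mod_cast h2

theorem wt_nn {lam : ℝ} (h : 0 ≤ lam) (l : ℕ) : 0 ≤ wt lam l := by
  unfold wt; positivity

theorem sum_exp {x lam : ℝ} (hx : 0 ≤ x) (h : 0 ≤ lam) (N : ℕ) :
    ∑ i ∈ range N, x ^ i * wt lam i ≤ Real.exp (x * lam) := by
  refine le_trans (le_of_eq ?_) (Real.sum_le_exp_of_nonneg (mul_nonneg hx h) N)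
  refine Finset.sum_congr rfl fun i _ => ?_
  rw [wt, mul_pow, mul_div_assoc]

theorem sum_one {D lam : ℝ} (hD : 1 ≤ D) (h : 0 ≤ lam) (N : ℕ) :
    ∑ b ∈ range (N + 2), (8 * D) ^ b * wt lam (b - 1) ≤ 9 * D * Real.exp (8 * D * lam) := by
  rw [Finset.sum_range_succ']
  have h1 := sum_exp (x := 8 * D) (by positivity) h (N + 1)
  have h2 : ∑ b ∈ range (N + 1), (8 * D) ^ (b + 1) * wt lam (b + 1 - 1) =
      8 * D * ∑ b ∈ range (N + 1), (8 * D) ^ b * wt lam b := by
    rw [Finset.mul_sum]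
    refine Finset.sum_congr rfl fun b _ => ?_
    rw [Nat.add_sub_cancel]; ring
  have h3 : 1 ≤ Real.exp (8 * D * lam) := Real.one_le_exp (by positivity)
  rw [h2]
  have h4 : wt lam (0 - 1) = 1 := by simp [wt]
  rw [h4]
  nlinarith

theorem sum_two {D lam : ℝ} (hD : 1 ≤ D) (h : 0 ≤ lam) (N : ℕ) :
    ∑ b ∈ range (N + 2), (8 * D) ^ b * wt lam (b - 2) ≤ 73 * D ^ 2 * Real.exp (8 * D * lam) := by
  rw [Finset.sum_range_succ', Finset.sum_range_succ']
  have h1 := sum_exp (x := 8 * D) (by positivity) h N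
  have h2 : ∑ b ∈ range N, (8 * D) ^ (b + 1 + 1) * wt lam (b + 1 + 1 - 2) =
      64 * D ^ 2 * ∑ b ∈ range N, (8 * D) ^ b * wt lam b := by
    rw [Finset.mul_sum]
    refine Finset.sum_congr rfl fun b _ => ?_
    have : b + 1 + 1 - 2 = b := by omega
    rw [this]; ring
  have h3 : 1 ≤ Real.exp (8 * D * lam) := Real.one_le_exp (by positivity)
  rw [h2]
  have h4 : wt lam (0 - 2) = 1 := by simp [wt]
  rw [h4]
  have h6 : 64 * D ^ 2 * ∑ b ∈ range N, (8 * D) ^ b * wt lam b ≤
      64 * D ^ 2 * Real.exp (8 * D * lam) := mul_le_mul_of_nonneg_left h1 (by positivity)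
  have h7 : D ^ 2 ≤ D ^ 2 * Real.exp (8 * D * lam) := le_mul_of_one_le_right (by positivity) h3
  simp only [zero_add, pow_one, pow_zero, mul_one]
  nlinarith

variable {n : ℕ}

theorem rsum_sum {ι : Type} (G : Gr n) (fl : Bool) (s : Finset ι)
    (f : ι → Fin n → Fin n → Fin n → Fin n → ℝ) :
    rsum G fl (fun u v u' v' => ∑ i ∈ s, f i u v u' v') = ∑ i ∈ s, rsum G fl (f i) := by
  unfold rsum
  symm
  rw [Finset.sum_comm]
  refine Finset.sum_congr rfl fun u _ => ?_
  rw [Finset.sum_comm]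
  refine Finset.sum_congr rfl fun v _ => ?_
  rw [Finset.sum_comm]
  refine Finset.sum_congr rfl fun u' _ => ?_
  rw [Finset.sum_comm]
  refine Finset.sum_congr rfl fun v' _ => ?_
  split_ifs <;> simp

theorem rsum_mul (G : Gr n) (fl : Bool) (f : Fin n → Fin n → Fin n → Fin n → ℝ) (c : ℝ) :
    rsum G fl (fun u v u' v' => f u v u' v' * c) = rsum G fl f * c := by
  unfold rsum
  simp only [Finset.sum_mul, ite_mul, zero_mul]

theorem rsum_le (G : Gr n) (fl : Bool) (f : Fin n → Fin n → Fin n → Fin n → ℝ) (c : ℝ)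
    (hc : 0 ≤ c) (h : ∀ u v u' v', f u v u' v' ≤ c) : rsum G fl f ≤ (n : ℝ) ^ 4 * c := by
  unfold rsum
  calc _ ≤ ∑ _u : Fin n, ∑ _v : Fin n, ∑ _u' : Fin n, ∑ _v' : Fin n, c := by
        refine Finset.sum_le_sum fun u _ => Finset.sum_le_sum fun v _ =>
          Finset.sum_le_sum fun u' _ => Finset.sum_le_sum fun v' _ => ?_
        split_ifs
        · exact h u v u' v'
        · exact hc
    _ = _ := by
        simp only [Finset.sum_const, Finset.card_univ, Fintype.card_fin, nsmul_eq_mul]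
        ring

theorem part_two (D θ : ℝ) (a : ℕ → ℝ) (N : ℕ) (hD : 0 < D) (hθ : D * θ ≤ 1 / 2)
    (ha : ∀ i < N, 0 ≤ a i ∧ a i ≤ θ) :
    0 ≤ sq D a N ∧ sq D a N = D * ∑ i ∈ range N, a i * Real.exp (-2 * sq D a i) ∧
    1 + 2 * D * ∑ i ∈ range N, a i ≤ Real.exp (2 * sq D a N) ∧
    Real.exp (2 * sq D a N) ≤ 1 + 2 * D * (1 + 2 * D * θ) * ∑ i ∈ range N, a i := by
  induction N with
  | zero => simp [sq]
  | succ k ih =>
    obtain ⟨h1, h2, h3, h4⟩ := ih fun i hi => ha i (Nat.lt_succ_of_lt hi)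
    obtain ⟨ha0, ha1⟩ := ha k (Nat.lt_succ_self k)
    have hs : sq D a (k + 1) = sq D a k + D * a k * Real.exp (-2 * sq D a k) := rfl
    set e := Real.exp (-2 * sq D a k) with he
    set E := Real.exp (2 * sq D a k) with hE
    have he0 : 0 < e := Real.exp_pos _
    have hE0 : 0 < E := Real.exp_pos _
    have he1 : e ≤ 1 := Real.exp_le_one_iff.2 (by linarith)
    have heE : E * e = 1 := by
      rw [hE, he, ← Real.exp_add]; simp
    set y := 2 * (D * a k * e) with hy
    have hy0 : 0 ≤ y := by positivity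
    have hyθ : y ≤ 2 * D * θ := by
      have : D * a k * e ≤ D * a k := mul_le_of_le_one_right (by positivity) he1
      have h' : D * a k ≤ D * θ := mul_le_mul_of_nonneg_left ha1 hD.le
      linarith
    have hy1 : y ≤ 1 := by linarith
    have hexp : Real.exp (2 * sq D a (k + 1)) = E * Real.exp y := by
      rw [hs, hE, ← Real.exp_add]; congr 1; ring
    have hEy : E * y = 2 * D * a k := by
      calc E * y = 2 * D * a k * (E * e) := by rw [hy]; ring
        _ = _ := by rw [heE, mul_one]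
    have l1 : 1 + y ≤ Real.exp y := by linarith [Real.add_one_le_exp y]
    have l2 : Real.exp y ≤ 1 + y + y ^ 2 := by
      have := (abs_le.1 (Real.abs_exp_sub_one_sub_id_le (x := y)
        (by rw [abs_of_nonneg hy0]; exact hy1))).2
      linarith
    refine ⟨by rw [hs]; positivity, ?_, ?_, ?_⟩
    · rw [Finset.sum_range_succ, hs, mul_add, ← h2]; ring
    · rw [Finset.sum_range_succ, hexp]
      have := mul_le_mul_of_nonneg_left l1 hE0.le
      nlinarith
    · rw [Finset.sum_range_succ, hexp]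
      have a1 := mul_le_mul_of_nonneg_left l2 hE0.le
      have a2 : E * (1 + y + y ^ 2) = E + 2 * D * a k * (1 + y) := by
        rw [← hEy]; ring
      have a3 : 2 * D * a k * (1 + y) ≤ 2 * D * a k * (1 + 2 * D * θ) :=
        mul_le_mul_of_nonneg_left (by linarith) (by positivity)
      nlinarith

end SumsA

open SumsA Classical in
theorem sums_proof (hG : GeoStmt) : SumsStmt := by
  refine ⟨?_, part_two⟩
  intro n ν D κ pt lam fl N Λ0 hD hκ hpt hlam hnp hν hν1 hreg hF
  have hD0 : 0 < D := by linarith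
  set c : ℝ := (3 * κ * pt ^ (if fl then 3 else 2) + 1 / 2 ^ Λ0) * (n : ℝ) ^ 4 with hc
  have hc0 : 0 ≤ c := by positivity
  have key : ∀ b l₁ l₂ : ℕ, ∑ G, ν G * rsum G fl (fun u v u' v' =>
      (cntT (okG G (root u v u' v')) (piT (root u v u' v')) b l₁ l₂ : ℝ)) ≤
      c * (8 * D) ^ (b + l₁ + l₂) := by
    intro b l₁ l₂
    set Λ := b + l₁ + l₂ with hΛ
    have e8 : (8 * D) ^ Λ = 2 ^ Λ * (4 * D) ^ Λ := by
      rw [← mul_pow]; congr 1; ring
    by_cases h : Λ ≤ Λ0
    · refine (hG.2 n ν D κ pt fl b l₁ l₂ hD hκ hpt hnp hν hreg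
        (fun F hFc => hF F (by omega))).trans ?_
      rw [← hΛ]
      calc κ * (n : ℝ) ^ 4 * pt ^ (if fl then 3 else 2) * (4 * D) ^ Λ * ((Λ : ℝ) * ((Λ : ℝ) + 4))
          ≤ κ * (n : ℝ) ^ 4 * pt ^ (if fl then 3 else 2) * (4 * D) ^ Λ * (3 * 2 ^ Λ) :=
            mul_le_mul_of_nonneg_left (quad_le Λ) (by positivity)
        _ = (3 * κ * pt ^ (if fl then 3 else 2)) * (n : ℝ) ^ 4 * (8 * D) ^ Λ := by
            rw [e8]; ring
        _ ≤ _ := by
            refine mul_le_mul_of_nonneg_right (mul_le_mul_of_nonneg_right ?_ (by positivity))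
              (by positivity)
            have : (0 : ℝ) ≤ 1 / 2 ^ Λ0 := by positivity
            linarith
    · calc _ ≤ ∑ G, ν G * ((n : ℝ) ^ 4 * (4 * D) ^ Λ) := by
            refine Finset.sum_le_sum fun G _ => ?_
            by_cases h0 : ν G = 0
            · simp [h0]
            · exact mul_le_mul_of_nonneg_left (rsum_le G fl _ _ (by positivity)
                fun u v u' v' => hG.1 n G D _ b l₁ l₂ hD0 (hreg G h0)) (hν G)
        _ ≤ (n : ℝ) ^ 4 * (4 * D) ^ Λ := by
            rw [← Finset.sum_mul]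
            exact mul_le_of_le_one_left (by positivity) hν1
        _ ≤ 1 / 2 ^ Λ0 * (n : ℝ) ^ 4 * (8 * D) ^ Λ := by
            have h1 : (1 : ℝ) ≤ 2 ^ Λ / 2 ^ Λ0 := by
              rw [le_div_iff₀ (by positivity), one_mul]
              exact pow_le_pow_right₀ (by norm_num) (by omega)
            calc (n : ℝ) ^ 4 * (4 * D) ^ Λ ≤ 2 ^ Λ / 2 ^ Λ0 * ((n : ℝ) ^ 4 * (4 * D) ^ Λ) :=
                  le_mul_of_one_le_left (by positivity) h1
              _ = _ := by rw [e8]; ring
        _ ≤ _ := by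
            refine mul_le_mul_of_nonneg_right (mul_le_mul_of_nonneg_right ?_ (by positivity))
              (by positivity)
            have : (0 : ℝ) ≤ 3 * κ * pt ^ (if fl then 3 else 2) := by positivity
            linarith
  have w0 := wt_nn hlam
  calc _ = ∑ b ∈ range (N + 2), ∑ l₁ ∈ range (N + 2), ∑ l₂ ∈ range (N + 2),
        (∑ G, ν G * rsum G fl (fun u v u' v' =>
          (cntT (okG G (root u v u' v')) (piT (root u v u' v')) b l₁ l₂ : ℝ))) *
          (wt lam (b - 1) * wt lam (l₁ - 2) * wt lam (l₂ - 2)) := by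
        simp only [colB, rsum_sum, rsum_mul, Finset.mul_sum, Finset.sum_mul]
        rw [Finset.sum_comm]
        refine Finset.sum_congr rfl fun b _ => ?_
        rw [Finset.sum_comm]
        refine Finset.sum_congr rfl fun l₁ _ => ?_
        rw [Finset.sum_comm]
        refine Finset.sum_congr rfl fun l₂ _ => Finset.sum_congr rfl fun G _ => ?_
        ring
    _ ≤ ∑ b ∈ range (N + 2), ∑ l₁ ∈ range (N + 2), ∑ l₂ ∈ range (N + 2),
        c * (((8 * D) ^ b * wt lam (b - 1)) * ((8 * D) ^ l₁ * wt lam (l₁ - 2)) *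
          ((8 * D) ^ l₂ * wt lam (l₂ - 2))) := by
        refine Finset.sum_le_sum fun b _ => Finset.sum_le_sum fun l₁ _ =>
          Finset.sum_le_sum fun l₂ _ => ?_
        refine (mul_le_mul_of_nonneg_right (key b l₁ l₂)
          (mul_nonneg (mul_nonneg (w0 _) (w0 _)) (w0 _))).trans (le_of_eq ?_)
        ring
    _ = c * ((∑ b ∈ range (N + 2), (8 * D) ^ b * wt lam (b - 1)) *
          (∑ l₁ ∈ range (N + 2), (8 * D) ^ l₁ * wt lam (l₁ - 2)) *
          (∑ l₂ ∈ range (N + 2), (8 * D) ^ l₂ * wt lam (l₂ - 2))) := by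
        rw [Finset.sum_mul_sum, Finset.sum_mul, Finset.mul_sum]
        refine Finset.sum_congr rfl fun b _ => ?_
        rw [Finset.sum_mul_sum, Finset.mul_sum]
        refine Finset.sum_congr rfl fun l₁ _ => ?_
        rw [Finset.mul_sum]
    _ ≤ _ := by
        refine mul_le_mul_of_nonneg_left ?_ hc0
        have s1 := sum_one hD hlam N
        have s2 := sum_two hD hlam N
        have n2 : 0 ≤ ∑ l₁ ∈ range (N + 2), (8 * D) ^ l₁ * wt lam (l₁ - 2) :=
          Finset.sum_nonneg fun l _ => mul_nonneg (by positivity) (w0 _)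
        have e : Real.exp (24 * D * lam) =
            Real.exp (8 * D * lam) * Real.exp (8 * D * lam) * Real.exp (8 * D * lam) := by
          rw [← Real.exp_add, ← Real.exp_add]; congr 1; ring
        calc _ ≤ (9 * D * Real.exp (8 * D * lam)) * (73 * D ^ 2 * Real.exp (8 * D * lam)) *
              (73 * D ^ 2 * Real.exp (8 * D * lam)) :=
              mul_le_mul (mul_le_mul s1 s2 n2 (by positivity)) s2 n2 (by positivity)
          _ = 47961 * (D ^ 5 * Real.exp (24 * D * lam)) := by rw [e]; ring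
          _ ≤ 50000 * (D ^ 5 * Real.exp (24 * D * lam)) :=
              mul_le_mul_of_nonneg_right (by norm_num) (by positivity)
          _ = _ := by ring

end Crest.Agent.R30
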