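import Crest.Agent.R30.Basic

/-! # R30 SURV: survival probabilities of fixed edge sets -/

set_option autoImplicit false

namespace Crest.Agent.R30

open Crest.CombinatoricsR.TriangleRemoval Finset

namespace Surv

theorem bonf {ι α : Type} [DecidableEq ι] [DecidableEq α] (Tr : ι → Finset α) (a : ℝ)
    (F : Finset ι) (h1 : ∀ e ∈ F, a ≤ (Tr e).card)
    (h2 : ∀ e ∈ F, ∀ e' ∈ F, e ≠ e' → (Tr e ∩ Tr e').card ≤ 1) :
    (F.card : ℝ) * a - (F.card : ℝ) ^ 2 ≤ (F.biUnion Tr).card := by
  induction F using Finset.induction_on with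
  | empty => simp
  | insert e F he ih =>
    have ih' := ih (fun e' h => h1 e' (mem_insert_of_mem h))
      fun e1 h e2 h' => h2 e1 (mem_insert_of_mem h) e2 (mem_insert_of_mem h')
    rw [biUnion_insert, card_insert_of_notMem he]
    have h3 := card_union_add_card_inter (Tr e) (F.biUnion Tr)
    have h4 : (Tr e ∩ F.biUnion Tr).card ≤ F.card := by
      rw [inter_biUnion]
      refine card_biUnion_le.trans ?_
      refine (sum_le_card_nsmul _ _ 1 fun e' h' => h2 e (mem_insert_self _ _) e'
        (mem_insert_of_mem h') fun hh => he (hh ▸ h')).trans (by simp)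
    have h5 := h1 e (mem_insert_self _ _)
    have h3' : ((Tr e ∪ F.biUnion Tr).card : ℝ) + (Tr e ∩ F.biUnion Tr).card =
        (Tr e).card + (F.biUnion Tr).card := by exact_mod_cast h3
    have h4' : ((Tr e ∩ F.biUnion Tr).card : ℝ) ≤ F.card := by exact_mod_cast h4
    have h6 : (0 : ℝ) ≤ F.card := Nat.cast_nonneg _
    push_cast
    nlinarith

variable {n : ℕ}

theorem eq_triple {t : Finset (Fin n)} (ht : t.card = 3) {a b c : Fin n} (hab : a ≠ b)
    (hac : a ≠ c) (hbc : b ≠ c) (ha : a ∈ t) (hb : b ∈ t) (hc : c ∈ t) : t = {a, b, c} := by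
  refine (eq_of_subset_of_card_le ?_ ?_).symm
  · intro z hz
    simp only [mem_insert, mem_singleton] at hz
    rcases hz with rfl | rfl | rfl <;> assumption
  · rw [ht, card_eq_three.2 ⟨a, b, c, hab, hac, hbc, rfl⟩]

theorem one_step {G F : Gr n} {D η : ℝ} (hD : 0 < D) (hG : Reg G D η) (hF : F ⊆ G) :
    ∑ t ∈ T n, (if F ⊆ step t G then (1 : ℝ) else 0) ≤
      (T n).card - ((F.card : ℝ) * ((1 - η) * D) - (F.card : ℝ) ^ 2) := by
  classical
  set Tr : Sym2 (Fin n) → Finset (Finset (Fin n)) :=
    fun e => (triangles G).filter fun t => e ∈ t.sym2 with hTr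
  have hb := bonf Tr ((1 - η) * D) F (fun e he => ?_) fun e he e' he' hne => ?_
  · have hsub : F.biUnion Tr ⊆ T n := fun t ht => by
      obtain ⟨e, -, h⟩ := mem_biUnion.1 ht
      exact triangles_subset_T G (mem_filter.1 h).1
    rw [← sum_sdiff hsub]
    have h1 : ∑ t ∈ F.biUnion Tr, (if F ⊆ step t G then (1 : ℝ) else 0) = 0 := by
      refine sum_eq_zero fun t ht => if_neg fun hs => ?_
      obtain ⟨e, he, h⟩ := mem_biUnion.1 ht
      obtain ⟨h2, h3⟩ := mem_filter.1 h
      have h4 := hs he
      unfold step at h4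
      rw [if_pos h2] at h4
      exact (mem_sdiff.1 h4).2 h3
    have h2 : ∑ t ∈ T n \ F.biUnion Tr, (if F ⊆ step t G then (1 : ℝ) else 0) ≤
        ((T n \ F.biUnion Tr).card : ℝ) := by
      refine (sum_le_card_nsmul _ _ 1 fun t _ => by split_ifs <;> norm_num).trans (by simp)
    have h3 : ((T n \ F.biUnion Tr).card : ℝ) + (F.biUnion Tr).card = (T n).card := by
      exact_mod_cast card_sdiff_add_card_eq_card hsub
    linarith
  · induction e using Sym2.ind with
    | _ u v =>
      have huv := hF he
      have h1 := tri_count hG.1 huv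
      have h2 : Tr s(u, v) = (triangles G).filter fun t => u ∈ t ∧ v ∈ t := by
        simp only [hTr, mk_mem_sym2_iff]
      rw [h2, h1]
      exact Y_ge hD hG (ne_of_mem hG.1 huv)
  · induction e using Sym2.ind with
    | _ a b =>
    induction e' using Sym2.ind with
    | _ c d =>
      have hab := ne_of_mem hG.1 (hF he)
      have hcd := ne_of_mem hG.1 (hF he')
      obtain ⟨z, hza, hzb, hz⟩ : ∃ z, a ≠ z ∧ b ≠ z ∧ (z = c ∨ z = d) := by
        by_contra hn
        push Not at hn
        have h1 := hn c
        have h2 := hn d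
        apply hne
        rw [Sym2.eq_iff]
        by_cases e1 : a = c
        · by_cases e2 : b = d
          · exact Or.inl ⟨e1, e2⟩
          · exact absurd rfl (h2 (fun e3 => hcd (e1.symm.trans e3)) e2).2
        · by_cases e2 : b = c
          · by_cases e3 : a = d
            · exact Or.inr ⟨e3, e2⟩
            · exact absurd rfl (h2 e3 fun e4 => hcd (e2.symm.trans e4)).2
          · exact absurd rfl (h1 e1 e2).1
      have key : ∀ t ∈ Tr s(a, b) ∩ Tr s(c, d), t = {a, b, z} := fun t ht => by
        obtain ⟨h1, h2⟩ := mem_inter.1 ht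
        obtain ⟨h3, h4⟩ := mem_filter.1 h1
        obtain ⟨-, h5⟩ := mem_filter.1 h2
        rw [mk_mem_sym2_iff] at h4 h5
        refine eq_triple (mem_triangles.1 h3).1 hab hza hzb h4.1 h4.2 ?_
        rcases hz with rfl | rfl
        · exact h5.1
        · exact h5.2
      exact card_le_one.2 fun t ht t' ht' => (key t ht).trans (key t' ht').symm

end Surv

open Surv in
theorem surv_proof : SurvStmt := by
  classical
  intro n good x0 ν Dk η hn hν hD hg k F
  have hM : (0 : ℝ) < (T n).card := by exact_mod_cast (T_nonempty hn).card_pos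
  induction k with
  | zero =>
    rw [hν.2.1 fun G => if F ⊆ G then (1 : ℝ) else 0]
    simp only [range_zero, sum_empty, mul_zero, neg_zero, Nat.cast_zero, zero_div, add_zero,
      Real.exp_zero]
    split_ifs <;> norm_num
  | succ k ih =>
    rw [hν.2.2 k fun G => if F ⊆ G then (1 : ℝ) else 0]
    have e : Real.exp (-((F.card : ℝ) * (1 - η) * ∑ i ∈ range (k + 1), Dk i / (T n).card) +
          (F.card : ℝ) ^ 2 * (k + 1 : ℕ) / (T n).card) =
        Real.exp (-((F.card : ℝ) * (1 - η) * ∑ i ∈ range k, Dk i / (T n).card) +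
          (F.card : ℝ) ^ 2 * k / (T n).card) *
        Real.exp (-(((F.card : ℝ) * ((1 - η) * Dk k) - (F.card : ℝ) ^ 2) / (T n).card)) := by
      rw [← Real.exp_add, sum_range_succ]
      congr 1
      push_cast
      ring
    rw [e]
    refine le_trans ?_ (mul_le_mul_of_nonneg_right ih (Real.exp_pos _).le)
    rw [sum_mul]
    refine sum_le_sum fun G _ => ?_
    rw [mul_assoc]
    refine mul_le_mul_of_nonneg_left ?_ (hν.1 k G)
    by_cases hF : F ⊆ G
    · rw [if_pos hF, one_mul]
      split_ifs with hG
      · have h1 := one_step (hD k) (hg k G hG) hF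
        have h2 := Real.add_one_le_exp
          (-(((F.card : ℝ) * ((1 - η) * Dk k) - (F.card : ℝ) ^ 2) / (T n).card))
        refine le_trans ?_ h2
        refine le_trans (div_le_div_of_nonneg_right (le_trans (le_of_eq (by convert rfl)) h1)
          hM.le) (le_of_eq ?_)
        rw [sub_div, div_self hM.ne']
        ring
      · exact (Real.exp_pos _).le
    · rw [if_neg hF, zero_mul]
      split_ifs with hG
      · rw [sum_eq_zero fun t _ => if_neg fun hs => hF (hs.trans (step_subset t G))]
        simp
      · exact le_rfl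

end Crest.Agent.R30
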